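import Crest.Agent.X212.Bki64.G1

/-!
# X212, BRKI (helper64), part 4: limits along the ends
-/

set_option autoImplicit false
set_option linter.unusedSectionVars false
noncomputable section
open scoped Manifold ContDiff Topology InnerProductSpace
open MeasureTheory Set Function Filter

namespace Crest.Agent.X212.Bki64
open An Sob92 Cyf70 Neck67 Cmp73 Pj41 Eqv71 Tmp64 Nd18 Std94

theorem exists_best {X : Type*} {B : X → Prop} {Q : ℕ → X → Prop} (h0 : ∃ a, B a)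
    (anti : ∀ m m' a, m ≤ m' → Q m' a → Q m a) (N : ℕ) :
    ∃ a, B a ∧ ∀ m ≤ N, (∃ a', B a' ∧ Q m a') → Q m a := by
  classical
  by_cases h : ∃ a', B a' ∧ Q 0 a'
  · obtain ⟨a, h1, h2⟩ := Nat.findGreatest_spec (P := fun m => ∃ a', B a' ∧ Q m a') N.zero_le h
    exact ⟨a, h1, fun m hm h3 => anti _ _ _ (Nat.le_findGreatest hm h3) h2⟩
  · exact h0.imp fun a h1 => ⟨h1, fun m _ ⟨a', h2, h3⟩ => (h ⟨a', h2, anti _ _ _ m.zero_le h3⟩).elim⟩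

theorem ev_choice {α : Type*} {X : α → Type*} [∀ n, Nonempty (X n)] {l : Filter α}
    {P : ∀ n, X n → Prop} (h : ∀ᶠ n in l, ∃ y, P n y) : ∃ f : ∀ n, X n, ∀ᶠ n in l, P n (f n) :=
  ⟨fun n => Classical.epsilon (P n), h.mono fun _ h => Classical.epsilon_spec h⟩

section gen
variable {E : Type} [NormedAddCommGroup E] [NormedSpace ℝ E] [FiniteDimensional ℝ E]
  [MeasurableSpace E] [BorelSpace E]
  {HM : Type} [TopologicalSpace HM] {I : ModelWithCorners ℝ E HM}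
  {M : Type} [TopologicalSpace M] [ChartedSpace HM M] [IsManifold I ∞ M]
  [MeasurableSpace M] {ι : Type} [Fintype ι] {lam : Type} [Fintype lam] {r r' r'' : ℕ}
  {B : Base M ι lam} {G : Geo I M ι lam} {α : Type} {ρ : α → ℕ} {F : Fr I M ι} {l : Filter α}
  {S : α → Set M} {k : ℕ} {c : ∀ n, Cfg M ι lam (ρ n)} {c' : Cfg M ι lam r'}
  {c'' : Cfg M ι lam r''} {u v : ∀ n, M → CL (c n).m.V c'.m.V}
  {u' : ∀ n, M → CL (c n).m.V c''.m.V} {Ω K O : Set M}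

/-- the phase may be changed a little -/
theorem CZ.phase {ζ ζ' : α → Circle} (H : CZ G.F l S k c c' u fun n _ => ζ n)
    (h1 : Fx B G l S k c') (h : Tendsto (fun n => dist (ζ' n) (ζ n)) l (𝓝 0)) :
    CZ G.F l S k c c' u fun n _ => ζ' n := by
  have h2 : Tendsto (fun n => ((ζ' n / ζ n : Circle) : ℂ) - 1) l (𝓝 0) := by
    refine tendsto_zero_iff_norm_tendsto_zero.2 (h.congr fun n => ?_)
    rw [Circle.coe_div, div_sub_one (ζ n).coe_ne_zero, norm_div, Circle.norm_coe, div_one,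
      ← dist_eq_norm]
    rfl
  refine (H.comp (CZ.of_near (h := fun _ => c'.m.p) (ξ := fun n _ => ζ' n / ζ n)
    (h1.adm.mono fun _ h => Iso0.refl h.ok) h1 ((ZZ.zero H.op).congr' fun _ _ => sub_self _)
    (ZZ.consts H.op h2)) h1 h1 (bb_circ H.op _)).congr (H.iso.mono fun n h x hx =>
      ⟨(h.iso x hx).left.symm, (div_mul_cancel _ _).symm⟩)

/-- closeness passes to a limit -/
theorem CZ.quot_le {ζ : α → Circle} {η δ : ℝ} (H : CZ G.F l S k c c' u fun _ _ => 1)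
    (H' : ∀ᶠ n in l, Cl G.F (c n) c'' (u' n) (fun _ => ζ n) (S n) k η)
    (h0 : ∀ᶠ n in l, AdmOn (c n) B G (S n)) (h1 : Fx B G l S k c') (h2 : Fx B G l S k c'')
    (hδ : 0 < δ) :
    ∀ᶠ n in l, Cl G.F c' c'' (fun x => u' n x ∘L ad (u n x)) (fun _ => ζ n) (S n) k (η + δ) := by
  have ht : ∀ᶠ n in l, Iso0 I c'.m c''.m (S n) fun x => u' n x ∘L ad (u n x) := by
    filter_upwards [H.iso, H', h0, h1.adm] with n a b d e using (a.symm d.ok e.ok).trans b.iso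
  have e1 : ∀ a, ∀ᶠ n in l, ∀ x ∈ S n, Bki64.cov G.F c' c'' (fun x => u' n x ∘L ad (u n x)) a x =
      dA G.F (c n) c'' (u' n) a x ∘L (u' n x ∘L ad (u n x)) +
        (u' n x ∘L ad (u n x)) ∘L ad (dA G.F (c n) c' (u n) a x) := fun a => by
    filter_upwards [H.iso, H', h0, h1.adm] with n a' b d e x hx
      using cov_quot a' b.iso b.op d e hx a
  have b1 : ∀ a, BB G.F.toPre l S k fun n => dA G.F (c n) c'' (u' n) a := fun a =>
    ⟨η, H'.mono fun _ h => ⟨h.op, h.A a⟩⟩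
  have hb := (bb_of_cov H.op ht h1 h2 fun j hj hb a => ((((b1 a).of_le hj).comp hb).add
    (hb.comp ((H.A a).of_le hj).bb.ad)).congr (e1 a)).of_le k.le_succ
  have z1 := eventually_all.2 fun a => ((hb.compZ (H.A a).ad).comp hb.ad) δ hδ
  have z2 := ((bb_circ H.op ζ).clm (csB c''.m.J)).appZ (hb.appZ H.P) δ hδ
  filter_upwards [H.iso, H', ht, h2.adm, eventually_all.2 e1, z1, z2] with n a b d e f g h
  refine ⟨b.op, d, fun i => (Lb.add b.op (b.A i) (g i).2).congr b.op fun x hx => ?_,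
    ((Lb.sub' b.op b.P h.2).mono (by rw [abs_of_pos hδ])).congr b.op fun x hx => ?_⟩
  · rw [dA, f i x hx, ← ad_trn, ContinuousLinearMap.add_comp, ContinuousLinearMap.comp_assoc,
      (d.iso x hx).tgt, dA, ContinuousLinearMap.comp_assoc, ← ad_trn, (b.iso.iso x hx).symm.idem]
  · have := dP_quot e.ok.Jsq a b.iso d hx 1 (ζ n)
    rwa [div_one] at this

variable (F l c c' v Ω) in
/-- locally uniform convergence with all derivatives over `Ω`, in the gauge `v` -/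
def CvC : Prop := ∀ x ∈ Ω, ∃ O, x ∈ O ∧ IsOpen O ∧ ∀ k, CZ F l (fun _ => O) k c c' v fun _ _ => 1

theorem CvC.mono {Ω' : Set M} {l' : Filter α} (h : CvC F l c c' v Ω) (hl : l' ≤ l) (e : Ω' ⊆ Ω) :
    CvC F l' c c' v Ω' := fun x hx =>
  let ⟨O, h1, h2, h3⟩ := h x (e hx)
  ⟨O, h1, h2, fun k => (h3 k).mono hl le_rfl (Eventually.of_forall fun _ => ⟨h2, Subset.rfl⟩)⟩

theorem CvC.cz (h : CvC F l c c' v Ω) (hK : IsCompact K) (hΩ : K ⊆ Ω) (hO : IsOpen O) (e : O ⊆ K)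
    (k : ℕ) : CZ F l (fun _ => O) k c c' v fun _ _ => 1 := fun ε hε => by
  choose! U h1 h2 h3 using h
  obtain ⟨T, h4, h5⟩ := hK.elim_nhds_subcover U fun x hx => (h2 x (hΩ hx)).mem_nhds (h1 x (hΩ hx))
  refine ((eventually_all_finset T).2 fun x hx => h3 x (hΩ (h4 x hx)) k ε hε).mono fun n hn =>
    Cl.of_local hO fun x hx => ?_
  obtain ⟨y, hy, h6⟩ := mem_iUnion₂.1 (h5 (e hx))
  exact ⟨_, _, _, h6, .rfl, .rfl, hn y hy⟩

/-- `CvC` from the convergence `Cmp73.Cv` -/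
theorem CvC.of_cv [I.Boundaryless] [LocallyCompactSpace M] (hΩ : IsOpen Ω)
    (h1 : ∀ x ∈ Ω, ∃ O ∈ 𝓝 x, ∀ᶠ n in l, Iso0 I (c n).m c'.m O (v n))
    (h2 : ∀ a, Cv I l Ω (fun n => dA F (c n) c' (v n) a) fun _ => 0)
    (h3 : Cv I l Ω (fun n => dP (c n) c' (v n) 1) fun _ => 0) : CvC F l c c' v Ω := fun x hx => by
  obtain ⟨O, h4, h5⟩ := h1 x hx
  obtain ⟨K, h6, h7, h8⟩ := local_compact_nhds (inter_mem h4 (hΩ.mem_nhds hx))
  have e := h7.trans inter_subset_right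
  exact ⟨interior K, mem_interior_iff_mem_nhds.2 h6, isOpen_interior, fun k => CZ.mk
    (h5.mono fun _ h => h.mono (interior_subset.trans (h7.trans inter_subset_left)))
    (fun a => ZZ.of_cv hΩ h8 e isOpen_interior interior_subset k (h2 a))
    (ZZ.of_cv hΩ h8 e isOpen_interior interior_subset k h3)⟩

theorem Fx.fixed [I.Boundaryless] (h : AdmOn c' B G K) (hK : IsCompact K)
    (hS : ∀ᶠ n in l, IsOpen (S n) ∧ S n ⊆ K) : Fx B G l S k c' :=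
  ⟨hS.mono fun _ a => h.mono a.2, fun a => BB.fixed hK Subset.rfl hS k (h.conn.sm a),
    BB.fixed hK Subset.rfl hS k h.sm⟩

end gen

variable {E3 : Type} [NormedAddCommGroup E3] [NormedSpace ℝ E3] [FiniteDimensional ℝ E3]
  [MeasurableSpace E3] [BorelSpace E3]
  {H3 : Type} [TopologicalSpace H3] {I3 : ModelWithCorners ℝ E3 H3} [I3.Boundaryless]
  {Y : Type} [TopologicalSpace Y] [ChartedSpace H3 Y] [IsManifold I3 ∞ Y] [T2Space Y]
  [MeasurableSpace Y] [BorelSpace Y] [SecondCountableTopology Y] [CompactSpace Y]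
  {κ : Type} [Fintype κ] {lam : Type} [Fintype lam] {D : YD I3 Y κ lam} {β β' : YC Y κ lam}
  {k : ℕ} {r : ℕ}

theorem tendsto_eta {f : ℕ → ℝ} (h0 : ∀ n, 0 ≤ f n) (h : ∀ n : ℕ, f n ≤ 1 / ((n : ℝ) + 1)) :
    Tendsto f (hyperfilter ℕ) (𝓝 0) :=
  (squeeze_zero h0 h tendsto_one_div_add_atTop_nhds_zero_nat).mono_left
    (hyperfilter_le_cofinite.trans Nat.cofinite_eq_atTop.le)

theorem phase_eta (hβ : D.Adm β) {ε : ℝ} (hε : 0 < ε) :
    ∃ η > 0, ∀ r (c : Cfg (Y × ℝ) (Option κ) lam r) O u ζ ζ', dist ζ' ζ ≤ η →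
      Cn D c β u ζ O η → Cn D c β u ζ' O ε := by
  obtain ⟨η, h0, h1⟩ := exists_eta (γ := (r : ℕ) × (c : Cfg (Y × ℝ) (Option κ) lam r) ×
      Set (Y × ℝ) × (Y × ℝ → CL c.m.V β.m.V) × Circle × Circle)
    (P := fun ⟨_, c, O, u, _, ζ'⟩ => Cn D c β u ζ' O ε)
    (H := fun ⟨_, c, O, u, ζ, ζ'⟩ η => dist ζ' ζ ≤ η ∧ Cn D c β u ζ O η) fun d hd => by
      have k := cz_seq (fun n => (hd n).2) ⌈ε⁻¹⌉₊
      exact (k.phase (G := D.G) (fx_cy hβ k.op)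
        (tendsto_eta (fun _ => dist_nonneg) fun n => (hd n).1) ε hε).exists
  exact ⟨η, h0, fun r c O u ζ ζ' a b => h1 ⟨r, c, O, u, ζ, ζ'⟩ ⟨a, b⟩⟩

/-- windows which are close to `β` and to `β'` -/
theorem stb_of_eta (hβ : D.Adm β) (hβ' : D.Adm β') {L : ℝ} (hL : 0 < L) {ξ ξ' : Circle}
    (h : ∀ η > 0, ∃ (r : ℕ) (c : Cfg (Y × ℝ) (Option κ) lam r) (s : ℝ) (u : _) (u' : _)
      (ζ ζ' : Circle), AdmOn c D.B D.G (win Y s L) ∧ Cn D c β u ζ (win Y s L) η ∧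
        Cn D c β' u' ζ' (win Y s L) η ∧ dist ζ ξ ≤ η ∧ dist ζ' ξ' ≤ η) :
    ∃ g, Stb D β β' g (ξ' / ξ) := by
  choose r c s u u' ζ ζ' h1 h2 h3 h4 h5 using fun n : ℕ => h _ (Nat.one_div_pos_of_nat (n := n))
  obtain ⟨g, ξ0, h6, h7, -⟩ := step_fam hβ hβ' (half_lt_self hL) hL (Eventually.of_forall h1)
    (cz_seq h2) (cz_seq h3)
  exact ⟨g, tendsto_nhds_unique h7 ((tendsto_iff_dist_tendsto_zero.2
    (tendsto_eta (fun _ => dist_nonneg) h5)).div' (tendsto_iff_dist_tendsto_zero.2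
      (tendsto_eta (fun _ => dist_nonneg) h4))) ▸ h6⟩

theorem Stb.refl (hβ : D.Adm β) : Stb D β β β.m.p 1 :=
  let h := Eq0.refl (admOn_univ.2 hβ.adm)
  ⟨h.iso, fun a x => h.par x trivial a, fun y => by
    rw [Circle.coe_one, cs_one]; exact (h.Φ (y, 0) trivial).symm⟩

theorem ext1_eta (hβ : D.Adm β) {ε : ℝ} (hε : 0 < ε) :
    ∃ η > 0, ∀ r (c : Cfg (Y × ℝ) (Option κ) lam r) s u v ζ, AdmOn c D.B D.G (win Y s 3) →
      Cn D c β u ζ (win Y s 3) η → Cn D c β v ζ (win Y s 3) η → ∃ g, Stb D β β g 1 ∧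
        Lb D.Z.toPre (win Y s 2) ⌈ε⁻¹⌉₊ (fun x => (g x.1 ∘L u x) ∘L ad (v x) - β.m.p x.1) ε ∧
        Lb D.Z.toPre (win Y s 2) ⌈ε⁻¹⌉₊ (fun x => v x ∘L ad (g x.1 ∘L u x) - β.m.p x.1) ε := by
  obtain ⟨η, h0, h1⟩ := exists_eta (γ := (r : ℕ) × (c : Cfg (Y × ℝ) (Option κ) lam r) × ℝ ×
      (Y × ℝ → CL c.m.V β.m.V) × (Y × ℝ → CL c.m.V β.m.V) × Circle)
    (P := fun ⟨_, _, s, u, v, _⟩ => ∃ g, Stb D β β g 1 ∧
        Lb D.Z.toPre (win Y s 2) ⌈ε⁻¹⌉₊ (fun x => (g x.1 ∘L u x) ∘L ad (v x) - β.m.p x.1) ε ∧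
        Lb D.Z.toPre (win Y s 2) ⌈ε⁻¹⌉₊ (fun x => v x ∘L ad (g x.1 ∘L u x) - β.m.p x.1) ε)
    (H := fun ⟨_, c, s, u, v, ζ⟩ η => AdmOn c D.B D.G (win Y s 3) ∧
      Cn D c β u ζ (win Y s 3) η ∧ Cn D c β v ζ (win Y s 3) η)
    fun d hd => by
      obtain ⟨g, ξ, h2, h3, h4⟩ := step_fam hβ hβ (L' := 2) (by norm_num) (by norm_num)
        (Eventually.of_forall fun n => (hd n).1) (cz_seq fun n => (hd n).2.1)
        (cz_seq fun n => (hd n).2.2)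
      simp only [div_self'] at h3
      have h5 := h4 ⌈ε⁻¹⌉₊
      have h6 := BB.fst (F := D.F.toPre) h5.op ⌈ε⁻¹⌉₊ (φ := g)
        fun _ => sm_slice (t := 0) (h2.iso.su _ trivial)
      have h7 : ∀ y, g y ∘L ad (g y) = β.m.p y := fun y => (h2.iso.iso (y, 0) trivial).tgt
      obtain ⟨n, ⟨-, e3⟩, -, e4⟩ := ((h6.compZ h5.ad ε hε).and (h5.comp h6.ad ε hε)).exists
      refine ⟨n, g, tendsto_nhds_unique h3 tendsto_const_nhds ▸ h2,
        e3.congr (win_op _ _) fun x _ => ?_, e4.congr (win_op _ _) fun x _ => ?_⟩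
      · beta_reduce
        rw [ad_sub, ad_comp, ad_ad, ContinuousLinearMap.comp_sub, h7]
        rfl
      · beta_reduce
        rw [ad_comp, ContinuousLinearMap.sub_comp, h7]
        rfl
  exact ⟨η, h0, fun r c s u v ζ k1 k2 k3 => h1 ⟨r, c, s, u, v, ζ⟩ ⟨k1, k2, k3⟩⟩

/-- an end of the line -/
structure IsEnd (l : Filter ℝ) : Prop where
  far : Tendsto (fun s : ℝ => |s|) l atTop
  th : ∀ S ∈ l, ∀ R : ℝ, ∃ S' ∈ l, IsOpen S' ∧ ∀ s ∈ S', ∀ s', |s' - s| ≤ R → s' ∈ S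

theorem isEnd_top : IsEnd atTop := ⟨tendsto_abs_atTop_atTop, fun S hS R =>
  let ⟨a, ha⟩ := mem_atTop_sets.1 hS
  ⟨Ioi (a + R), Ioi_mem_atTop _, isOpen_Ioi, fun s hs s' h => ha s' (by
    linarith [(abs_le.1 h).1, mem_Ioi.1 hs])⟩⟩

theorem isEnd_bot : IsEnd atBot := ⟨tendsto_abs_atBot_atTop, fun S hS R =>
  let ⟨a, ha⟩ := mem_atBot_sets.1 hS
  ⟨Iio (a - R), Iio_mem_atBot _, isOpen_Iio, fun s hs s' h => ha s' (by
    linarith [(abs_le.1 h).2, mem_Iio.1 hs])⟩⟩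

theorem IsEnd.ev {l : Filter ℝ} (hl : IsEnd l) {S : Set ℝ} (hS : S ∈ l) (R : ℝ) :
    ∀ᶠ s in l, Icc (s - R) (s + R) ⊆ S :=
  let ⟨_, h1, _, h2⟩ := hl.th S hS R
  mem_of_superset h1 fun s hs s' h => h2 s hs s' (abs_le.2 ⟨by linarith [h.1], by linarith [h.2]⟩)

/-- **one gauge along an end** -/
theorem lim_gauge (hD : D.OK) (hβ : D.Adm β) {l : Filter ℝ} (hl : IsEnd l)
    {c : Cfg (Y × ℝ) (Option κ) lam r} {ζ : Circle} (h : ∀ η > 0, ∀ᶠ s in l,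
      AdmOn c D.B D.G (win Y s 7) ∧ ∃ w, Cn D c β w ζ (win Y s 7) η) :
    ∃ u, ∀ k, ∀ η > 0, ∃ S ∈ l, IsOpen S ∧ Cl D.Z c (cy β) u (fun _ => ζ) (univ ×ˢ S) k η := by
  have p : ∀ m : ℕ, 0 < 1 / ((m : ℝ) + 1) := fun _ => Nat.one_div_pos_of_nat
  choose w hw0 hw using fun i : ℤ => exists_best (B := fun _ => True)
    (Q := fun m (w : Y × ℝ → CL c.m.V (cy β).m.V) => Cn D c β w ζ (win Y i 7) (1 / ((m : ℝ) + 1)))
    ⟨0, trivial⟩ (fun m m' a e h => h.mono (win_op _ _) Subset.rfl (p _)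
      (Nat.one_div_le_one_div e)) i.natAbs
  let P : ℤ → (Y × ℝ → CL c.m.V (cy β).m.V) → Prop := fun i a =>
    ∃ g, Stb D β β g 1 ∧ a = fun x => g x.1 ∘L w i x
  let Q : ℤ → ℕ → (Y × ℝ → CL c.m.V (cy β).m.V) → (Y × ℝ → CL c.m.V (cy β).m.V) → Prop :=
    fun i m a b => Lb D.Z.toPre (win Y i 2) ⌈(1 / ((m : ℝ) + 1))⁻¹⌉₊
      (fun x => b x ∘L ad (a x) - (cy β).m.p x) (1 / ((m : ℝ) + 1))
  have hQ : ∀ i m m' a b, m ≤ m' → Q i m' a b → Q i m a b := fun i m m' a b e h =>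
    (h.of_le (Nat.ceil_mono (inv_anti₀ (p _) (Nat.one_div_le_one_div e)))).mono
      (Nat.one_div_le_one_div e)
  have P0 : ∀ i, ∃ a, P i a := fun i => ⟨_, _, Stb.refl hβ, rfl⟩
  obtain ⟨f, hf⟩ := exists_int_seq (P := P) (i0 := 0) (P0 0).choose_spec
    (R := fun i a b => (∀ m ≤ i.natAbs, (∃ b', P (i + 1) b' ∧ Q i m a b') → Q i m a b) ∨
      ∀ m ≤ i.natAbs, (∃ a', P i a' ∧ Q i m a' b) → Q i m a b)
    (fun i _ a _ => (exists_best (P0 _) (fun m m' b => hQ i m m' a b) i.natAbs).imp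
      fun _ h => ⟨h.1, .inl h.2⟩)
    fun i _ b _ => (exists_best (P0 _) (fun m m' a => hQ (i - 1) m m' a b) (i - 1).natAbs).imp
      fun _ h => ⟨h.1, .inr h.2⟩
  refine ⟨fun x => gl (cy β).m (fun y => chi (y.2 - ⌊x.2⌋)) (f ⌊x.2⌋) (f (⌊x.2⌋ + 1)) x,
    fun k ε hε => ?_⟩
  obtain ⟨η0, p0, H0⟩ := gl_eta hD hβ k hε
  obtain ⟨m, hm⟩ := exists_nat_one_div_lt p0
  obtain ⟨η2, p2, H2⟩ := ext1_eta hβ (p m)
  obtain ⟨η3, p3, H3⟩ := act_eta hβ hβ (lt_min p0 p2)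
  obtain ⟨m', hm'⟩ := exists_nat_one_div_lt (lt_min p3 p2)
  obtain ⟨S, h1, h2, h3⟩ := hl.th _ ((h _ (p m')).and
    (hl.far.eventually_ge_atTop (max m m' : ℕ))) 2
  refine ⟨S, h1, h2, Cl.of_local (isOpen_univ.prod h2) fun x hx => ?_⟩
  have f0 := Int.floor_le x.2
  have f1 := Int.lt_floor_add_one x.2
  have base : ∀ i : ℤ, |(i : ℝ) - ⌊x.2⌋| ≤ 1 → AdmOn c D.B D.G (win Y i 7) ∧ m ≤ i.natAbs ∧
      Cn D c β (w i) ζ (win Y i 7) (min η3 η2) ∧ Cn D c β (f i) ζ (win Y i 7) (min η0 η2) := by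
    intro i hi
    obtain ⟨⟨a1, a2⟩, a3⟩ := h3 _ hx.2 i (by rw [abs_le] at hi ⊢; constructor <;> linarith)
    have a4 : max m m' ≤ i.natAbs := by
      rw [← Int.cast_abs, ← Int.natCast_natAbs, Int.cast_natCast] at a3
      exact_mod_cast a3
    have a5 := (hw i m' ((le_max_right _ _).trans a4) (a2.imp fun _ h => ⟨trivial, h⟩)).mono
      (win_op _ _) Subset.rfl (p _) hm'.le
    obtain ⟨g, a6, a7⟩ := (hf i).1
    have a8 := H3 r c _ _ _ g _ a6 (a5.mono (win_op _ _) Subset.rfl (lt_min p3 p2) (min_le_left _ _))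
    rw [one_mul] at a8
    exact ⟨a1, (le_max_left _ _).trans a4, a5, a7 ▸ a8⟩
  obtain ⟨a1, a2, a3, a4⟩ := base ⌊x.2⌋ (by simp)
  obtain ⟨b1, -, b3, b4⟩ := base (⌊x.2⌋ + 1) (by simp)
  have s1 := win_sub (Y := Y) (show |(⌊x.2⌋ : ℝ) - ⌊x.2⌋| + 3 ≤ 7 by norm_num)
  have s2 := win_sub (Y := Y) (show |(⌊x.2⌋ : ℝ) - (⌊x.2⌋ + 1 : ℤ)| + 3 ≤ 7 by norm_num)
  have q : Q ⌊x.2⌋ m (f ⌊x.2⌋) (f (⌊x.2⌋ + 1)) := by
    rcases (hf ⌊x.2⌋).2 with e | e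
    · obtain ⟨g, k1, k2, -⟩ := H2 r c _ _ _ ζ (a1.mono s1)
        (b3.mono (win_op _ _) s2 (lt_min p3 p2) (min_le_right _ _))
        (a4.mono (win_op _ _) s1 (lt_min p0 p2) (min_le_right _ _))
      exact e m a2 ⟨_, ⟨g, k1, rfl⟩, k2⟩
    · obtain ⟨g, k1, -, k2⟩ := H2 r c _ _ _ ζ (a1.mono s1)
        (a3.mono (win_op _ _) s1 (lt_min p3 p2) (min_le_right _ _))
        (b4.mono (win_op _ _) s2 (lt_min p0 p2) (min_le_right _ _))
      exact e m a2 ⟨_, ⟨g, k1, rfl⟩, k2⟩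
  have iso : ∀ i : ℤ, |(i : ℝ) - ⌊x.2⌋| ≤ 1 → Iso0 (IC I3) c.m (cy β).m (win Y ⌊x.2⌋ 2) (f i) :=
    fun i hi => (base i hi).2.2.2.iso.mono (win_sub (by rw [abs_sub_comm]; linarith))
  refine ⟨win Y ⌊x.2⌋ 2, _, _, ⟨trivial, by linarith, by linarith⟩, ?_, ?_,
    H0 r c ⌊x.2⌋ _ _ (Complex.arg ζ) (Complex.arg ζ) (a1.mono (win_sub (by norm_num)))
      ((Circle.exp_arg ζ).symm ▸ a4.mono (win_op _ _) (win_sub (by norm_num)) (lt_min p0 p2)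
        (min_le_left _ _)) (iso (⌊x.2⌋ + 1) (by simp))
      ((q.of_le (Nat.ceil_mono (inv_anti₀ (p m) hm.le))).mono hm.le) (by simpa using p0.le)⟩
  · filter_upwards [continuous_snd.continuousAt.eventually (ev_floor x.2)] with y hy
    rcases hy with h | ⟨h2, h3, h4, h5⟩
    · simp only [h]
    · have hy : y ∈ win Y ⌊x.2⌋ 2 := ⟨trivial, by linarith [(abs_lt.1 h5).1],
        by linarith [(abs_lt.1 h5).2]⟩
      have a1 := (iso ⌊x.2⌋ (by simp)).iso y hy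
      rw [gl_left hβ.adm.ok a1 (chi_zero h3), h2]
      exact gl_right hβ.adm.ok ((iso ⌊y.2⌋ (by rw [← h2]; simp)).iso y hy) a1 (chi_one h4)
  · exact Eventually.of_forall fun y => by simp

/-- the compact window -/
theorem cwin_cpt (s L : ℝ) : IsCompact (univ ×ˢ Icc (s - L) (s + L) : Set (Y × ℝ)) :=
  isCompact_univ.prod isCompact_Icc

/-- **the limit of a family which is close to `β` along an end converges to `β`** -/
theorem lim_of_cv (hD : D.OK) (hβ : D.Adm β) {l : Filter ℝ} (hl : IsEnd l) {α : Type}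
    {𝒰 : Filter α} [𝒰.NeBot] {ρ : α → ℕ} {c : ∀ n, Cfg (Y × ℝ) (Option κ) lam (ρ n)}
    {γ : Cfg (Y × ℝ) (Option κ) lam r} {v : ∀ n, Y × ℝ → CL (c n).m.V γ.m.V} {T : Set ℝ}
    (hT : T ∈ l) (hγ : AdmOn γ D.B D.G (univ ×ˢ T)) (hv : CvC D.Z 𝒰 c γ v (univ ×ˢ T))
    {ζ : Circle} (h : ∀ η > 0, ∀ᶠ s in l, ∀ᶠ n in 𝒰,
      AdmOn (c n) D.B D.G (win Y s 7) ∧ ∃ w, Cn D (c n) β w ζ (win Y s 7) η) :
    ∃ u, ∀ k, ∀ η > 0, ∃ S ∈ l, S ⊆ T ∧ D.Cls γ β u ζ S k η := by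
  obtain ⟨T', t1, t2, t3⟩ := hl.th T hT 0
  have t4 : T' ⊆ T := fun s hs => t3 s hs s (by simp)
  obtain ⟨u, hu⟩ := lim_gauge hD hβ hl (c := γ) (ζ := ζ) fun η hη => by
    filter_upwards [h _ (half_pos hη), hl.ev hT 7] with s h1 h2
    have e' : (univ ×ˢ Icc (s - 7) (s + 7) : Set (Y × ℝ)) ⊆ univ ×ˢ T := prod_mono_right h2
    have e2 : win Y s 7 ⊆ univ ×ˢ Icc (s - 7) (s + 7) := prod_mono_right Ioo_subset_Icc_self
    refine ⟨hγ.mono (e2.trans e'), ?_⟩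
    obtain ⟨w, hw⟩ := ev_choice (h1.mono fun _ h => h.2)
    have k := hv.cz (cwin_cpt s 7) e' (win_op _ _) e2 ⌈η⁻¹⌉₊
    obtain ⟨n, hn⟩ := (k.quot_le (G := D.G) (ζ := fun _ => ζ) (hw.mono fun _ h => Cl.mono h h.op
      Subset.rfl (Nat.ceil_mono (inv_anti₀ (by positivity) (by linarith))) le_rfl)
      (h1.mono fun _ h => h.1) (Fx.fixed (hγ.mono e') (cwin_cpt s 7)
        (Eventually.of_forall fun _ => ⟨win_op _ _, e2⟩)) (fx_cy hβ k.op) (half_pos hη)).exists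
    exact ⟨_, hn.mono hn.op Subset.rfl le_rfl (by linarith)⟩
  refine ⟨u, fun k η hη => ?_⟩
  obtain ⟨S, h1, h2, h3⟩ := hu k η hη
  have e := inter_subset_right.trans t4 (a := S ∩ T')
  exact ⟨S ∩ T', inter_mem h1 t1, e, (h3.mono (isOpen_univ.prod (h2.inter t2))
    (prod_mono_right inter_subset_left) le_rfl le_rfl).cls hβ (h2.inter t2)
      (hγ.mono (prod_mono_right e))⟩

/-- windows of a configuration which converges along an end -/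
theorem cn_of_lim (hβ : D.Adm β) {l : Filter ℝ} (hl : IsEnd l) {c : Cfg (Y × ℝ) (Option κ) lam r}
    {u : Y × ℝ → CL c.m.V β.m.V} {ζ : Circle} {T : Set ℝ} (hc : AdmOn c D.B D.G (univ ×ˢ T))
    (h : ∀ k, ∀ η > 0, ∃ S ∈ l, S ⊆ T ∧ D.Cls c β u ζ S k η) {η : ℝ} (hη : 0 < η) (L : ℝ) :
    ∀ᶠ s in l, Cn D c β u ζ (win Y s L) η := by
  obtain ⟨S, h1, h2, h3⟩ := h ⌈η⁻¹⌉₊ η hη
  exact (hl.ev h1 L).mono fun s hs => (cl_of_cls hβ (hc.mono (prod_mono_right h2)) h3).mono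
    (win_op _ _) (prod_mono_right (Ioo_subset_Icc_self.trans hs)) le_rfl le_rfl

end Crest.Agent.X212.Bki64
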