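import Crest.Agent.X212.Bki64.Lim
import Crest.Agent.X212.Brk64.En
import Crest.Agent.X212.Tmp64.Cfg
import Crest.Agent.X212.Loc66.Paste
import Crest.Agent.X212.Mp86.Wd
import Crest.Agent.X212.Dgr80.Pw
import Crest.Agent.X212.Nd18.Term

/-!
# X212, BRKI (helper64), part 5: the densities `en` and `kd` of close configurations
-/

set_option autoImplicit false
set_option linter.unusedSectionVars false
noncomputable section
open scoped Manifold ContDiff Topology InnerProductSpace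
open MeasureTheory Set Function Filter

namespace Crest.Agent.X212.Bki64
open An Sob92 Cyf70 Neck67 Cmp73 Pj41 Eqv71 Tmp64 Nd18 Std94
open Wz78 (curv nab SA)
open Dgr80 (en)

theorem inner_diff {V : Type*} [NormedAddCommGroup V] [InnerProductSpace ℝ V] {a a' b b' : V}
    {K L δ : ℝ} (h1 : ‖a - a'‖ ≤ L * δ) (h2 : ‖b - b'‖ ≤ L * δ) (h3 : ‖a'‖ ≤ K) (h4 : ‖b'‖ ≤ K)
    (hL : 0 ≤ L) (hδ : δ ≤ 1) : |⟪a, b⟫_ℝ - ⟪a', b'⟫_ℝ| ≤ L * (L + 2 * K) * δ := by
  have e : ⟪a, b⟫_ℝ - ⟪a', b'⟫_ℝ = ⟪a - a', b - b'⟫_ℝ + ⟪a - a', b'⟫_ℝ + ⟪a', b - b'⟫_ℝ := by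
    simp only [inner_sub_left, inner_sub_right]; ring
  have h0 := (norm_nonneg _).trans h1
  have h5 : ‖b - b'‖ ≤ L := h2.trans (mul_le_of_le_one_right hL hδ)
  rw [e]
  refine (abs_add_three _ _ _).trans ?_
  linarith [(abs_real_inner_le_norm _ _).trans (mul_le_mul h1 h5 (norm_nonneg _) h0),
    (abs_real_inner_le_norm _ _).trans (mul_le_mul h1 h4 (norm_nonneg _) h0),
    (abs_real_inner_le_norm _ _).trans
      (mul_le_mul h3 h2 (norm_nonneg _) ((norm_nonneg _).trans h3))]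

section gen
variable {E : Type} [NormedAddCommGroup E] [NormedSpace ℝ E] [FiniteDimensional ℝ E]
  [MeasurableSpace E] [BorelSpace E]
  {HM : Type} [TopologicalSpace HM] {I : ModelWithCorners ℝ E HM}
  {M : Type} [TopologicalSpace M] [ChartedSpace HM M] [IsManifold I ∞ M]
  [MeasurableSpace M] {ι : Type} [Fintype ι] {lam : Type} [Fintype lam] {r r' : ℕ}
  {B : Base M ι lam} {G : Geo I M ι lam} {F : Fr I M ι} {c : Cfg M ι lam r} {c' : Cfg M ι lam r'}
  {u : M → CL c.m.V c'.m.V} {O K : Set M} {x : M} {ζ : Circle} {δ : ℝ}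

theorem fsm_pg (hB : B.OK I) {m : Md M ι lam} (hO : IsOpen O) (H : OKOn I B m O) (hx : x ∈ O) :
    FSm I m.pg x :=
  (Kl.pgF (K := smAt I x) contMDiffAt_const (fun a => H.sρ a x hx) (H.sj x hx)).congr_of_eventuallyEq
    ((hO.eventually_mem hx).mono fun _ hy => pg_eq hB (pmx_on H hy))

theorem fsm_Fg (hB : B.OK I) (hO : IsOpen O) (h : AdmOn c B G O) (hx : x ∈ O) (s : ι × ι) :
    FSm I (fun y => c.m.Fg G.F c.W y s) x :=
  SA.app (fsm_pg hB hO h.ok hx)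
    (SA.clm hsL ((Wz78.frm G.F).sCurv (fun a => h.conn.sm a x hx) _ _))

theorem fsm_nab (h : AdmOn c B G O) (hx : x ∈ O) (a : ι) : FSm I (nab I G.F.e c.W a c.Φ) x :=
  (dv_smoothAt (G.F.sm a x) (h.sm x hx)).add ((h.conn.sm a x hx).clm_apply (h.sm x hx))

theorem fsm_inner {V : Type} [NormedAddCommGroup V] [InnerProductSpace ℝ V] {f g : M → V}
    (hf : FSm I f x) (hg : FSm I g x) : FSm I (fun y => ⟪f y, g y⟫_ℝ) x :=
  ((innerSL ℝ).contDiff.contDiffAt.comp_contMDiffAt hf).clm_apply hg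

variable (F c) in
/-- products of curvature components -/
def qF (s t : ι × ι) (x : M) : ℝ := ⟪c.m.Fg F c.W x s, c.m.Fg F c.W x t⟫_ℝ

variable (F c) in
/-- squares of the covariant derivatives of the spinor -/
def qN (a : ι) (x : M) : ℝ := ⟪nab I F.e c.W a c.Φ x, nab I F.e c.W a c.Φ x⟫_ℝ

theorem kd_q (x : M) :
    c.m.kd B F c.W x = -(128 * Real.pi ^ 2)⁻¹ * ∑ s, ∑ t, B.st x s t * qF F c s t x :=
  Loc66.kd_eq _ _ _ _

theorem fsm_st (hB : B.OK I) (s t : ι × ι) : FSm I (fun y => B.st y s t) x :=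
  FSm.mul' (hB.so _ _ _ _ x) (contMDiffAt_const (c := (2 : ℝ)⁻¹))

theorem fsm_kd (hB : B.OK I) (hO : IsOpen O) (h : AdmOn c B G O) (hx : x ∈ O) :
    FSm I (c.m.kd B G.F c.W) x := by
  rw [funext kd_q]
  exact FSm.mul' contMDiffAt_const (FSm.sum' fun s _ => FSm.sum' fun t _ =>
    FSm.mul' (fsm_st hB s t) (fsm_inner (fsm_Fg hB hO h hx s) (fsm_Fg hB hO h hx t)))

variable (F c c' u) in
/-- the transported connection -/
def Wp : c'.m.Cn := fun a x => c'.W a x - dA F c c' u a x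

theorem par_Wp (hu : Iso0 I c.m c'.m O u) (hO : IsOpen O) (hc : AdmOn c B G O) :
    Par0 G.F c.W (Wp G.F c c' u) O u := fun x hx a => by
  rw [Wp, ContinuousLinearMap.sub_comp, dA_u hu hO hc hx, cov]; abel

theorem qF_eq (hu : Iso0 I c.m c'.m O u) (hO : IsOpen O) (hc : AdmOn c B G O)
    (hc' : AdmOn c' B G O) (hx : x ∈ O) (s t : ι × ι) : qF G.F c s t x =
      ⟪c'.m.Fg G.F (Wp G.F c c' u) x s, c'.m.Fg G.F (Wp G.F c c' u) x t⟫_ℝ := by
  have := Loc66.Fg_loc (W' := Wp G.F c c' u) hu hO hc.ok hc'.ok (fun a => hc.conn.sm a x hx) (fun a =>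
    (hc'.conn.sm a x hx).sub (fsm_dA (hu.su x hx) (hc.conn.sm a x hx) (hc'.conn.sm a x hx)))
    (par_Wp hu hO hc) hx
  rw [this, this, Loc66.inner_cj_g hu hx _ (Loc66.Fg_mem _ _ _ _), qF]

theorem qN_eq (hu : Iso0 I c.m c'.m O u) (hO : IsOpen O) (hc : AdmOn c B G O) (hx : x ∈ O) (a : ι) :
    qN G.F c a x = ⟪nab I G.F.e (Wp G.F c c' u) a (fun y => c'.Φ y + dP c c' u ζ y) x,
      nab I G.F.e (Wp G.F c c' u) a (fun y => c'.Φ y + dP c c' u ζ y) x⟫_ℝ := by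
  have s1 : FSm I (fun y => csB c.m.J ζ (c.Φ y)) x := SA.clm _ (hc.sm x hx)
  have e1 : nab I G.F.e (Wp G.F c c' u) a (fun y => c'.Φ y + dP c c' u ζ y) x =
      u x (nab I G.F.e c.W a (fun y => csB c.m.J ζ (c.Φ y)) x) := by
    rw [← Itw.nab (fun a => sub_eq_zero.1 (par_Wp hu hO hc x hx a)) (hu.su x hx).md s1.md]
    refine Wz78.nab_congr a ((hO.eventually_mem hx).mono fun y hy => ?_)
    simp only [dP, add_sub_cancel, csB_apply, map_cs (hu.J y hy).symm]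
  have e2 : nab I G.F.e c.W a (fun y => csB c.m.J ζ (c.Φ y)) x =
      cs c.m.J ζ (nab I G.F.e c.W a c.Φ x) := by
    rw [Wz78.nab_app' (T := fun _ => csB c.m.J ζ) a contMDiffAt_const (hc.sm x hx), csB_apply,
      Wz78.nabE, dv_const, Pi.zero_apply, zero_add, sub_apply, mul_apply_eq_comp, mul_apply_eq_comp,
      csB_apply, csB_apply, map_cs (hc.conn.J a x hx).symm, sub_self, zero_add]
  have e3 : c.m.p x (nab I G.F.e c.W a c.Φ x) = nab I G.F.e c.W a c.Φ x := by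
    have := Wz78.nab_app' (e := G.F.e) (A := c.W) a (hc.ok.sp x hx) (hc.sm x hx)
    rw [show Wz78.nabE I G.F.e c.W a c.m.p x = 0 from hc.conn.par a x hx, zero_apply, zero_add,
      Wz78.nab_congr a ((hO.eventually_mem hx).mono fun y hy => hc.pΦ hy)] at this
    exact this.symm
  rw [e1, e2, (hu.iso x hx).inner, map_cs (hc.ok.Jp x hx).symm, e3, qN,
    real_inner_self_eq_norm_sq, real_inner_self_eq_norm_sq, Mp86.norm_cs hc.ok.Jsq hc.ok.Jsk,
    Circle.norm_coe, one_mul]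

theorem curv_diff {κ : Type} [Fintype κ] {W α : ι → M → En κ} {C : ℝ} (hW : ∀ a, FSm I (W a) x)
    (hα : ∀ a, FSm I (α a) x) (h1 : ∀ a, ‖W a x‖ ≤ C) (h2 : ∀ a b k, ‖F.c a b k x‖ ≤ C)
    (h3 : ∀ a, ‖α a x‖ ≤ δ) (h4 : ∀ a b, ‖F.D a (α b) x‖ ≤ δ) (hδ : δ ≤ 1) (a b : ι) :
    ‖curv I F.e F.c (fun a y => W a y - α a y) a b x - curv I F.e F.c W a b x‖ ≤
      (4 + 4 * C + Fintype.card ι * C) * δ := by
  have e : curv I F.e F.c (fun a y => W a y - α a y) a b x - curv I F.e F.c W a b x =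
      F.D b (α a) x - F.D a (α b) x - W a x * α b x - α a x * (W b x - α b x) + W b x * α a x +
        α b x * (W a x - α a x) + ∑ k, F.c a b k x • α k x := by
    have := fun a b => Wz78.dv_sub' (e := F.e a) (hW b) (hα b)
    simp only [curv, this, Pre.D_def, smul_sub, Finset.sum_sub_distrib, mul_sub, sub_mul]
    abel
  have h0 := (norm_nonneg _).trans (h3 a)
  have hC := (norm_nonneg _).trans (h1 a)
  have h5 : ∀ a b, ‖W a x * α b x‖ ≤ C * δ := fun a b =>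
    (norm_mul_le _ _).trans (mul_le_mul (h1 a) (h3 b) (norm_nonneg _) hC)
  have h6 : ∀ a b, ‖α a x * (W b x - α b x)‖ ≤ δ * (C + 1) := fun a b => (norm_mul_le _ _).trans
    (mul_le_mul (h3 a) (norm_sub_le_of_le (h1 b) ((h3 b).trans hδ)) (norm_nonneg _) h0)
  have h7 : ‖∑ k, F.c a b k x • α k x‖ ≤ Fintype.card ι * (C * δ) := by
    refine (norm_sum_le _ _).trans ((Finset.sum_le_card_nsmul _ _ _ fun k _ => ?_).trans
      (by rw [nsmul_eq_mul]; rfl))
    rw [norm_smul]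
    exact mul_le_mul (h2 a b k) (h3 k) (norm_nonneg _) hC
  rw [e]
  refine (norm_add_le_of_le (norm_add_le_of_le (norm_add_le_of_le (norm_sub_le_of_le
    (norm_sub_le_of_le (norm_sub_le_of_le (h4 b a) (h4 a b)) (h5 a b)) (h6 a b)) (h5 b a))
    (h6 b a)) h7).trans (le_of_eq ?_)
  ring

theorem exists_bd {κ : Type} [Fintype κ] {N : Type} [NormedAddCommGroup N] [NormedSpace ℝ N]
    {f : κ → M → N} (hK : IsCompact K) (h : ∀ i, ∀ x ∈ K, FSm I (f i) x) :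
    ∀ᶠ C in atTop, ∀ i, ∀ x ∈ K, ‖f i x‖ ≤ C := eventually_all.2 fun i =>
  let ⟨C, hC⟩ := hK.exists_bound_of_continuousOn fun x hx => (h i x hx).continuousAt.continuousWithinAt
  (eventually_ge_atTop C).mono fun _ h x hx => (hC x hx).trans h

/-- **the curvature and the derivative of the spinor depend Lipschitz continuously on the
configuration** -/
theorem q_bd (hB : B.OK I) {Ω : Set M} (hΩ : IsOpen Ω) (hc' : AdmOn c' B G Ω) (hK : IsCompact K)
    (hKΩ : K ⊆ Ω) : ∀ᶠ C in atTop, ∀ r (c : Cfg M ι lam r) u (ζ : Circle) O δ, AdmOn c B G O →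
      Cl G.F c c' u (fun _ => ζ) O 1 δ → δ ≤ 1 → ∀ x ∈ O ∩ K,
      (∀ s t, |qF G.F c s t x - qF G.F c' s t x| ≤ C * δ) ∧
        ∀ a, |qN G.F c a x - qN G.F c' a x| ≤ C * δ := by
  obtain ⟨C, ⟨⟨b1, b2⟩, ⟨b3, b4⟩, b5⟩, b0⟩ := ((((exists_bd hK fun a x hx =>
    hc'.conn.sm a x (hKΩ hx)).and (exists_bd (f := fun s : ι × ι × ι => G.F.c s.1 s.2.1 s.2.2) hK
      fun s x _ => G.F.c_sm _ _ _ x)).and (((exists_bd (f := fun _ : Unit => c'.Φ) hK
      fun _ x hx => hc'.sm x (hKΩ hx)).and (exists_bd hK fun s x hx =>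
      fsm_Fg hB hΩ hc' (hKΩ hx) s)).and (exists_bd hK fun a x hx => fsm_nab hc' (hKΩ hx) a))).and
    (eventually_ge_atTop 0)).exists
  set L := ‖(hsL : CL (En (Fin c'.m.N)) _)‖ * (4 + 4 * C + Fintype.card ι * C)
  filter_upwards [eventually_ge_atTop (L * (L + 2 * C)),
    eventually_ge_atTop ((2 + 2 * C) * (2 + 2 * C + 2 * C))] with C' c1 c2 r c u ζ O δ hc h hδ x hx
  have ho := h.op.inter hΩ
  have hi := h.iso.mono (inter_subset_left (t := Ω))
  have hx' : x ∈ O ∩ Ω := ⟨hx.1, hKΩ hx.2⟩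
  have k1 := hc.mono (inter_subset_left (t := Ω))
  have k2 := hc'.mono (inter_subset_right (s := O))
  have h0 : 0 ≤ δ := (norm_nonneg _).trans (h.P.le hx.1)
  refine ⟨fun s t => ?_, fun a => ?_⟩
  · have : ∀ s, ‖c'.m.Fg G.F (Wp G.F c c' u) x s - c'.m.Fg G.F c'.W x s‖ ≤ L * δ := fun s => by
      have := curv_diff (F := G.F) (fun a => hc'.conn.sm a x hx'.2) (fun a => (h.A a).sm hx.1)
        (fun a => b1 a x hx.2) (fun a b k => b2 (a, b, k) x hx.2) (fun a => (h.A a).le hx.1)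
        (fun a b => ((h.A b).D a).le hx.1) hδ s.1 s.2
      refine le_trans ?_ ((mul_le_mul_of_nonneg_left this
        (norm_nonneg (hsL : CL (En (Fin c'.m.N)) _))).trans_eq (mul_assoc _ _ _).symm)
      refine le_trans (le_of_eq ?_) ((Submodule.norm_starProjection_apply_le (c'.m.gS x) _).trans
        (ContinuousLinearMap.le_opNorm _ _))
      rw [map_sub, map_sub]; rfl
    rw [qF_eq hi ho k1 k2 hx']
    exact (inner_diff (this s) (this t) (b4 s x hx.2) (b4 t x hx.2) (by positivity) hδ).trans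
      (mul_le_mul_of_nonneg_right c1 h0)
  · have e : nab I G.F.e (Wp G.F c c' u) a (fun y => c'.Φ y + dP c c' u ζ y) x -
        nab I G.F.e c'.W a c'.Φ x = G.F.D a (fun y => dP c c' u ζ y) x + c'.W a x (dP c c' u ζ x) -
          dA G.F c c' u a x (c'.Φ x + dP c c' u ζ x) := by
      simp only [nab, Wp, Wz78.dv_add' (hc'.sm x hx'.2) (h.P.sm hx.1), Pre.D_def, sub_apply, map_add]
      abel
    have : ‖nab I G.F.e (Wp G.F c c' u) a (fun y => c'.Φ y + dP c c' u ζ y) x -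
        nab I G.F.e c'.W a c'.Φ x‖ ≤ (2 + 2 * C) * δ := by
      rw [e]
      refine (norm_sub_le_of_le (norm_add_le_of_le ((h.P.D a).le hx.1)
        (ContinuousLinearMap.le_of_opNorm_le_of_le _ (b1 a x hx.2) (h.P.le hx.1)))
        (ContinuousLinearMap.le_of_opNorm_le_of_le _ ((h.A a).le hx.1)
          (norm_add_le_of_le (b3 () x hx.2) ((h.P.le hx.1).trans hδ)))).trans (le_of_eq ?_)
      ring
    rw [qN_eq (ζ := ζ) hi ho k1 hx']
    exact (inner_diff this this (b5 a x hx.2) (b5 a x hx.2) (by positivity) hδ).trans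
      (mul_le_mul_of_nonneg_right c2 h0)

end gen

variable {E3 : Type} [NormedAddCommGroup E3] [NormedSpace ℝ E3] [FiniteDimensional ℝ E3]
  [MeasurableSpace E3] [BorelSpace E3]
  {H3 : Type} [TopologicalSpace H3] {I3 : ModelWithCorners ℝ E3 H3} [I3.Boundaryless]
  {Y : Type} [TopologicalSpace Y] [ChartedSpace H3 Y] [IsManifold I3 ∞ Y] [T2Space Y]
  [MeasurableSpace Y] [BorelSpace Y] [SecondCountableTopology Y] [CompactSpace Y]
  {κ : Type} [Fintype κ] {lam : Type} [Fintype lam] {D : YD I3 Y κ lam} {β : YC Y κ lam}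
  {r r' : ℕ} {c : Cfg (Y × ℝ) (Option κ) lam r} {γ : Cfg (Y × ℝ) (Option κ) lam r'}
  {O K : Set (Y × ℝ)} {x : Y × ℝ}

variable (D c) in
/-- the energy density on the cylinder -/
abbrev eZ : Y × ℝ → ℝ := en D.Z c Prod.snd

variable (D c) in
/-- the level density on the cylinder -/
abbrev kZ : Y × ℝ → ℝ := c.m.kd D.B D.Z c.W

theorem en_q (x : Y × ℝ) :
    eZ D c x = (∑ a, qF D.Z c (none, a) (none, a) x) / 4 + qN D.Z c none x := by
  have h1 := fun a => (cyD D).xA_snd (c := c) x a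
  have h2 := (cyD D).xP_snd (c := c) x
  simp only [YD.G] at h1 h2
  simp only [en, PiLp.norm_sq_eq_of_L2, h1, qF, qN, real_inner_self_eq_norm_sq]
  rw [← h2]

theorem fsm_en (hD : D.OK) (hO : IsOpen O) (h : AdmOn c D.B D.G O) (hx : x ∈ O) :
    FSm (IC I3) (eZ D c) x := by
  rw [funext en_q]
  exact (FSm.mul' (FSm.sum' fun a _ => fsm_inner (fsm_Fg hD.B hO h hx _) (fsm_Fg hD.B hO h hx _))
    (contMDiffAt_const (c := (4 : ℝ)⁻¹))).add (fsm_inner (fsm_nab h hx _) (fsm_nab h hx _))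

theorem ek_bd (hD : D.OK) {Ω : Set (Y × ℝ)} (hΩ : IsOpen Ω) (hγ : AdmOn γ D.B D.G Ω)
    (hK : IsCompact K) (hKΩ : K ⊆ Ω) : ∃ C > 0, ∀ r (c : Cfg (Y × ℝ) (Option κ) lam r) u
      (ζ : Circle) O δ, AdmOn c D.B D.G O → Cl D.Z c γ u (fun _ => ζ) O 1 δ → δ ≤ 1 →
      ∀ x ∈ O ∩ K, |eZ D c x - eZ D γ x| ≤ C * δ ∧ |kZ D c x - kZ D γ x| ≤ C * δ := by
  obtain ⟨C, ⟨h1, h2⟩, h0⟩ := (((q_bd hD.B hΩ hγ hK hKΩ).and (exists_bd (I := IC I3)
    (f := fun s : (Option κ × Option κ) × Option κ × Option κ => fun y => D.B.st y s.1 s.2) hK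
    fun s x _ => fsm_st hD.B _ _)).and (eventually_gt_atTop 0)).exists
  set n : ℝ := (Fintype.card (Option κ × Option κ) : ℝ)
  have hp : 0 < (128 * Real.pi ^ 2)⁻¹ := by positivity
  refine ⟨(Fintype.card (Option κ) + 1) * C + (128 * Real.pi ^ 2)⁻¹ * (n * (n * (C * C))),
    by positivity, fun r c u ζ O δ hc h hδ x hx => ?_⟩
  obtain ⟨h3, h4⟩ := h1 r c u ζ O δ hc h hδ x hx
  have h5 : 0 ≤ δ := (norm_nonneg _).trans (h.P.le hx.1)
  have h6 : |∑ a, qF D.Z c (none, a) (none, a) x - ∑ a, qF D.Z γ (none, a) (none, a) x| ≤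
      Fintype.card (Option κ) * (C * δ) := by
    rw [← Finset.sum_sub_distrib, ← nsmul_eq_mul]
    exact (Finset.abs_sum_le_sum_abs _ _).trans (Finset.sum_le_card_nsmul _ _ _ fun a _ => h3 _ _)
  have h7 : |∑ s, ∑ t, D.B.st x s t * qF D.Z c s t x - ∑ s, ∑ t, D.B.st x s t * qF D.Z γ s t x| ≤
      n * (n * (C * (C * δ))) := by
    simp only [← Finset.sum_sub_distrib, ← mul_sub, n, ← nsmul_eq_mul]
    refine (Finset.abs_sum_le_sum_abs _ _).trans (Finset.sum_le_card_nsmul _ _ _ fun s _ =>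
      (Finset.abs_sum_le_sum_abs _ _).trans (Finset.sum_le_card_nsmul _ _ _ fun t _ => ?_))
    rw [abs_mul]
    exact mul_le_mul (h2 (s, t) x hx.2) (h3 s t) (abs_nonneg _) h0.le
  have h8 : 0 ≤ (128 * Real.pi ^ 2)⁻¹ * (n * (n * (C * C))) * δ := by positivity
  have h9 : 0 ≤ (Fintype.card (Option κ) : ℝ) * (C * δ) := by positivity
  have h10 := mul_nonneg h0.le h5
  constructor
  · have := abs_le.1 (h4 none)
    rw [en_q, en_q, abs_le]
    rw [abs_le] at h6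
    simp only [YD.G] at this
    constructor <;> linarith
  · rw [kZ, kZ, kd_q, kd_q, ← mul_sub, abs_mul, abs_neg, abs_of_pos hp]
    nlinarith [mul_le_mul_of_nonneg_left h7 hp.le]

/-! ### translations -/

theorem sh_eq (s : ℝ) : sqC (· + s) c = sh s c :=
  congrArg (fun W => (⟨(sh s c).m, W, (sh s c).Φ, c.z⟩ : Cfg (Y × ℝ) (Option κ) lam r))
    (funext₂ fun a x => by cases a <;> simp [sw] <;> rfl)

theorem admOn_sh (h : AdmOn c D.B D.G O) (s : ℝ) :
    AdmOn (sh s c) D.B D.G (Tmp64.sq (· + s) ⁻¹' O) := sh_eq (c := c) s ▸ (cyD D).admOn_sq (sm_add s) h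

theorem dv_sh {N : Type} [NormedAddCommGroup N] [NormedSpace ℝ N] {f : Y × ℝ → N} {s : ℝ}
    (h : FSm (IC I3) f (Tmp64.sq (· + s) x)) (a : Option κ) :
    dv (IC I3) (D.Z.e a) (fun z : Y × ℝ => f (z.1, z.2 + s)) x =
      dv (IC I3) (D.Z.e a) f (Tmp64.sq (· + s) x) :=
  (D_sq D.F.toPre (sm_add s) h a).trans (by cases a <;> simp [sw] <;> rfl)

theorem ek_sh {s : ℝ} (h : AdmOn c D.B D.G O) (hx : Tmp64.sq (· + s) x ∈ O) :
    eZ D (sh s c) x = eZ D c (Tmp64.sq (· + s) x) ∧ kZ D (sh s c) x = kZ D c (Tmp64.sq (· + s) x) := by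
  have h1 : ∀ t, (sh s c).m.Fg D.Z (sh s c).W x t = c.m.Fg D.Z c.W (Tmp64.sq (· + s) x) t := by
    intro t
    have e : ∀ k, D.Z.c t.1 t.2 k x = D.Z.c t.1 t.2 k (Tmp64.sq (· + s) x) := fun k => by
      rcases t with ⟨_ | _, _ | _⟩ <;> cases k <;> rfl
    refine congrArg (fun T => c.m.pg (Tmp64.sq (· + s) x) (hsL T)) ?_
    have e1 := fun a b => dv_sh (D := D) (h.conn.sm b _ hx) a
    exact congrArg₂ (· - ·) (congrArg₂ (· + ·) (congrArg₂ (· - ·) (e1 _ _) (e1 _ _)) rfl)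
      (Finset.sum_congr rfl fun k _ => congrArg (· • c.W k (Tmp64.sq (· + s) x)) (e k))
  have h2 : ∀ t t', qF D.Z (sh s c) t t' x = qF D.Z c t t' (Tmp64.sq (· + s) x) := fun t t' =>
    congrArg₂ (inner ℝ) (h1 t) (h1 t')
  have h3 : nab (IC I3) D.Z.e (sh s c).W none (sh s c).Φ x =
      nab (IC I3) D.Z.e c.W none c.Φ (Tmp64.sq (· + s) x) :=
    congrArg (· + c.W none _ (c.Φ _)) (dv_sh (D := D) (h.sm _ hx) none)
  have h4 : qN D.Z (sh s c) none x = qN D.Z c none (Tmp64.sq (· + s) x) :=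
    congrArg₂ (inner ℝ) h3 h3
  exact ⟨by rw [en_q, en_q, h4]; simp only [h2], by rw [kZ, kZ, kd_q, kd_q]; simp only [h2]; rfl⟩

/-- no energy, no level -/
theorem kd_zero (hD : D.OK) (hc : c.Adm D.B D.G) (h : eZ D c x = 0) : kZ D c x = 0 := by
  have h1 : Dgr80.xA D.Z c Prod.snd x = 0 := by
    rw [← norm_eq_zero, ← sq_eq_zero_iff]
    rw [eZ, en] at h
    nlinarith [sq_nonneg ‖Dgr80.xA D.Z c Prod.snd x‖, sq_nonneg ‖Dgr80.xP D.Z c Prod.snd x‖]
  have h2 : ∀ a, c.m.Fg D.Z c.W x (none, a) = 0 := fun a =>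
    ((cyD D).xA_snd (c := c) x a).symm.trans (by rw [show D.G.F = D.Z from rfl, h1]; rfl)
  have h3 : ∀ a, c.m.Fg D.Z c.W x (a, none) = 0 := fun a =>
    (Wz78.Fg_swap hD.G hc.conn (x := x) (none, a)).trans (neg_eq_zero.2 (h2 a))
  rw [kZ, kd_q, Finset.sum_eq_zero fun s _ => Finset.sum_eq_zero fun t _ => ?_, mul_zero]
  rcases s with ⟨_ | a, _ | b⟩ <;> rcases t with ⟨_ | a', _ | b'⟩ <;>
    try simp only [qF, h2, h3, inner_zero_left, inner_zero_right, mul_zero]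
  have := Dgr80.o_five hD.B x none (some a) (some b) (some a') (some b')
  simp only [YD.B, Cyf70.cP, one_mul, zero_mul, add_zero] at this
  simp only [Base.st, YD.B, this, zero_div, zero_mul]

theorem en_cy (hβ : D.Adm β) (x : Y × ℝ) : eZ D (cy β) x = 0 := by
  have h0 : ∀ x, (cy β).W none x = 0 := fun x => hβ.tmp _
  have h1 : ∀ a, (cy β).m.Fg D.Z (cy β).W x (none, a) = 0 := fun a => by
    have := ((cyD D).curv_tmp h0 a x).trans (congrFun (D_none_fst D.F.toPre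
      (f := β.W a) fun _ => sm_slice (t := 0) (hβ.adm.conn.cc.sm a _)) x)
    exact (congrArg (fun T => (cy β).m.pg x (hsL T)) this).trans
      ((congrArg _ (map_zero _)).trans (map_zero _))
  have h2 : nab (IC I3) D.Z.e (cy β).W none (cy β).Φ x = 0 := ((cyD D).nab_tmp h0 _ x).trans
    (congrFun (D_none_fst D.F.toPre (f := β.Φ) fun _ => sm_slice (t := 0) (hβ.adm.sm _)) x)
  simp [en_q, qF, qN, h1, h2]

/-- **near a `t`-invariant configuration the densities are small** -/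
theorem ek_cy (hD : D.OK) (hβ : D.Adm β) : ∃ C > 0, ∀ r (c : Cfg (Y × ℝ) (Option κ) lam r) u
    (ζ : Circle) O δ, AdmOn c D.B D.G O → Cl D.Z c (cy β) u (fun _ => ζ) O 1 δ → δ ≤ 1 →
      ∀ x ∈ O, eZ D c x ≤ C * δ ∧ |kZ D c x| ≤ C * δ := by
  obtain ⟨C, h0, hC⟩ := ek_bd hD isOpen_univ (admOn_univ.2 hβ.adm) (cwin_cpt 0 1) (subset_univ _)
  refine ⟨C, h0, fun r c u ζ O δ hc h hδ x hx => ?_⟩
  have e : Tmp64.sq (· + x.2) (x.1, 0) = x := by simp [Tmp64.sq]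
  have hx' : Tmp64.sq (· + x.2) (x.1, 0) ∈ O := e.symm ▸ hx
  have := hC r _ _ ζ _ δ (admOn_sh hc x.2) (h.sh x.2) hδ (x.1, 0) ⟨hx', trivial, by simp⟩
  rw [(ek_sh hc hx').1, (ek_sh hc hx').2, e, en_cy hβ, kd_zero hD hβ.adm (en_cy hβ _), sub_zero,
    sub_zero] at this
  exact ⟨(le_abs_self _).trans this.1, this.2⟩

/-! ### integrals -/

theorem int_sh {N : Type} [NormedAddCommGroup N] [NormedSpace ℝ N] (f : Y × ℝ → N) (s : ℝ)
    (T : Set (Y × ℝ)) :
    ∫ x in Tmp64.sq (· + s) ⁻¹' T, f (Tmp64.sq (· + s) x) ∂D.Z.μ = ∫ x in T, f x ∂D.Z.μ :=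
  (MeasurePreserving.mk (trH Y s).measurable (map_tr D.F.toPre s)).setIntegral_preimage_emb
    (trH Y s).measurableEmbedding f T

theorem lint_time {g : ℝ → ENNReal} (hg : Measurable g) (T : Set ℝ) :
    ∫⁻ x in Prod.snd ⁻¹' T, g x.2 ∂D.Z.μ = D.F.μ univ * ∫⁻ s in T, g s := by
  have : (Prod.snd ⁻¹' T : Set (Y × ℝ)) = univ ×ˢ T := by ext; simp
  rw [this, show D.Z.μ = D.F.μ.prod volume from rfl, ← Measure.prod_restrict, Measure.restrict_univ,
    lintegral_prod (fun x : Y × ℝ => g x.2) (hg.comp measurable_snd).aemeasurable]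
  simp [mul_comm]

end Crest.Agent.X212.Bki64
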