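import Crest.Agent.X212.Bki64.Rig

/-!
# X212, G1 (helper64): one gauge and a slowly varying phase on a gap

If all windows with centre in an interval `S` are close to `β`, then the configuration is close to
`β` over `Y × S` in ONE gauge, up to a phase `exp (i θ t)` with small derivatives.
-/

set_option autoImplicit false
set_option linter.unusedSectionVars false
noncomputable section
open scoped Manifold ContDiff Topology InnerProductSpace
open MeasureTheory Set Function Filter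

namespace Crest.Agent.X212.Bki64
open An Sob92 Cyf70 Neck67 Cmp73 Pj41 Eqv71 Tmp64 Nd18 Std94

theorem exists_int_seq {X : Type*} {P : ℤ → X → Prop} {R : ℤ → X → X → Prop} {i0 : ℤ} {a0 : X}
    (h0 : P i0 a0) (hf : ∀ i, i0 ≤ i → ∀ a, P i a → ∃ b, P (i + 1) b ∧ R i a b)
    (hb : ∀ i, i ≤ i0 → ∀ b, P i b → ∃ a, P (i - 1) a ∧ R (i - 1) a b) :
    ∃ f : ℤ → X, ∀ i, P i (f i) ∧ R i (f i) (f (i + 1)) := by
  have : Nonempty X := ⟨a0⟩
  choose! F h1 h2 using hf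
  choose! G h3 h4 using hb
  let f : ℤ → X := fun i => Int.inductionOn' (motive := fun _ => X) i i0 a0 (fun k _ a => F k a)
    fun k _ a => G k a
  have e1 : ∀ i, i0 ≤ i → f (i + 1) = F i (f i) := fun i hi => Int.inductionOn'_add_one hi
  have e2 : ∀ i, i ≤ i0 → f (i - 1) = G i (f i) := fun i hi => Int.inductionOn'_sub_one hi
  have hP : ∀ i, P i (f i) := fun i => Int.inductionOn' i i0
    (by rw [show f i0 = a0 from Int.inductionOn'_self]; exact h0)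
    (fun k hk a => e1 k hk ▸ h1 k hk _ a) fun k hk a => e2 k hk ▸ h3 k hk _ a
  refine ⟨f, fun i => ⟨hP i, ?_⟩⟩
  rcases le_or_gt i0 i with hi | hi
  · exact e1 i hi ▸ h2 i hi _ (hP i)
  · have := h4 (i + 1) hi _ (hP _)
    rwa [← e2 (i + 1) hi, add_sub_cancel_right] at this

/-- `0` for `t ≤ 1/3`, `1` for `t ≥ 2/3` -/
def chi (t : ℝ) : ℝ := Real.smoothTransition (3 * t - 1)

theorem chi_sm (s : ℝ) : ContDiff ℝ ∞ fun t => chi (t - s) :=
  Real.smoothTransition.contDiff.comp (by fun_prop)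

theorem chi_zero {t : ℝ} (h : t ≤ 1 / 3) : chi t = 0 :=
  Real.smoothTransition.zero_of_nonpos (by linarith)

theorem chi_one {t : ℝ} (h : 2 / 3 ≤ t) : chi t = 1 :=
  Real.smoothTransition.one_of_one_le (by linarith)

theorem chi_bd (k : ℕ) : ∃ C > 0, ∀ j ≤ k, ∀ s t : ℝ, |t - s| ≤ 2 →
    |iteratedDeriv j (fun t => chi (t - s)) t| ≤ C := by
  have h0 : ContDiff ℝ ∞ chi := by simpa using chi_sm 0
  choose C hC using fun j : ℕ => (isCompact_Icc (a := (-2 : ℝ)) (b := 2)).exists_bound_of_continuousOn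
    (h0.continuous_iteratedDeriv j (by exact_mod_cast le_top)).continuousOn
  refine ⟨∑ j ∈ Finset.range (k + 1), |C j| + 1, by positivity, fun j hj s t h => ?_⟩
  rw [iteratedDeriv_comp_sub_const]
  have := Finset.single_le_sum (f := fun j => |C j|) (fun _ _ => abs_nonneg _)
    (Finset.mem_range.2 (Nat.lt_succ_of_le hj))
  linarith [show |iteratedDeriv j chi (t - s)| ≤ C j from hC j _ (abs_le.1 h), le_abs_self (C j)]

theorem ev_floor (t : ℝ) : ∀ᶠ s : ℝ in 𝓝 t, ⌊s⌋ = ⌊t⌋ ∨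
    (⌊s⌋ + 1 = ⌊t⌋ ∧ s - ⌊t⌋ ≤ 1 / 3 ∧ 2 / 3 ≤ s - ⌊s⌋ ∧ |s - ⌊t⌋| < 1) := by
  filter_upwards [Ioo_mem_nhds (show (⌊t⌋ : ℝ) - 1 / 3 < t by linarith [Int.floor_le t])
    (Int.lt_floor_add_one t)] with s hs
  rcases le_or_gt (⌊t⌋ : ℝ) s with h | h
  · exact .inl (Int.floor_eq_iff.2 ⟨h, hs.2⟩)
  · have : ⌊s⌋ = ⌊t⌋ - 1 := Int.floor_eq_iff.2 (by push_cast; constructor <;> linarith [hs.1])
    refine .inr ⟨by omega, by linarith, by rw [this]; push_cast; linarith [hs.1], ?_⟩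
    rw [abs_lt]; constructor <;> linarith [hs.1]

/-- the interpolated phase -/
def ph (a : ℤ → ℝ) (i : ℤ) (t : ℝ) : ℝ := a i + chi (t - i) * (a (i + 1) - a i)

theorem ph_ev (a : ℤ → ℝ) (t : ℝ) : (fun s => ph a ⌊s⌋ s) =ᶠ[𝓝 t] ph a ⌊t⌋ :=
  (ev_floor t).mono fun s hs => by
    rcases hs with h | ⟨h1, h2, h3, -⟩
    · simp only [h]
    · simp only [ph, chi_zero h2, chi_one h3, h1]; ring

theorem ph_sm (a : ℤ → ℝ) : ContDiff ℝ ∞ fun s => ph a ⌊s⌋ s := contDiff_iff_contDiffAt.2 fun t =>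
  (contDiff_const.add ((chi_sm _).mul contDiff_const)).contDiffAt.congr_of_eventuallyEq (ph_ev a t)

/-- normalisation of an intertwiner -/
def nz {κ : Type} [Fintype κ] (a : En κ) : En κ := (√(1 + (hs a a / 16 - 1)))⁻¹ • a

theorem nz_of {κ : Type} [Fintype κ] {a : En κ} (h : hs a a = 16) : nz a = a := by
  rw [nz, h]; norm_num

section gen
variable {E : Type} [NormedAddCommGroup E] [NormedSpace ℝ E] [FiniteDimensional ℝ E]
  [MeasurableSpace E] [BorelSpace E]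
  {HM : Type} [TopologicalSpace HM] {I : ModelWithCorners ℝ E HM}
  {M : Type} [TopologicalSpace M] [ChartedSpace HM M] [IsManifold I ∞ M]
  [MeasurableSpace M] {ι : Type} [Fintype ι] {lam : Type} [Fintype lam] {r : ℕ}
  {B : Base M ι lam} {G : Geo I M ι lam} {m : Md M ι lam} {O : Set M} {x : M}

variable (m) in
/-- the interpolation between the identity and `t` -/
def itp (χ : M → ℝ) (t : M → En (Fin m.N)) (x : M) : En (Fin m.N) := m.p x + χ x • (t x - m.p x)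

theorem hs_iso (hm : OKOn I B m O) (hx : x ∈ O) {a : En (Fin m.N)} (h : CIso a (m.p x) (m.p x)) :
    hs a a = 16 := hs_of_iso (m' := m) (pmx_on hm hx) (by rw [← ad_trn]; exact h.src)

theorem nz_iso (hB : B.OK I) (hm : OKOn I B m O) (hx : x ∈ O) {a : En (Fin m.N)}
    (i : Itx m m x a) (h : 0 < 1 + (hs a a / 16 - 1)) : CIso (nz a) (m.p x) (m.p x) := by
  obtain ⟨n1, n2⟩ := itx_norm hB (pmx_on hm hx) (pmx_on hm hx) i
  rw [← ad_trn] at n1 n2
  have q : (√(1 + (hs a a / 16 - 1)))⁻¹ * (√(1 + (hs a a / 16 - 1)))⁻¹ * (hs a a / 16) = 1 := by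
    rw [← mul_inv, Real.mul_self_sqrt h.le]
    rw [add_sub_cancel] at h ⊢
    exact inv_mul_cancel₀ h.ne'
  refine CIso.of_prj (hm.pidem x hx) ?_ ?_ <;>
    rw [nz, ad_smul, ContinuousLinearMap.comp_smul, ContinuousLinearMap.smul_comp]
  · rw [n1, smul_smul, smul_smul, q, one_smul]
  · rw [n2, smul_smul, smul_smul, q, one_smul]

theorem itp_comm {χ : M → ℝ} {t : M → En (Fin m.N)} {A : En (Fin m.N)}
    (h1 : A ∘L m.p x = m.p x ∘L A) (h2 : A ∘L t x = t x ∘L A) :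
    A ∘L itp m χ t x = itp m χ t x ∘L A := by
  simp only [itp, ContinuousLinearMap.comp_smul, ContinuousLinearMap.smul_comp,
    ContinuousLinearMap.comp_add, ContinuousLinearMap.add_comp, ContinuousLinearMap.comp_sub,
    ContinuousLinearMap.sub_comp, h1, h2]

theorem nz_comm {κ : Type} [Fintype κ] {A a : En κ} (h : A ∘L a = a ∘L A) :
    A ∘L nz a = nz a ∘L A := by
  rw [nz, ContinuousLinearMap.comp_smul, ContinuousLinearMap.smul_comp, h]

theorem itp_iso (hB : B.OK I) (hm : OKOn I B m O) {χ : M → ℝ} {t : M → En (Fin m.N)}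
    (ht : Iso0 I m m O t) (h1 : ∀ x ∈ O, FSm I (fun x => nz (itp m χ t x)) x)
    (h2 : ∀ x ∈ O, 0 < 1 + (hs (itp m χ t x) (itp m χ t x) / 16 - 1)) :
    Iso0 I m m O fun x => nz (itp m χ t x) := by
  have i0 := Iso0.refl hm
  refine ⟨h1, fun x hx => nz_iso hB hm hx ?_ (h2 x hx),
    fun x hx => nz_comm (itp_comm (i0.J x hx) (ht.J x hx)),
    fun x hx a => nz_comm (itp_comm (i0.ρ x hx a) (ht.ρ x hx a)),
    fun x hx w => nz_comm (itp_comm (i0.j x hx w) (ht.j x hx w))⟩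
  have ap : ∀ {A B : En (Fin m.N)}, A = B → ∀ y, A y = B y := fun h y => h ▸ rfl
  have e4 : m.p x ∘L itp m χ t x = itp m χ t x := by
    simp only [itp, ContinuousLinearMap.comp_smul, ContinuousLinearMap.comp_add,
      ContinuousLinearMap.comp_sub, (hm.prj hx).idem, (ht.iso x hx).left]
  exact ⟨ap e4, ap ((itp_comm rfl ((ht.iso x hx).left.trans (ht.iso x hx).idem.symm)).symm.trans e4),
    fun a => ap (itp_comm (i0.ρ x hx a) (ht.ρ x hx a)).symm,
    ap (itp_comm (i0.J x hx) (ht.J x hx)).symm,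
    fun w => ap (itp_comm (i0.j x hx w) (ht.j x hx w)).symm⟩

theorem itp_cz (hB : B.OK I) {α : Type} {l : Filter α} {S : α → Set M} {k : ℕ} {c : Cfg M ι lam r}
    {t : α → M → En (Fin c.m.N)} {χ : α → M → ℝ} {ξ : α → M → Circle} (f1 : Fx B G l S k c)
    (ht : ∀ᶠ n in l, Iso0 I c.m c.m (S n) (t n))
    (h1 : ZZ G.F.toPre l S (k + 1) fun n x => t n x - c.m.p x) (hχ : BB G.F.toPre l S (k + 1) χ)
    (hξ : ZZ G.F.toPre l S k fun n x => (ξ n x : ℂ) - 1) :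
    CZ G.F l S k (fun _ => c) c (fun n x => nz (itp c.m (χ n) (t n) x)) ξ := by
  have h2 := hχ.smulZ h1
  have h3 : BB G.F.toPre l S (k + 1) fun n => itp c.m (χ n) (t n) := f1.p.add h2.bb
  have h4 : ZZ G.F.toPre l S (k + 1)
      fun n x => hs (itp c.m (χ n) (t n) x) (itp c.m (χ n) (t n) x) / 16 - 1 := by
    refine ((BB.const h1.op (1 / 16 : ℝ)).smulZ ((((h2.clm hsL).bil (innerSL ℝ) (h3.clm hsL))).add
      ((f1.p.clm hsL).bilZ (innerSL ℝ) (h2.clm hsL)))).congr (f1.adm.mono fun n hn x hx => ?_)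
    have := hs_iso hn.ok hx (hn.ok.prj hx).refl
    rw [← inner_hs] at this
    have e : ∀ a b : HS (Fin c.m.N), innerSL ℝ a b = ⟪a, b⟫_ℝ := fun _ _ => rfl
    beta_reduce
    rw [e, e]
    simp only [← inner_hs, itp, map_add, inner_add_left, inner_add_right, this, smul_eq_mul]
    ring
  have h5 := ZZ.post (Φ := fun r => (√(1 + r))⁻¹) (k + 1) ((eventually_gt_nhds
    (show (-1 : ℝ) < 0 by norm_num)).mono fun r hr => ((contDiffAt_const.add contDiffAt_id).sqrt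
      (by simp only [id]; linarith)).inv (Real.sqrt_pos.2 (by simp only [id]; linarith)).ne') h4
  have h6 : ZZ G.F.toPre l S (k + 1) fun n x => nz (itp c.m (χ n) (t n) x) - c.m.p x :=
    ((h5.smul h3).add h2).congr' fun n x => by
      simp only [nz, add_zero, Real.sqrt_one, inv_one, sub_smul, one_smul]
      rw [itp]; abel
  refine CZ.of_near ?_ f1 h6 hξ
  filter_upwards [ht, h4.le one_half_pos, (h6.bb.add f1.p).sm, f1.adm] with n b d e a
  refine itp_iso hB a.ok b (fun x hx => ?_) fun x hx => by linarith [(abs_le.1 (d x hx)).1]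
  have := e x hx
  simp only [sub_add_cancel] at this
  exact this

variable (m) in
/-- the gauge which is `v` where `χ = 0` and `v'` where `χ = 1` -/
def gl {m0 : Md M ι lam} (χ : M → ℝ) (v v' : M → CL m0.V m.V) (x : M) : CL m0.V m.V :=
  nz (itp m χ (fun x => v' x ∘L ad (v x)) x) ∘L v x

theorem gl_left {m0 : Md M ι lam} {χ : M → ℝ} {v v' : M → CL m0.V m.V} (hm : m.OK I B)
    (h : CIso (v x) (m0.p x) (m.p x)) (hx : χ x = 0) : gl m χ v v' x = v x := by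
  have hm := OK.on hm univ
  rw [gl, itp, hx, zero_smul, add_zero, nz_of (hs_iso hm (mem_univ x) (hm.prj trivial).refl), h.left]

theorem gl_right {m0 : Md M ι lam} {χ : M → ℝ} {v v' : M → CL m0.V m.V} (hm : m.OK I B)
    (h : CIso (v x) (m0.p x) (m.p x)) (h' : CIso (v' x) (m0.p x) (m.p x)) (hx : χ x = 1) :
    gl m χ v v' x = v' x := by
  rw [gl, itp, hx, one_smul, add_sub_cancel, nz_of (hs_iso (OK.on hm univ) trivial (h.symm.trans h')),
    ContinuousLinearMap.comp_assoc, h.src, h'.idem]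

end gen

variable {E3 : Type} [NormedAddCommGroup E3] [NormedSpace ℝ E3] [FiniteDimensional ℝ E3]
  [MeasurableSpace E3] [BorelSpace E3]
  {H3 : Type} [TopologicalSpace H3] {I3 : ModelWithCorners ℝ E3 H3} [I3.Boundaryless]
  {Y : Type} [TopologicalSpace Y] [ChartedSpace H3 Y] [IsManifold I3 ∞ Y] [T2Space Y]
  [MeasurableSpace Y] [BorelSpace Y] [SecondCountableTopology Y] [CompactSpace Y]
  {κ : Type} [Fintype κ] {lam : Type} [Fintype lam] {D : YD I3 Y κ lam} {β : YC Y κ lam}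
  {k : ℕ} {r : ℕ}

theorem gl_eta (hD : D.OK) (hβ : D.Adm β) (k : ℕ) {ε : ℝ} (hε : 0 < ε) :
    ∃ η > 0, ∀ r (c : Cfg (Y × ℝ) (Option κ) lam r) s (v v' : Y × ℝ → CL c.m.V (cy β).m.V) (a b : ℝ),
      AdmOn c D.B D.G (win Y s 2) →
      Cn D c β v (Circle.exp a) (win Y s 2) η → Iso0 (IC I3) c.m (cy β).m (win Y s 2) v' →
      Lb D.Z.toPre (win Y s 2) ⌈η⁻¹⌉₊ (fun x => v' x ∘L ad (v x) - (cy β).m.p x) η → |b - a| ≤ η →
      Cl D.Z c (cy β) (gl (cy β).m (fun x => chi (x.2 - s)) v v') (fun x => Circle.exp (a + chi (x.2 - s) * (b - a)))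
        (win Y s 2) k ε := by
  obtain ⟨η, h0, h1⟩ := exists_eta (γ := (r : ℕ) × (c : Cfg (Y × ℝ) (Option κ) lam r) × ℝ ×
      (Y × ℝ → CL c.m.V (cy β).m.V) × (Y × ℝ → CL c.m.V (cy β).m.V) × ℝ × ℝ)
    (P := fun ⟨_, c, s, v, v', a, b⟩ => Cl D.Z c (cy β) (gl (cy β).m (fun x => chi (x.2 - s)) v v')
      (fun x => Circle.exp (a + chi (x.2 - s) * (b - a))) (win Y s 2) k ε)
    (H := fun ⟨_, c, s, v, v', a, b⟩ η => AdmOn c D.B D.G (win Y s 2) ∧
      Cn D c β v (Circle.exp a) (win Y s 2) η ∧ Iso0 (IC I3) c.m (cy β).m (win Y s 2) v' ∧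
      Lb D.Z.toPre (win Y s 2) ⌈η⁻¹⌉₊ (fun x => v' x ∘L ad (v x) - (cy β).m.p x) η ∧ |b - a| ≤ η)
    fun d hd => by
      have k1 := cz_seq (fun n => (hd n).2.1) k
      have f1 := fx_cy (k := k) hβ k1.op
      have hχ : BB D.Z.toPre (hyperfilter ℕ) (fun n => win Y (d n).2.2.1 2) (k + 1)
          fun n x => chi (x.2 - (d n).2.2.1) := by
        obtain ⟨C, h0, hC⟩ := chi_bd (k + 1)
        exact ⟨C, Eventually.of_forall fun n => ⟨win_op _ _, lb_snd (win_op _ _) h0.le (chi_sm _)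
          fun j hj x hx => hC j hj _ _ (abs_le.2 ⟨by linarith [hx.2.1], by linarith [hx.2.2]⟩)⟩⟩
      have ha : Tendsto (fun n => (d n).2.2.2.2.2.2 - (d n).2.2.2.2.2.1) (hyperfilter ℕ) (𝓝 0) :=
        NormedAddGroup.tendsto_nhds_zero.2 fun _ hε => (ev_eta 0 (half_pos hε)).mono fun n hn =>
          ((hd n).2.2.2.2.trans hn.2).trans_lt (half_lt_self hε)
      have h7 : ZZ D.Z.toPre (hyperfilter ℕ) (fun n => win Y (d n).2.2.1 2) k fun n x =>
          (Circle.exp (chi (x.2 - (d n).2.2.1) * ((d n).2.2.2.2.2.2 - (d n).2.2.2.2.2.1)) : ℂ) - 1 :=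
        (ZZ.post (Φ := fun r : ℝ => Complex.exp (r * Complex.I)) k (Eventually.of_forall fun r =>
          ((Complex.contDiff_exp (𝕜 := ℝ)).comp
            (Complex.ofRealCLM.contDiff.mul contDiff_const)).contDiffAt)
          ((hχ.of_le k.le_succ).smulZ (ZZ.consts k1.op ha))).congr' fun n x => by simp
      have k2 := itp_cz hD.B f1 (Eventually.of_forall fun n => ((hd n).2.1.iso.symm (hd n).1.ok
        (OK.on hβ.adm.ok _)).trans (hd n).2.2.1)
        (zz_seq (fun _ => win_op _ _) (fun n => (hd n).2.2.2.1) (k + 1)) hχ h7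
      obtain ⟨n, hn⟩ := ((k1.comp (G := D.G) k2 f1 f1 ((h7.bb.add (BB.const k1.op 1)).congr
        (Eventually.of_forall fun _ _ _ => (sub_add_cancel _ _).symm))) ε hε).exists
      refine ⟨n, hn.congr (fun _ _ => rfl) fun _ _ => ?_⟩
      rw [Circle.exp_add, mul_comm]
  exact ⟨η, h0, fun r c s v v' a b k1 k2 k3 k4 k5 => h1 ⟨r, c, s, v, v', a, b⟩ ⟨k1, k2, k3, k4, k5⟩⟩

variable (D) in
/-- closeness over `Y × S` in one gauge, with a slowly varying phase -/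
structure ClsT (c : Cfg (Y × ℝ) (Option κ) lam r) (β : YC Y κ lam) (u : Y × ℝ → CL c.m.V β.m.V)
    (θ : ℝ → ℝ) (S : Set ℝ) (k : ℕ) (η : ℝ) : Prop where
  cl : Cl D.Z c (cy β) u (fun x => Circle.exp (θ x.2)) (univ ×ˢ S) k η
  sm : ContDiff ℝ ∞ θ
  bd : ∀ j, 1 ≤ j → j ≤ k + 1 → ∀ t, |iteratedDeriv j θ t| ≤ η

/-- 18's closeness in terms of `Cl` -/
theorem cl_of_cls (hβ : D.Adm β) {c : Cfg (Y × ℝ) (Option κ) lam r} {u : Y × ℝ → CL c.m.V β.m.V}
    {ζ : Circle} {S : Set ℝ} {η : ℝ} (hc : AdmOn c D.B D.G (univ ×ˢ S)) (h : D.Cls c β u ζ S k η) :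
    Cl D.Z c (cy β) u (fun _ => ζ) (univ ×ˢ S) k η := by
  have ho : IsOpen (univ ×ˢ S : Set (Y × ℝ)) := isOpen_univ.prod h.op
  have hi := Iso0.of_mEq ho h.m hc.ok (OK.on hβ.adm.ok _)
  exact ⟨ho, hi, fun a => Lb.of_Dw (fun x hx => fsm_dA (hi.su x hx) (hc.conn.sm a x hx)
    (hβ.adm.conn.cc.sm a x)) (h.A a), Lb.of_Dw (fun x hx => ((contMDiffAt_const
      (c := csB β.m.J ζ)).clm_apply ((hi.su x hx).clm_apply (hc.sm x hx))).sub (hβ.adm.sm x)) h.P⟩

theorem Cl.cls (hβ : D.Adm β) {c : Cfg (Y × ℝ) (Option κ) lam r} {u : Y × ℝ → CL c.m.V β.m.V}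
    {ζ : Circle} {S : Set ℝ} {η : ℝ} (hS : IsOpen S) (hc : AdmOn c D.B D.G (univ ×ˢ S))
    (h : Cl D.Z c (cy β) u (fun _ => ζ) (univ ×ˢ S) k η) : D.Cls c β u ζ S k η :=
  ⟨hS, h.iso.mEq hc.ok (OK.on hβ.adm.ok _), fun a => (h.A a).Dw, h.P.Dw⟩

/-- **G1** in terms of `Cn` -/
theorem g1' (hD : D.OK) (hβ : D.Adm β) (k : ℕ) {ε : ℝ} (hε : 0 < ε) :
    ∃ η > 0, ∀ r (c : Cfg (Y × ℝ) (Option κ) lam r) (S : Set ℝ), S.OrdConnected →
      (∀ s ∈ S, AdmOn c D.B D.G (win Y s 7) ∧ ∃ u ζ, Cn D c β u ζ (win Y s 7) η) →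
      ∃ u θ, ClsT D c β u θ (Metric.thickening 1 S) k ε := by
  obtain ⟨C, hC, bd⟩ := chi_bd (k + 1)
  obtain ⟨η0, p0, H0⟩ := gl_eta hD hβ k hε
  have p1 : 0 < min η0 (ε / C) := lt_min p0 (div_pos hε hC)
  obtain ⟨η2, p2, H2⟩ := ext_eta hβ p1
  obtain ⟨η3, p3, H3⟩ := act_eta hβ hβ (lt_min p0 p2)
  have p4 := lt_min (lt_min p0 p2) p3
  refine ⟨_, p4, fun r c S hS h => ?_⟩
  have ho : IsOpen (univ ×ˢ Metric.thickening 1 S : Set (Y × ℝ)) :=
    isOpen_univ.prod Metric.isOpen_thickening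
  let Λ : ℤ → Prop := fun i => ∃ s ∈ S, |i - s| ≤ 3
  have base : ∀ i, Λ i → AdmOn c D.B D.G (win Y i 4) ∧
      ∃ u a, Cn D c β u (Circle.exp a) (win Y i 4) (min (min η0 η2) η3) := fun i ⟨s, hs, hi⟩ => by
    obtain ⟨h1, u, ζ, h2⟩ := h s hs
    have := win_sub (Y := Y) (show |i - s| + 4 ≤ 7 by linarith)
    exact ⟨h1.mono this, u, Complex.arg ζ, by
      rw [Circle.exp_arg]; exact h2.mono (win_op _ _) this p4 le_rfl⟩
  let P : ℤ → (Y × ℝ → CL c.m.V (cy β).m.V) × ℝ → Prop := fun i a =>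
    Λ i → Cn D c β a.1 (Circle.exp a.2) (win Y i 4) (min η0 η2)
  let R : ℤ → (Y × ℝ → CL c.m.V (cy β).m.V) × ℝ → (Y × ℝ → CL c.m.V (cy β).m.V) × ℝ → Prop := fun i a b =>
    |b.2 - a.2| ≤ min η0 (ε / C) ∧ (Λ i → Λ (i + 1) → Lb D.Z.toPre (win Y i 2)
      ⌈(min η0 (ε / C))⁻¹⌉₊ (fun x => b.1 x ∘L ad (a.1 x) - (cy β).m.p x) (min η0 (ε / C)))
  have ext : ∀ (i j : ℤ) (s : ℝ), |s - i| ≤ 1 → |s - j| ≤ 1 → Λ i → Λ j → ∀ a, P i a → ∃ b, P j b ∧
      |b.2 - a.2| ≤ min η0 (ε / C) ∧ Lb D.Z.toPre (win Y s 2) ⌈(min η0 (ε / C))⁻¹⌉₊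
        (fun x => b.1 x ∘L ad (a.1 x) - (cy β).m.p x) (min η0 (ε / C)) ∧ Lb D.Z.toPre (win Y s 2)
        ⌈(min η0 (ε / C))⁻¹⌉₊ (fun x => a.1 x ∘L ad (b.1 x) - (cy β).m.p x) (min η0 (ε / C)) := by
    intro i j s hi hj li lj a ha
    obtain ⟨h1, u, b, h2⟩ := base j lj
    have s1 := win_sub (Y := Y) (show |s - i| + 3 ≤ 4 by linarith)
    have s2 := win_sub (Y := Y) (show |s - j| + 3 ≤ 4 by linarith)
    obtain ⟨g, d, k1, k2, k3, k4⟩ := H2 r c s u a.1 b a.2 (h1.mono s2) (h2.mono (win_op _ _) s2 p4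
      ((min_le_left _ _).trans (min_le_right _ _)))
      ((ha li).mono (win_op _ _) s1 (lt_min p0 p2) (min_le_right _ _))
    refine ⟨(fun x => g x.1 ∘L u x, d + b), fun _ => ?_, k2, k3, k4⟩
    rw [Circle.exp_add]
    exact H3 r c _ u _ g _ k1 (h2.mono (win_op _ _) Subset.rfl p4 (min_le_right _ _))
  have : ∃ f : ℤ → (Y × ℝ → CL c.m.V (cy β).m.V) × ℝ, ∀ i, P i (f i) ∧ R i (f i) (f (i + 1)) := by
    rcases S.eq_empty_or_nonempty with rfl | ⟨s0, h0⟩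
    · exact ⟨fun _ => (0, 0), fun i => ⟨fun ⟨_, h, _⟩ => h.elim, by simpa using p1.le,
        fun ⟨_, h, _⟩ => h.elim⟩⟩
    have f0 := Int.floor_le s0
    have f1 := Int.lt_floor_add_one s0
    obtain ⟨-, u, a, h2⟩ := base ⌊s0⌋ ⟨s0, h0, abs_le.2 ⟨by linarith, by linarith⟩⟩
    refine exists_int_seq (i0 := ⌊s0⌋) (a0 := (u, a))
      (fun _ => h2.mono (win_op _ _) Subset.rfl p4 (min_le_left _ _)) (fun i hi a ha => ?_)
      fun i hi a ha => ?_
    · by_cases l1 : Λ (i + 1)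
      · have hi' : (⌊s0⌋ : ℝ) ≤ i := by exact_mod_cast hi
        have l0 : Λ i := by
          obtain ⟨s, hs, h3⟩ := l1
          push_cast at h3
          rw [abs_le] at h3
          rcases le_total s (i + 1) with h4 | h4
          · exact ⟨s, hs, abs_le.2 ⟨by linarith, by linarith⟩⟩
          · exact ⟨i + 1, hS.out h0 hs ⟨by linarith, h4⟩, by simp⟩
        obtain ⟨b, k1, k2, k3, -⟩ := ext i (i + 1) i (by simp) (by simp) l0 l1 a ha
        exact ⟨b, k1, k2, fun _ _ => k3⟩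
      · exact ⟨a, fun h => absurd h l1, by simpa using p1.le, fun _ h => absurd h l1⟩
    · by_cases l1 : Λ (i - 1)
      · have hi' : (i : ℝ) ≤ ⌊s0⌋ := by exact_mod_cast hi
        have l0 : Λ i := by
          obtain ⟨s, hs, h3⟩ := l1
          push_cast at h3
          rw [abs_le] at h3
          rcases le_total (i : ℝ) s with h4 | h4
          · exact ⟨s, hs, abs_le.2 ⟨by linarith, by linarith⟩⟩
          · exact ⟨i, hS.out hs h0 ⟨h4, by linarith⟩, by simp⟩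
        obtain ⟨b, k1, k2, -, k3⟩ := ext i (i - 1) (i - 1 : ℤ) (by simp) (by simp) l0 l1 a ha
        exact ⟨b, k1, by rwa [abs_sub_comm], fun _ _ => k3⟩
      · exact ⟨a, fun h => absurd h l1, by simpa using p1.le, fun h => absurd h l1⟩
  obtain ⟨f, hf⟩ := this
  refine ⟨fun x => gl (cy β).m (fun y => chi (y.2 - ⌊x.2⌋)) (f ⌊x.2⌋).1 (f (⌊x.2⌋ + 1)).1 x,
    fun t => ph (fun i => (f i).2) ⌊t⌋ t,
    Cl.of_local ho fun x hx => ?_, ph_sm _, fun j j1 j2 t => ?_⟩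
  · obtain ⟨s, hs, h1⟩ := Metric.mem_thickening_iff.1 hx.2
    rw [Real.dist_eq, abs_lt] at h1
    have f0 := Int.floor_le x.2
    have f1 := Int.lt_floor_add_one x.2
    have lam : ∀ i : ℤ, |(i : ℝ) - ⌊x.2⌋| ≤ 1 → Λ i := fun i hi => ⟨s, hs, by
      rw [abs_le] at hi ⊢; constructor <;> linarith⟩
    have l0 := lam ⌊x.2⌋ (by simp)
    have l1 := lam (⌊x.2⌋ + 1) (by simp)
    have iso : ∀ i : ℤ, |(i : ℝ) - ⌊x.2⌋| ≤ 1 → Iso0 (IC I3) c.m (cy β).m (win Y ⌊x.2⌋ 2) (f i).1 :=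
      fun i hi => ((hf i).1 (lam i hi)).iso.mono (win_sub (by rw [abs_sub_comm]; linarith))
    refine ⟨win Y ⌊x.2⌋ 2, _, _, ⟨trivial, by linarith, by linarith⟩, ?_, ?_, H0 r c ⌊x.2⌋ _ _ _ _
      ((base _ l0).1.mono (win_sub (by norm_num))) (((hf _).1 l0).mono (win_op _ _)
        (win_sub (by norm_num)) (lt_min p0 p2) (min_le_left _ _)) (iso (⌊x.2⌋ + 1) (by simp))
      ((((hf _).2.2 l0 l1).of_le (Nat.ceil_mono (inv_anti₀ p1 (min_le_left _ _)))).mono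
        (min_le_left _ _)) ((hf _).2.1.trans (min_le_left _ _))⟩
    · filter_upwards [continuous_snd.continuousAt.eventually (ev_floor x.2)] with y hy
      rcases hy with h | ⟨h2, h3, h4, h5⟩
      · simp only [h]
      · have hy : y ∈ win Y ⌊x.2⌋ 2 := ⟨trivial, by linarith [(abs_lt.1 h5).1],
          by linarith [(abs_lt.1 h5).2]⟩
        have a1 := (iso ⌊x.2⌋ (by simp)).iso y hy
        rw [gl_left hβ.adm.ok a1 (chi_zero h3), h2]
        exact gl_right hβ.adm.ok ((iso ⌊y.2⌋ (by rw [← h2]; simp)).iso y hy) a1 (chi_one h4)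
    · exact (continuous_snd.continuousAt.eventually (ph_ev _ x.2)).mono fun y hy =>
        congrArg Circle.exp hy
  · rw [(ph_ev _ t).iteratedDeriv_eq]
    unfold ph
    rw [iteratedDeriv_const_add j1, iteratedDeriv_mul_const_field, abs_mul]
    have := bd j j2 ⌊t⌋ t (abs_le.2 ⟨by linarith [Int.floor_le t],
      by linarith [Int.lt_floor_add_one t]⟩)
    calc _ ≤ C * (ε / C) := mul_le_mul this ((hf _).2.1.trans (min_le_right _ _)) (abs_nonneg _) hC.le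
      _ = ε := by field_simp

/-- **G1** -/
theorem g1 (hD : D.OK) (hβ : D.Adm β) (k : ℕ) {ε : ℝ} (hε : 0 < ε) :
    ∃ η > 0, ∀ r (c : Cfg (Y × ℝ) (Option κ) lam r) (S : Set ℝ), S.OrdConnected →
      (∀ s ∈ S, AdmOn c D.B D.G (win Y s η⁻¹) ∧
        ∃ u ζ, D.Cls c β u ζ (Ioo (s - η⁻¹) (s + η⁻¹)) ⌈η⁻¹⌉₊ η) →
      ∃ u θ, ClsT D c β u θ (Metric.thickening 1 S) k ε := by
  obtain ⟨η, h0, H⟩ := g1' hD hβ k hε
  have h1 : 0 < min η 7⁻¹ := lt_min h0 (by norm_num)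
  refine ⟨_, h1, fun r c S hS h => H r c S hS fun s hs => ?_⟩
  obtain ⟨h2, u, ζ, h3⟩ := h s hs
  have := win_sub (Y := Y) (s := s) (s' := s) (L := 7) (L' := (min η 7⁻¹)⁻¹)
    (by simpa using inv_anti₀ h1 (min_le_right _ _))
  exact ⟨h2.mono this, u, ζ, Cn.mono (cl_of_cls hβ h2 h3) (win_op _ _) this h1 (min_le_left _ _)⟩

end Crest.Agent.X212.Bki64
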