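import Crest.Agent.X212.Bki64.Brk
import Crest.Agent.X212.Eqv71.Nek
import Crest.Agent.X212.Spn45.Lift

/-!
# X212, BRKI (helper64), part 8: translations of solutions, solutions without energy
-/

set_option autoImplicit false
set_option linter.unusedSectionVars false
noncomputable section
open scoped Manifold ContDiff Topology InnerProductSpace
open MeasureTheory Set Function Filter

namespace Crest.Agent.X212.Bki64
open An Sob92 Cyf70 Eqv71 Tmp64 Nd18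
open Wz78 (nab)

variable {E3 : Type} [NormedAddCommGroup E3] [NormedSpace ℝ E3] [FiniteDimensional ℝ E3]
  [MeasurableSpace E3] [BorelSpace E3]
  {H3 : Type} [TopologicalSpace H3] {I3 : ModelWithCorners ℝ E3 H3} [I3.Boundaryless]
  {Y : Type} [TopologicalSpace Y] [ChartedSpace H3 Y] [IsManifold I3 ∞ Y] [T2Space Y]
  [MeasurableSpace Y] [BorelSpace Y] [SecondCountableTopology Y] [CompactSpace Y]
  {κ : Type} [Fintype κ] {lam : Type} [Fintype lam] {D : YD I3 Y κ lam} {β : YC Y κ lam}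
  {N : ND Y lam} {q : YW I3 Y →₀ ℝ} {r n : ℕ} {c c' : Cfg (Y × ℝ) (Option κ) lam r}

/-- translations are isometries of the background -/
theorem kc_tr (hD : D.OK) (s : ℝ) : KC D.B D.G D.B D.G univ univ (fun z : Y × ℝ => (z.1, z.2 + s))
    (fun z : Y × ℝ => (z.1, z.2 + -s)) (fun x b a => D.B.P b a x) D.B.l :=
  ⟨kg_univ ((cyD D).geq_tr hD.B hD.G s) hD.B hD.G hD.B hD.G rfl rfl, isClosed_univ, isClosed_univ,
    Spn45.bumps_cyl D.F, Spn45.bumps_cyl D.F⟩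

theorem adm_sh (h : c.Adm D.B D.G) (s : ℝ) : (sh s c).Adm D.B D.G :=
  admOn_univ.1 (admOn_sh (admOn_univ.2 h) s)

theorem ceq_sh (hD : D.OK) (h : c.Adm D.B D.G) (s : ℝ) : CEq D.Z (sh s c) c univ
    (fun z : Y × ℝ => (z.1, z.2 + s)) (fun x b a => D.B.P b a x) D.B.l
    (fun x => c.m.p (x.1, x.2 + s)) 1 := by
  have := (cyD D).ceq_sq hD.B (sm_add s) (admOn_univ.2 h) (O := univ) (subset_univ _)
    fun x _ => deriv_add' s x.2
  refine ⟨this.m, fun x hx a => ?_, this.Φ, this.z⟩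
  have k := this.W x hx a
  rwa [show (sqC (· + s) c).W a x = c.W a (x.1, x.2 + s) by cases a <;> simp [sqC, sw] <;> rfl] at k

theorem sh_sh (s t : ℝ) : sh s (sh t c) = sh (s + t) c := by
  change Nd18.pb (fun x : Y × ℝ => (x.1, x.2 + s + t)) c = _
  simp only [add_assoc]

theorem sh_zero : sh 0 c = c := by simp only [sh, add_zero]; rfl

section nat
variable (hD : D.OK) (hN : N.OK D) (h3 : Module.finrank ℝ E3 ≤ 3)
include hD hN h3

/-- **translates of solutions are solutions** -/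
theorem sol_sh (h : c.Sol D.B D.G (N.pt D.nk q : Pt _ _ _ r n)) (s : ℝ) :
    (sh s c).Sol D.B D.G (N.pt D.nk q : Pt _ _ _ r n) := by
  obtain ⟨C, hC⟩ := Cht98.tame_cyl D.F h3
  have h1 := ceq_sh hD (adm_sh h.toAdm s) (-s)
  refine ((nkR_shift D (-s)).pt_rel (kc_tr hD (-s)) hN hC hC (fun j => (nkR_shift D (-s)).sr hD.B _)
    q).sol (kc_tr hD (-s)).toLG (trH Y (-s)).surjective ?_ (adm_sh h.toAdm s) h1
  rwa [sh_sh, neg_add_cancel, sh_zero]

/-- gauge transforms of solutions are solutions -/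
theorem sol_ceq (h : c.Sol D.B D.G (N.pt D.nk q : Pt _ _ _ r n)) (h' : c'.Adm D.B D.G)
    {u : Y × ℝ → CL c.m.V c'.m.V} {ζ : Circle}
    (e : CEq D.Z c c' univ id (fun x b a => D.B.P b a x) D.B.l u ζ) :
    c'.Sol D.B D.G (N.pt D.nk q : Pt _ _ _ r n) := by
  obtain ⟨C, hC⟩ := Cht98.tame_cyl D.F h3
  exact (pt_nat D.nk hD.B hD.G hC isClopen_univ (fun _ h => (h trivial).elim) hN q).sol
    (lg_refl hD.B hD.G isOpen_univ) surjective_id h h' e

end nat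

/-! ### `t`-invariant configurations -/

theorem xa_zero {x : Y × ℝ} (h : eZ D c x = 0) :
    (∀ a, c.m.Fg D.Z c.W x (none, a) = 0) ∧ nab (IC I3) D.Z.e c.W none c.Φ x = 0 := by
  rw [eZ, Dgr80.en] at h
  have h1 : Dgr80.xA D.Z c Prod.snd x = 0 := by
    rw [← norm_eq_zero, ← sq_eq_zero_iff]
    nlinarith [sq_nonneg ‖Dgr80.xA D.Z c Prod.snd x‖, sq_nonneg ‖Dgr80.xP D.Z c Prod.snd x‖]
  have h2 : Dgr80.xP D.Z c Prod.snd x = 0 := by
    rw [← norm_eq_zero, ← sq_eq_zero_iff]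
    nlinarith [sq_nonneg ‖Dgr80.xA D.Z c Prod.snd x‖, sq_nonneg ‖Dgr80.xP D.Z c Prod.snd x‖]
  exact ⟨fun a => ((cyD D).xA_snd (c := c) x a).symm.trans
    (by rw [show D.G.F = D.Z from rfl, h1]; rfl), ((cyD D).xP_snd (c := c) x).symm.trans h2⟩

theorem ew_cy (hβ : D.Adm β) : N.ew D.nk (cy β) = 0 := funext fun x => by
  have h1 : ∀ i, (cy β).sd D.Z (.cv D.nk.χ4 D.nk.τ (D.nk.ext (N.y i))) = 0 := fun i => by
    have e : (fun x => ∑ s : Option κ × Option κ, (D.nk.χ4 x * D.Z.D s.1 D.nk.τ x *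
        D.Z.D s.2 (D.nk.ext (N.y i)) x) • (cy β).m.Fg D.Z (cy β).W x s) = 0 := funext fun x => by
      refine Finset.sum_eq_zero fun s _ => ?_
      rcases s with ⟨_ | a, b⟩
      · rw [(xa_zero (en_cy hβ x)).1, smul_zero]
      · rw [Spn45.nk_τ, show D.Z.D (some a) Prod.snd x = 0 from (cyD D).D_snd (some a) x,
          mul_zero, zero_mul, zero_smul]
    have k := Mp86.res_zero (F := D.Z) (Spn45.bumps_cyl D.F) (mc_adW hβ.adm.conn)
    exact (congrArg (fun s => D.Z.res _ (D.Z.res _ s)) e).trans ((congrArg _ k).trans k)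
  have h2 : Dgr80.nt D.Z (cy β).W D.nk.τ (cy β).Φ x = 0 := by
    rw [Dgr80.nt, Spn45.nk_τ, Spn45.sum_dt]
    exact (xa_zero (en_cy hβ x)).2
  change _ * (∑ i, ‖(cy β).sd D.Z (.cv D.nk.χ4 D.nk.τ (D.nk.ext (N.y i))) x‖ ^ 2 +
    ‖D.nk.χ4 x • Dgr80.nt D.Z (cy β).W D.nk.τ (cy β).Φ x‖ ^ 2) = 0
  simp [h1, h2]

theorem oc_cy (hβ : D.Adm β) (T : YT Y) (x : Y × ℝ) : N.oc D.nk T (cy β) x = 0 := by
  simp [ND.oc, ND.tc, Dgr80.TC.val, YTC.out, ew_cy hβ, Dgr80.wn]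

/-- on `t`-invariant configurations the non-gradient terms vanish -/
theorem pt_cy (hβ : D.Adm β) (x : Y × ℝ) :
    (N.pt D.nk q : Pt _ _ _ 0 n).D (cy β) x = (N.q1 D.nk : Pt _ _ _ 0 n).D (cy β) x ∧
    (N.pt D.nk q : Pt _ _ _ 0 n).C (cy β) x = (N.q1 D.nk : Pt _ _ _ 0 n).C (cy β) x := by
  simp [ND.pt, Pt.add, fsum, ND.q2, oc_cy hβ, Finsupp.sum]

theorem crit_iff (hβ : D.Adm β) :
    N.Crit D β ↔ (cy β).Sol D.B D.G (N.pt D.nk q : Pt _ _ _ 0 0) := by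
  have e1 : ∀ x, (cy β).eD D.G (N.pt D.nk q : Pt _ _ _ 0 0) x =
      (cy β).eD D.G (N.q1 D.nk : Pt _ _ _ 0 0) x := fun x => congrArg (_ - ·) (pt_cy hβ x).1
  have e2 : ∀ x, (cy β).eC D.B D.G (N.pt D.nk q : Pt _ _ _ 0 0) x =
      (cy β).eC D.B D.G (N.q1 D.nk : Pt _ _ _ 0 0) x := fun x => congrArg (_ - ·) (pt_cy hβ x).2
  exact ⟨fun h => ⟨hβ.adm, fun x => (e1 x).trans (h.sol.D x), fun x => (e2 x).trans (h.sol.C x),
    fun i => i.elim0⟩, fun h => ⟨⟨hβ.adm, fun x => (e1 x).symm.trans (h.D x),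
      fun x => (e2 x).symm.trans (h.C x), fun i => i.elim0⟩, hβ.tmp⟩⟩

/-- the slice at the time `0`, in temporal gauge -/
def slc (γ : Cfg (Y × ℝ) (Option κ) lam 0) : YC Y κ lam := Nd18.pb (fun y => (y, 0)) (frz 0 γ)

theorem cy_slc (γ : Cfg (Y × ℝ) (Option κ) lam 0) : cy (slc γ) = frz 0 γ :=
  congrArg (fun W => (⟨(frz 0 γ).m, W, (frz 0 γ).Φ, γ.z⟩ : Cfg (Y × ℝ) (Option κ) lam 0))
    (funext₂ fun a x => (inv_frz 0 γ).Wi a x.1 0 x.2)

/-- **FRZ: solutions without energy are critical points** -/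
theorem frz_crit (hD : D.OK) (hN : N.OK D) (h3 : Module.finrank ℝ E3 ≤ 3)
    (γ : Cfg (Y × ℝ) (Option κ) lam 0) (h : γ.Sol D.B D.G (N.pt D.nk q : Pt _ _ _ 0 0))
    (he : ∀ x, eZ D γ x = 0) : ∃ β u, N.Crit D β ∧ Eq0 D.Z γ (cy β) univ u := by
  obtain ⟨u, -, -, h1⟩ := (cyD D).exists_frz hD.B h.toAdm ordConnected_univ (mem_univ 0)
    (fun y t _ a => (xa_zero (he (y, t))).1 _) fun y t _ => (xa_zero (he (y, t))).2
  have h2 : (frz 0 γ).Adm D.B D.G := (cyD D).adm_sq contDiff_const h.toAdm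
  have hβ : D.Adm (slc γ) := ⟨by rwa [cy_slc], fun y => frz_none 0 (y, 0)⟩
  rw [univ_prod_univ] at h1
  have h4 : Eq0 D.Z γ (cy (slc γ)) univ u := ⟨h1.iso, fun x hx a => by
    have := h1.par x hx a
    rwa [(inv_frz 0 γ).Wi a x.1 x.2 0] at this, h1.Φ, h1.z⟩
  exact ⟨slc γ, u, (crit_iff hβ).2 (sol_ceq hD hN h3 h hβ.adm (h4.cEq (G := D.G) hD.B
    (admOn_univ.2 h.toAdm) (admOn_univ.2 hβ.adm))), h4⟩

end Crest.Agent.X212.Bki64
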