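import Crest.Agent.X212.Bki64.Eng
import Crest.Agent.X212.Nd18.Ms

/-!
# X212, BRKI (helper64), part 6: the inputs of the breaking theorem and the centres
-/

set_option autoImplicit false
set_option linter.unusedSectionVars false
noncomputable section
open scoped Manifold ContDiff Topology InnerProductSpace
open MeasureTheory Set Function Filter

namespace Crest.Agent.X212.Bki64
open An Sob92 Cyf70 Neck67 Cmp73 Pj41 Eqv71 Tmp64 Nd18 Std94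
open Brk64 (eI Gd)

theorem exists_pos_le {C : Type*} [Finite C] {f : C → ℝ} (h : ∀ i, 0 < f i) :
    ∃ d > 0, ∀ i, d ≤ f i :=
  ((eventually_all.2 fun i => nhdsWithin_le_nhds (Iic_mem_nhds (h i))).and
    (self_mem_nhdsWithin (a := (0 : ℝ)) (s := Ioi 0))).exists.imp fun _ h => ⟨h.2, h.1⟩

variable {E3 : Type} [NormedAddCommGroup E3] [NormedSpace ℝ E3] [FiniteDimensional ℝ E3]
  [MeasurableSpace E3] [BorelSpace E3]
  {H3 : Type} [TopologicalSpace H3] {I3 : ModelWithCorners ℝ E3 H3} [I3.Boundaryless]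
  {Y : Type} [TopologicalSpace Y] [ChartedSpace H3 Y] [IsManifold I3 ∞ Y] [T2Space Y]
  [MeasurableSpace Y] [BorelSpace Y] [SecondCountableTopology Y] [CompactSpace Y]
  {κ : Type} [Fintype κ] {lam : Type} [Fintype lam] {D : YD I3 Y κ lam} {β β' : YC Y κ lam}
  {N : ND Y lam} {q : YW I3 Y →₀ ℝ} {r r' : ℕ}

/-! ### slabs -/

/-- the compact window -/
abbrev cw (Y : Type) (s L : ℝ) : Set (Y × ℝ) := univ ×ˢ Icc (s - L) (s + L)

theorem win_cw (s L : ℝ) : win Y s L ⊆ cw Y s L := prod_mono_right Ioo_subset_Icc_self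

theorem snd_pre (T : Set ℝ) : (Prod.snd ⁻¹' T : Set (Y × ℝ)) = univ ×ˢ T := by ext; simp

theorem cw_nhds (x : Y × ℝ) {L : ℝ} (hL : 0 < L) : cw Y x.2 L ∈ 𝓝 x :=
  mem_of_superset ((win_op _ _).mem_nhds ⟨trivial, by linarith, by linarith⟩) (win_cw _ _)

theorem int_le {f : Y × ℝ → ℝ} {T : Set (Y × ℝ)} {s L C : ℝ} (hL : 0 ≤ L) (hC : 0 ≤ C)
    (hT : T ⊆ cw Y s L) (h : ∀ x ∈ T, |f x| ≤ C) :
    ∫ x in T, f x ∂D.Z.μ ≤ C * (D.F.μ.real univ * (2 * L)) := by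
  have h1 := (cwin_cpt (Y := Y) s L).measure_lt_top (μ := D.Z.μ)
  refine (le_abs_self _).trans ((norm_setIntegral_le_of_norm_le_const (f := f)
    ((measure_mono hT).trans_lt h1) h).trans (mul_le_mul_of_nonneg_left
      ((measureReal_mono hT h1.ne).trans_eq ?_) hC))
  rw [show D.Z.μ = D.F.μ.prod volume from rfl, measureReal_prod_prod, Real.volume_real_Icc,
    max_eq_left (by linarith)]
  ring

theorem lint_dec {f : Y × ℝ → ℝ} {T : Set ℝ} {C d : ℝ} (hd : 0 < d) (hC : 0 ≤ C) (hT : IsClosed T)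
    (hc : T.OrdConnected) (h : ∀ a b, a ≤ b → Icc a b ⊆ T → ∀ x : Y × ℝ, x.2 ∈ Icc a b →
      |f x| ≤ C * Real.exp (-d * min (x.2 - a) (b - x.2))) :
    ∫⁻ x in Prod.snd ⁻¹' T, ‖f x‖ₑ ∂D.Z.μ ≤ ENNReal.ofReal (C * (D.F.μ.real univ * (2 / d))) := by
  refine Brk64.lint_oc hT hc fun a b hab => ?_
  rcases lt_or_ge b a with e | e
  · simp [Icc_eq_empty_of_lt e]
  calc _ ≤ ∫⁻ x in Prod.snd ⁻¹' Icc a b, ENNReal.ofReal C * ENNReal.ofReal
        (Real.exp (-d * (x.2 - a)) + Real.exp (-d * (b - x.2))) ∂D.Z.μ := by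
        refine setLIntegral_mono' (measurable_snd measurableSet_Icc) fun x hx => ?_
        rw [← ENNReal.ofReal_mul hC, ← ofReal_norm]
        refine ENNReal.ofReal_le_ofReal ((h a b e hab x hx).trans
          (mul_le_mul_of_nonneg_left ?_ hC))
        rcases min_choice (x.2 - a) (b - x.2) with e | e <;> rw [e] <;>
          linarith [Real.exp_pos (-d * (x.2 - a)), Real.exp_pos (-d * (b - x.2))]
    _ ≤ _ := by
        rw [lintegral_const_mul' _ _ ENNReal.ofReal_ne_top, lint_time (g := fun s => ENNReal.ofReal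
          (Real.exp (-d * (s - a)) + Real.exp (-d * (b - s)))) (by fun_prop), ENNReal.ofReal_mul hC,
          ENNReal.ofReal_mul measureReal_nonneg, ofReal_measureReal isCompact_univ.measure_lt_top.ne]
        gcongr
        exact Brk64.int_exp_le hd a b

section one
variable {c : Cfg (Y × ℝ) (Option κ) lam r} {J : Set ℝ} {s η η' : ℝ} {k : ℕ} {O : Set (Y × ℝ)}

theorem cw_tr {s s' t : ℝ} (h : s' = s + t) (L : ℝ) :
    Tmp64.sq (· + t) ⁻¹' cw Y s' L = cw Y s L := by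
  subst h
  ext x
  simp only [Tmp64.sq, mem_preimage, mem_prod, mem_univ, true_and, mem_Icc]
  constructor <;> rintro ⟨a, b⟩ <;> constructor <;> linarith

theorem Cl.unsh {u : Y × ℝ → CL c.m.V β.m.V} {ζ : Circle} {L : ℝ}
    (h : Cl D.Z (Nd18.sh s c) (cy β) u (fun _ => ζ) (win Y 0 L) k η) :
    ∃ w, Cl D.Z c (cy β) w (fun _ => ζ) (win Y s L) k η := by
  have key : ∀ f : Y × ℝ → Y × ℝ, f = id → ∀ w : Y × ℝ → CL c.m.V β.m.V,
      Cl D.Z (pb f c) (cy β) w (fun _ => ζ) (win Y s L) k η →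
      Cl D.Z c (cy β) w (fun _ => ζ) (win Y s L) k η := by rintro _ rfl _ h; exact h
  have := h.sh (-s)
  rw [win_tr (add_neg_cancel s).symm] at this
  exact ⟨_, key (fun x => (x.1, x.2 + -s + s)) (funext fun x => by simp) _ this⟩

theorem cl_of_ceq (hD : D.OK) {c c' : Cfg (Y × ℝ) (Option κ) lam r} (hc : c.Adm D.B D.G)
    (hc' : c'.Adm D.B D.G) {u : Y × ℝ → CL c.m.V c'.m.V} {ζ : Circle}
    (h : CEq D.Z c c' univ id (fun x b a => D.B.P b a x) D.B.l u ζ) (hO : IsOpen O) (hη : 0 ≤ η) :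
    Cl D.Z c c' u (fun _ => ζ) O k η :=
  Cl.of_eq hO ((Iso0.of_mEq isOpen_univ h.m (OK.on hc.ok _) (OK.on hc'.ok _)).mono (subset_univ _))
    (fun a x _ => (par0_iff ((IsConn.on hc'.conn _).proj' hD.B)).2 h.W x trivial a)
    (fun x _ => sub_eq_zero.2 (h.Φ x trivial).symm) hη

theorem cl_of_eq0 {c c' : Cfg (Y × ℝ) (Option κ) lam r} {u : Y × ℝ → CL c.m.V c'.m.V}
    (h : Eq0 D.Z c c' univ u) (hO : IsOpen O) (hη : 0 ≤ η) : Cl D.Z c c' u (fun _ => 1) O k η :=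
  Cl.of_eq hO (h.iso.mono (subset_univ _)) (fun a x _ => h.par x trivial a)
    (fun x _ => by rw [dP, h.Φ x trivial, Circle.coe_one, cs_one, sub_self]) hη

theorem int_cw (hD : D.OK) {L : ℝ} (h : AdmOn c D.B D.G (cw Y s (L + 1))) :
    IntegrableOn (eZ D c) (cw Y s L) D.Z.μ ∧ IntegrableOn (kZ D c) (cw Y s L) D.Z.μ := by
  have e : cw Y s L ⊆ win Y s (L + 1) :=
    prod_mono_right (Icc_subset_Ioo (by linarith) (by linarith))
  have h' := h.mono (win_cw _ _)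
  exact ⟨ContinuousOn.integrableOn_compact (cwin_cpt s L) fun x hx =>
      (fsm_en hD (win_op _ _) h' (e hx)).continuousAt.continuousWithinAt,
    ContinuousOn.integrableOn_compact (cwin_cpt s L) fun x hx =>
      (fsm_kd hD.B (win_op _ _) h' (e hx)).continuousAt.continuousWithinAt⟩

/-- integrals over translated slabs -/
theorem ek_int_sh {T : Set (Y × ℝ)} (hT : MeasurableSet T) (h : AdmOn c D.B D.G T) (s : ℝ) :
    ∫ x in Tmp64.sq (· + s) ⁻¹' T, eZ D (sh s c) x ∂D.Z.μ = ∫ x in T, eZ D c x ∂D.Z.μ ∧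
    ∫ x in Tmp64.sq (· + s) ⁻¹' T, kZ D (sh s c) x ∂D.Z.μ = ∫ x in T, kZ D c x ∂D.Z.μ :=
  ⟨(setIntegral_congr_fun ((trH Y s).measurable hT) fun _ hx => (ek_sh h hx).1).trans (int_sh _ _ _),
    (setIntegral_congr_fun ((trH Y s).measurable hT) fun _ hx => (ek_sh h hx).2).trans
      (int_sh _ _ _)⟩

/-- the window at the time `s` lies in `J` and is `η`-close to `β` -/
def Nr (D : YD I3 Y κ lam) (c : Cfg (Y × ℝ) (Option κ) lam r) (J : Set ℝ) (s : ℝ) (β : YC Y κ lam)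
    (η : ℝ) : Prop := Ioo (s - η⁻¹) (s + η⁻¹) ⊆ J ∧ ∃ u ζ, Cn D c β u ζ (win Y s η⁻¹) η

theorem Nr.mono' {s' : ℝ} (h : Nr D c J s β η) (h0 : 0 < η) (e : η ≤ η')
    (hs : |s' - s| + η'⁻¹ ≤ η⁻¹) : Nr D c J s' β η' :=
  ⟨(Ioo_subset_Ioo (by linarith [neg_abs_le (s' - s)]) (by linarith [le_abs_self (s' - s)])).trans
    h.1, let ⟨u, ζ, h⟩ := h.2; ⟨u, ζ, h.mono (win_op _ _) (win_sub hs) h0 e⟩⟩

theorem Nr.mono (h : Nr D c J s β η) (h0 : 0 < η) (e : η ≤ η') : Nr D c J s β η' :=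
  h.mono' h0 e (by simpa using inv_anti₀ h0 e)

end one

theorem crit_adm (h : N.Crit D β) : D.Adm β := ⟨h.sol.toAdm, h.tmp⟩

/-! ### limits with bubbles -/

section lm
variable {α : Type} {ρ : α → ℕ} {l : Filter α} {c : ∀ a, Cfg (Y × ℝ) (Option κ) lam (ρ a)}
  {γ : Cfg (Y × ℝ) (Option κ) lam 0} {Sg : Set (Y × ℝ)} {v : ∀ a, Y × ℝ → CL (c a).m.V γ.m.V}

/-- the family `c` converges to the solution `γ` away from the bubbles `Sg` -/
structure Lm (N : ND Y lam) (D : YD I3 Y κ lam) (q : YW I3 Y →₀ ℝ) (l : Filter α)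
    (c : ∀ a, Cfg (Y × ℝ) (Option κ) lam (ρ a)) (γ : Cfg (Y × ℝ) (Option κ) lam 0)
    (Sg : Set (Y × ℝ)) (v : ∀ a, Y × ℝ → CL (c a).m.V γ.m.V) : Prop where
  sol : γ.Sol D.B D.G (N.pt D.nk q : Pt _ _ _ 0 0)
  cv : CvC D.Z l c γ v Sgᶜ
  conc : ∀ p ∈ Sg, ∃ e > 0, ∀ K ∈ 𝓝 p, IsCompact K → ∀ᶠ a in l, e ≤ ∫ x in K, eZ D (c a) x ∂D.Z.μ
  loss : ∀ R₀, Sg ⊆ win Y 0 R₀ → ∃ m : ℕ, (m = 0 ↔ Sg = ∅) ∧ ∀ R, R₀ ≤ R →
    Tendsto (fun a => ∫ x in cw Y 0 R, kZ D (c a) x ∂D.Z.μ) l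
      (𝓝 (∫ x in cw Y 0 R, kZ D γ x ∂D.Z.μ + m))

/-- uniform convergence of the densities -/
theorem CvC.ek (hD : D.OK) {γ : Cfg (Y × ℝ) (Option κ) lam r}
    {v : ∀ a, Y × ℝ → CL (c a).m.V γ.m.V} {Ω K O : Set (Y × ℝ)} (h : CvC D.Z l c γ v Ω)
    (hΩ : IsOpen O) (hγ : AdmOn γ D.B D.G O) (hK : IsCompact K) (e : K ⊆ Ω ∩ O)
    (ha : ∀ x ∈ K, ∃ U ∈ 𝓝 x, ∀ᶠ a in l, AdmOn (c a) D.B D.G U) {ε : ℝ} (hε : 0 < ε) :
    ∀ᶠ a in l, ∀ x ∈ K, |eZ D (c a) x - eZ D γ x| ≤ ε ∧ |kZ D (c a) x - kZ D γ x| ≤ ε := by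
  obtain ⟨C, h0, hC⟩ := ek_bd hD hΩ hγ hK (e.trans inter_subset_right)
  have h1 : 0 < min 1 (ε / C) := lt_min one_pos (div_pos hε h0)
  have h2 : C * min 1 (ε / C) ≤ ε :=
    (mul_le_mul_of_nonneg_left (min_le_right _ _) h0.le).trans_eq (by field_simp)
  refine hK.induction_on (p := fun T => ∀ᶠ a in l, ∀ x ∈ T ∩ K,
    |eZ D (c a) x - eZ D γ x| ≤ ε ∧ |kZ D (c a) x - kZ D γ x| ≤ ε) (by simp)
    (fun _ _ h1 h2 => h2.mono fun a h x hx => h x ⟨h1 hx.1, hx.2⟩)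
    (fun _ _ h1 h2 => (h1.and h2).mono fun a h x hx => hx.1.elim (fun e => h.1 x ⟨e, hx.2⟩)
      fun e => h.2 x ⟨e, hx.2⟩) (fun x hx => ?_) |>.mono fun a h x hx => h x ⟨hx, hx⟩
  obtain ⟨V, v1, v2, v3⟩ := h x (e hx).1
  obtain ⟨U, u1, u2⟩ := ha x hx
  have o := v2.inter (isOpen_interior (s := U))
  refine ⟨_, nhdsWithin_le_nhds (o.mem_nhds ⟨v1, mem_interior_iff_mem_nhds.2 u1⟩), ?_⟩
  filter_upwards [v3 1 _ h1, u2] with a a1 a2 y hy
  have := hC _ _ _ 1 _ _ (a2.mono (inter_subset_right.trans interior_subset))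
    (a1.mono o inter_subset_left le_rfl le_rfl) (min_le_left _ _) y hy
  exact ⟨this.1.trans h2, this.2.trans h2⟩

variable (hD : D.OK) (h : Lm N D q l c γ Sg v) (ha : ∀ L, ∀ᶠ a in l, AdmOn (c a) D.B D.G (cw Y 0 L))
include hD h ha

theorem Lm.ek {K : Set (Y × ℝ)} (hK : IsCompact K) (e : K ⊆ Sgᶜ) {ε : ℝ} (hε : 0 < ε) :
    ∀ᶠ a in l, ∀ x ∈ K, |eZ D (c a) x - eZ D γ x| ≤ ε ∧ |kZ D (c a) x - kZ D γ x| ≤ ε :=
  h.cv.ek hD isOpen_univ (admOn_univ.2 h.sol.toAdm) hK (by simpa) (fun x _ => ⟨_, cw_nhds x one_pos,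
    (ha (|x.2| + 1)).mono fun _ h => h.mono (prod_mono_right (Icc_subset_Icc
      (by linarith [neg_abs_le x.2]) (by linarith [le_abs_self x.2])))⟩) hε

/-- no energy in the limit -/
theorem Lm.zero [l.NeBot]
    (he : ∀ L, Tendsto (fun a => ∫ x in win Y 0 L, eZ D (c a) x ∂D.Z.μ) l (𝓝 0)) :
    Sg = ∅ ∧ ∀ x, eZ D γ x = 0 := by
  have key : ∀ (x : Y × ℝ) (K : Set (Y × ℝ)), K ⊆ cw Y x.2 1 → ∀ e > 0,
      ∀ᶠ a in l, IntegrableOn (eZ D (c a)) K D.Z.μ ∧ ∫ x in K, eZ D (c a) x ∂D.Z.μ < e := by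
    intro x K hK e h0
    have e1 : K ⊆ win Y 0 (|x.2| + 2) := hK.trans (prod_mono_right (Icc_subset_Ioo
      (by linarith [neg_abs_le x.2]) (by linarith [le_abs_self x.2])))
    filter_upwards [ha (|x.2| + 2 + 1), (he (|x.2| + 2)).eventually (gt_mem_nhds h0)] with a a1 a2
    have := (int_cw hD a1).1.mono_set (win_cw _ _)
    exact ⟨this.mono_set e1, (setIntegral_mono_set this
      (Eventually.of_forall (Dgr80.en_nonneg _ _ _)) e1.eventuallyLE).trans_lt a2⟩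
  have h1 : Sg = ∅ := eq_empty_of_forall_notMem fun p hp => by
    obtain ⟨e, h0, h1⟩ := h.conc p hp
    obtain ⟨a, a1, a2⟩ := ((h1 _ (cw_nhds p one_pos) (cwin_cpt _ _)).and
      (key p _ Subset.rfl e h0)).exists
    exact absurd a1 (not_le.2 a2.2)
  refine ⟨h1, fun x => by_contra fun h2 => ?_⟩
  have h3 : 0 < eZ D γ x := (Dgr80.en_nonneg _ _ _ x).lt_of_ne' h2
  obtain ⟨K, k1, k2, k3⟩ := local_compact_nhds (inter_mem (cw_nhds x one_pos)
    ((fsm_en hD isOpen_univ (admOn_univ.2 h.sol.toAdm) (mem_univ x)).continuousAt.eventually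
      (lt_mem_nhds (half_lt_self h3))))
  have := openPos D.Z.toPre
  have k4 : 0 < D.Z.μ.real K :=
    ENNReal.toReal_pos (Measure.measure_pos_of_mem_nhds _ k1).ne' k3.measure_lt_top.ne
  obtain ⟨a, a1, a2⟩ := ((h.ek hD ha k3 (by simp [h1]) (half_pos (half_pos h3))).and
    (key x K (k2.trans inter_subset_left) _ (mul_pos (half_pos (half_pos h3)) k4))).exists
  refine absurd a2.2 (not_lt.2 (setIntegral_ge_of_const_le_real k3.measurableSet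
    k3.measure_lt_top.ne (fun y hy => ?_) a2.1))
  have : eZ D γ x / 2 < eZ D γ y := (k2 hy).2
  linarith [(abs_le.1 (a1 y hy).1).1]

/-- the limit is a critical point -/
theorem Lm.crit (S : N.CD D) (h1 : Sg = ∅) {u : Y × ℝ → CL γ.m.V β.m.V} (h2 : N.Crit D β)
    (h3 : Eq0 D.Z γ (cy β) univ u) : ∃ i w ζ, ∀ L k,
      CZ D.Z l (fun _ => win Y 0 L) k c (cy (S.β i)) w fun _ _ => ζ := by
  obtain ⟨i, u', ζ, h4⟩ := S.cov β h2
  refine ⟨i, fun a x => u' x ∘L u x ∘L v a x, ζ, fun L k => ?_⟩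
  have k1 := h.cv.cz (cwin_cpt 0 L) (by simp [h1]) (win_op 0 L) (win_cw 0 L) k
  have f1 := fx_cy (k := k) (crit_adm h2) k1.op
  have k2 := k1.comp (G := D.G) (h := fun _ => u) (ξ := fun _ _ => 1) (fun ε hε =>
    Eventually.of_forall fun _ => cl_of_eq0 h3 (win_op _ _) hε.le) (Fx.fixed
      ((admOn_univ.2 h.sol.toAdm).mono (subset_univ _)) (cwin_cpt 0 L)
      (Eventually.of_forall fun _ => ⟨win_op _ _, win_cw _ _⟩)) f1 (bb_circ k1.op _)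
  exact (k2.comp (G := D.G) (h := fun _ => u') (ξ := fun _ _ => ζ) (fun ε hε =>
    Eventually.of_forall fun _ => cl_of_ceq hD h2.sol.toAdm (S.crit i).sol.toAdm h4 (win_op _ _)
      hε.le) f1 (fx_cy (crit_adm (S.crit i)) k1.op) (bb_circ k1.op _)).congr
    (Eventually.of_forall fun _ _ _ => ⟨rfl, by simp⟩)

end lm

/-! ### the inputs -/

variable {S : N.CD D} {ν : Type} {𝒰 : Ultrafilter ν} {A : Brk64.Nk ν} {ρ : ν → ℕ}
  {c : ∀ n, Cfg (Y × ℝ) (Option κ) lam (ρ n)}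

/-- the inputs of the breaking theorem -/
structure In (S : N.CD D) (q : YW I3 Y →₀ ℝ) (𝒰 : Ultrafilter ν) (A : Brk64.Nk ν)
    (c : ∀ n, Cfg (Y × ℝ) (Option κ) lam (ρ n)) : Prop where
  ok : D.OK
  adm : ∀ᶠ n in 𝒰, AdmOn (c n) D.B D.G (univ ×ˢ A.J 0 n)
  en : ∃ E, ∀ᶠ n in 𝒰, IntegrableOn (eZ D (c n)) (univ ×ˢ A.J 0 n) D.Z.μ ∧
    ∫ x in univ ×ˢ A.J 0 n, eZ D (c n) x ∂D.Z.μ ≤ E
  cmp : ∀ 𝒱 : Ultrafilter (ν × ℝ), Tendsto (Prod.fst : ν × ℝ → ν) 𝒱 𝒰 →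
    (∀ R, ∀ᶠ p : ν × ℝ in 𝒱, p.2 ∈ A.J R p.1) →
    ∃ γ Sg v, Lm N D q 𝒱 (fun p : ν × ℝ => sh p.2 (c p.1)) γ Sg v
  dec : ∀ i, ∃ d > 0, ∀ k, ∀ B > 0, ∃ η > 0, ∀ᶠ n in 𝒰, ∀ a b, a ≤ b →
    (∀ s ∈ Icc a b, Nr D (c n) (A.J 0 n) s (S.β i) η) → ∃ u ζ, ∀ s ∈ Icc a b,
      Cl D.Z (c n) (cy (S.β i)) u (fun _ => ζ) (win Y s 1) k
        (B * Real.exp (-d * min (s - a) (b - s)))
  frz : ∀ γ : Cfg (Y × ℝ) (Option κ) lam 0, γ.Sol D.B D.G (N.pt D.nk q : Pt _ _ _ 0 0) →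
    (∀ x, eZ D γ x = 0) → ∃ β u, N.Crit D β ∧ Eq0 D.Z γ (cy β) univ u

theorem adm_cw {n : ν} {s L : ℝ} (h : AdmOn (c n) D.B D.G (univ ×ˢ A.J 0 n))
    (hs : s ∈ A.J (0 + L) n) : AdmOn (c n) D.B D.G (cw Y s L) :=
  h.mono (prod_mono_right (A.icc_sub hs))

namespace In
variable (H : In S q 𝒰 A c)
include H

theorem adm_sh {α : Type} {l : Filter α} {e : α → ν} {s : α → ℝ} (he : Tendsto e l 𝒰)
    (hs : ∀ R, ∀ᶠ a in l, s a ∈ A.J R (e a)) (L : ℝ) :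
    ∀ᶠ a in l, AdmOn (sh (s a) (c (e a))) D.B D.G (cw Y 0 L) := by
  filter_upwards [he.eventually H.adm, hs (0 + L)] with a a1 a2
  have := admOn_sh (adm_cw a1 a2) (s a)
  rwa [cw_tr (zero_add _).symm] at this

/-- decay of the densities -/
theorem decay : ∃ d > 0, ∃ C > 0, ∃ η > 0, ∀ᶠ n in 𝒰, ∀ i a b, a ≤ b →
    (∀ s ∈ Icc a b, Nr D (c n) (A.J 0 n) s (S.β i) η) → ∀ x : Y × ℝ, x.2 ∈ Icc a b →
      eZ D (c n) x ≤ C * Real.exp (-d * min (x.2 - a) (b - x.2)) ∧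
        |kZ D (c n) x| ≤ C * Real.exp (-d * min (x.2 - a) (b - x.2)) := by
  choose d d0 h1 using H.dec
  choose η η0 h2 using fun i => h1 i 1 1 one_pos
  choose C C0 h3 using fun i => ek_cy H.ok (crit_adm (S.crit i))
  obtain ⟨d', p1, e1⟩ := exists_pos_le d0
  obtain ⟨η', p2, e2⟩ := exists_pos_le η0
  obtain ⟨C', ⟨e3, p3⟩⟩ := ((eventually_all.2 fun i => eventually_ge_atTop (C i)).and
    (eventually_gt_atTop 0)).exists
  have p4 := lt_min p2 one_pos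
  refine ⟨d', p1, C', p3, _, p4, ?_⟩
  filter_upwards [eventually_all.2 h2, H.adm] with n a1 a2 i a b hab h x hx
  obtain ⟨u, ζ, h4⟩ := a1 i a b hab fun s hs =>
    (h s hs).mono p4 ((min_le_left _ _).trans (e2 i))
  have h5 : 0 ≤ min (x.2 - a) (b - x.2) := le_min (sub_nonneg.2 hx.1) (sub_nonneg.2 hx.2)
  have h6 := h3 i _ _ _ _ _ _ (a2.mono (prod_mono_right (by
    simpa using ((h _ hx).mono p4 (min_le_right _ _)).1))) (h4 _ hx) (by
      rw [one_mul, Real.exp_le_one_iff]; nlinarith [d0 i]) x ⟨trivial, by linarith, by linarith⟩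
  have h7 : C i * (1 * Real.exp (-d i * min (x.2 - a) (b - x.2))) ≤
      C' * Real.exp (-d' * min (x.2 - a) (b - x.2)) := by
    rw [one_mul]
    exact mul_le_mul (e3 i) (Real.exp_le_exp.2 (by nlinarith [e1 i])) (Real.exp_pos _).le p3.le
  exact ⟨h6.1.trans h7, h6.2.trans h7⟩

/-- the centres and the chain of critical points -/
theorem exists_cen [Nonempty S.C] : ∃ (win : ν → ℝ → ℝ) (k : ℕ) (t : Fin k → ν → ℝ)
    (b : Fin (k + 1) → S.C), A.Cen 𝒰 win k t ∧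
      A.Chain 𝒰 (fun n s i η => Nr D (c n) (A.J 0 n) s (S.β i) η) t b ∧ ∀ i, ∃ ε > 0, ∃ L,
        ∀ᶠ n in 𝒰, ε ≤ ∫ x in Bki64.win Y (t i n) L, eZ D (c n) x ∂D.Z.μ := by
  obtain ⟨E, hE⟩ := H.en
  obtain ⟨win, k, t, b, h1, h2, h3⟩ := A.break_en (μ := D.Z.μ) (𝒰 := 𝒰) (E := E) measurable_snd
    (f := fun n => eZ D (c n))
    (near := fun n s i η => ∃ η', 0 < η' ∧ η' < η ∧ Nr D (c n) (A.J 0 n) s (S.β i) η')
    (hE.mono fun n hn => ⟨Dgr80.en_nonneg _ _ _, by rw [snd_pre]; exact hn.1,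
      by rw [eI, snd_pre]; exact hn.2⟩)
    (fun _ _ _ _ _ e ⟨η, h⟩ => ⟨η, h.1, h.2.1.trans_le e, h.2.2⟩) (by
      have : ∀ p : S.C × S.C, ∃ η > 0, p.1 ≠ p.2 → ∀ r (c : Cfg (Y × ℝ) (Option κ) lam r) s u u' ζ ζ',
          AdmOn c D.B D.G (Bki64.win Y s 1) → Cn D c (S.β p.1) u ζ (Bki64.win Y s 1) η →
          ¬Cn D c (S.β p.2) u' ζ' (Bki64.win Y s 1) η := fun p => by
        by_cases e : p.1 = p.2
        · exact ⟨1, one_pos, fun h => absurd e h⟩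
        · exact (iso_eta H.ok (crit_adm (S.crit _)) (crit_adm (S.crit _)) (mt (S.sep _ _) e)
            one_pos).imp fun _ h => ⟨h.1, fun _ => h.2⟩
      choose η η0 h using this
      obtain ⟨η', p1, e1⟩ := exists_pos_le η0
      refine ⟨_, lt_min p1 one_pos, 0 + 1, H.adm.mono fun n hn s hs i ⟨η1, a1, a2, a3⟩ =>
        ⟨fun j ⟨η2, b1, b2, b3⟩ => by_contra fun e => ?_, ?_⟩⟩
      · have k : ∀ {i η1}, 0 < η1 → η1 < min η' 1 → Nr D (c n) (A.J 0 n) s (S.β i) η1 → ∀ p,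
            ∃ u ζ, Cn D (c n) (S.β i) u ζ (Bki64.win Y s 1) (η p) := fun a1 a2 ⟨_, u, ζ, a3⟩ p =>
          ⟨u, ζ, a3.mono (win_op _ _) (win_sub (by
            simpa using (one_le_inv₀ a1).2 (a2.le.trans (min_le_right _ _)))) a1
            (a2.le.trans ((min_le_left _ _).trans (e1 p)))⟩
        obtain ⟨u, ζ, k1⟩ := k a1 a2 a3 (i, j)
        obtain ⟨u', ζ', k2⟩ := k b1 b2 b3 (i, j)
        exact h (i, j) e _ _ _ _ _ _ _ ((adm_cw hn hs).mono (win_cw _ _)) k1 k2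
      · obtain ⟨η2, b1, b2⟩ := exists_between a2
        have := (continuous_id.sub continuous_const).abs.add (continuous_const (y := η2⁻¹))
          |>.continuousAt.eventually (gt_mem_nhds (show |id s - s| + η2⁻¹ < η1⁻¹ by
            simpa using inv_strictAnti₀ a1 b1))
        exact this.mono fun s' h' => ⟨η2, a1.trans b1, b2, a3.mono' a1 b1.le h'.le⟩)
    (fun η hη 𝒱 h1 h2 h3 => by
      obtain ⟨γ, Sg, v, h4⟩ := H.cmp 𝒱 h1 h2
      have ha := H.adm_sh h1 h2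
      obtain ⟨h5, h6⟩ := h4.zero H.ok ha fun L => (h3 L).congr' (by
        filter_upwards [h1.eventually H.adm, h2 (0 + L)] with p a1 a2
        have := (ek_int_sh (win_op _ _).measurableSet ((adm_cw a1 a2).mono (win_cw _ _)) p.2).1
        rw [win_tr (zero_add _).symm] at this
        rw [eI, snd_pre, this])
      obtain ⟨β, u, h7, h8⟩ := H.frz γ h4.sol h6
      obtain ⟨i, w, ζ, h9⟩ := h4.crit H.ok ha S h5 h7 h8
      filter_upwards [h9 (η / 2)⁻¹ ⌈(η / 2)⁻¹⌉₊ _ (half_pos hη), h2 (0 + (η / 2)⁻¹)] with p a1 a2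
      exact ⟨i, _, half_pos hη, half_lt_self hη, Ioo_subset_Icc_self.trans (A.icc_sub a2),
        a1.unsh.imp fun _ h => ⟨ζ, h⟩⟩)
    (by
      obtain ⟨d, p1, C, p2, η, p3, h⟩ := H.decay
      refine ⟨η, p3, fun δ hδ L => ?_⟩
      obtain ⟨R, h1, h0⟩ := ((Brk64.ev_exp hδ (C * (D.F.μ.real univ * (2 * |L|)))).and
        (eventually_ge_atTop 0)).exists
      have h2 : 0 ≤ R / d := by positivity
      have h3 := abs_nonneg L
      refine ⟨R / d + |L|, h.mono fun n hn s i hs => le_trans ?_ h1.le⟩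
      rw [eI, snd_pre, ← mul_assoc, mul_comm _ C]
      refine int_le (s := s) h3 (by positivity) (prod_mono_right (Ioo_subset_Icc_self.trans
        (Icc_subset_Icc (by linarith [le_abs_self L]) (by linarith [le_abs_self L])))) fun x hx => ?_
      have a1 := hx.2.1
      have a2 := hx.2.2
      have a3 := le_abs_self L
      rw [abs_of_nonneg (Dgr80.en_nonneg _ _ _ _)]
      refine (hn i _ _ (by linarith) (fun s' h' => let ⟨_, a, b, e⟩ := hs s' h'; e.mono a b.le) x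
        ⟨by linarith, by linarith⟩).1.trans (mul_le_mul_of_nonneg_left (Real.exp_le_exp.2 ?_) p2.le)
      rw [neg_mul, neg_le_neg_iff, ← div_le_iff₀' p1]
      exact le_min (by linarith) (by linarith))
  refine ⟨win, k, t, b, h1, fun η hη => (h2 η hη).imp fun R h => ⟨h.1, h.2.mono fun n hn g s hs =>
    let ⟨_, a, b, e⟩ := hn g s hs; e.mono a b.le⟩, fun i => ?_⟩
  simpa only [eI, snd_pre] using h3 i

end In

end Crest.Agent.X212.Bki64
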