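import Crest.Agent.X212.Bki64.Cls
import Crest.Agent.X212.Nd18.Defs

/-!
# X212, BRKI (helper64), part 3: almost parallel isomorphisms of `t`-invariant configurations

`Stb`: exact isomorphisms; `rig`, `step`: almost parallel isomorphisms are close to exact ones.
-/

set_option autoImplicit false
set_option linter.unusedSectionVars false
noncomputable section
open scoped Manifold ContDiff Topology InnerProductSpace
open MeasureTheory Set Function Filter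

namespace Crest.Agent.X212.Bki64
open An Sob92 Cyf70 Neck67 Cmp73 Pj41 Eqv71 Tmp64 Nd18

variable {E3 : Type} [NormedAddCommGroup E3] [NormedSpace ℝ E3] [FiniteDimensional ℝ E3]
  [MeasurableSpace E3] [BorelSpace E3]
  {H3 : Type} [TopologicalSpace H3] {I3 : ModelWithCorners ℝ E3 H3} [I3.Boundaryless]
  {Y : Type} [TopologicalSpace Y] [ChartedSpace H3 Y] [IsManifold I3 ∞ Y] [T2Space Y]
  [MeasurableSpace Y] [BorelSpace Y] [SecondCountableTopology Y] [CompactSpace Y]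
  {κ : Type} [Fintype κ] {lam : Type} [Fintype lam] {D : YD I3 Y κ lam} {β β' : YC Y κ lam}
  {α : Type} {l : Filter α} {S : α → Set (Y × ℝ)} {k : ℕ} {r r' : ℕ}

theorem cyD (D : YD I3 Y κ lam) : Tmp64.Cy D.F D.B D.G :=
  ⟨rfl, rfl, fun _ _ _ _ _ _ _ => rfl, fun _ _ _ => rfl, fun _ => rfl,
    fun a _ _ _ => by cases a <;> rfl⟩

theorem sm_slice {N : Type} [NormedAddCommGroup N] [NormedSpace ℝ N] {f : Y × ℝ → N} {y : Y} {t : ℝ}
    (h : FSm (IC I3) f (y, t)) : FSm I3 (fun y => f (y, t)) y :=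
  h.comp y (contMDiffAt_id.prodMk contMDiffAt_const)

theorem fx_cy (h : D.Adm β) (hS : ∀ᶠ n in l, IsOpen (S n)) : Fx D.B D.G l S k (cy β) :=
  ⟨Eventually.of_forall fun _ => (admOn_univ.2 h.adm).mono (subset_univ _),
    fun a => BB.fst hS k (φ := β.W a) fun _ => sm_slice (t := 0) (h.adm.conn.cc.sm a _),
    BB.fst hS k (φ := β.Φ) fun _ => sm_slice (t := 0) (h.adm.sm _)⟩

/-- the window `Y × (s - L, s + L)` -/
abbrev win (Y : Type) (s L : ℝ) : Set (Y × ℝ) := univ ×ˢ Ioo (s - L) (s + L)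

theorem win_op (s L : ℝ) : IsOpen (win Y s L) := isOpen_univ.prod isOpen_Ioo

theorem win_tr {s s' t : ℝ} (h : s' = s + t) (L : ℝ) : sq (· + t) ⁻¹' win Y s' L = win Y s L := by
  subst h
  ext x
  simp only [win, Tmp64.sq, mem_preimage, mem_prod, mem_univ, true_and, mem_Ioo]
  constructor <;> rintro ⟨a, b⟩ <;> constructor <;> linarith

theorem win_sub {s s' L L' : ℝ} (h : |s - s'| + L ≤ L') : win Y s L ⊆ win Y s' L' :=
  prod_mono_right (Ioo_subset_Ioo (by linarith [neg_abs_le (s - s')])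
    (by linarith [le_abs_self (s - s')]))

/-- closeness is translation invariant -/
theorem Cl.sh {c : Cfg (Y × ℝ) (Option κ) lam r} {c' : Cfg (Y × ℝ) (Option κ) lam r'}
    {u : Y × ℝ → CL c.m.V c'.m.V} {ζ : Y × ℝ → Circle} {O : Set (Y × ℝ)} {η : ℝ}
    (h : Cl D.Z c c' u ζ O k η) (s : ℝ) : Cl D.Z (sh s c) (sh s c') (fun x => u (sq (· + s) x))
      (fun x => ζ (sq (· + s) x)) (sq (· + s) ⁻¹' O) k η := by
  have ho := h.op.preimage (sq_sm (I := I3) (sm_add s)).continuous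
  refine ⟨ho, ⟨fun _ hx => fsm_sq (sm_add s) (h.iso.su _ hx), fun _ hx => h.iso.iso _ hx,
    fun _ hx => h.iso.J _ hx, fun _ hx => h.iso.ρ _ hx, fun _ hx => h.iso.j _ hx⟩,
    fun a => (lb_tr h.op s (h.A a)).congr ho fun x hx => ?_, lb_tr h.op s h.P⟩
  have e : D.Z.D a (fun x => u (sq (· + s) x)) x = D.Z.D a u (sq (· + s) x) :=
    (D_sq D.F.toPre (sm_add s) (h.iso.su _ hx) a).trans (by cases a <;> simp [sw] <;> rfl)
  exact congrArg (fun T : CL c.m.V c'.m.V => (T + c'.W a (sq (· + s) x) ∘L u (sq (· + s) x) -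
    u (sq (· + s) x) ∘L c.W a (sq (· + s) x)) ∘L trn (u (sq (· + s) x))) e

variable (D β β') in
/-- an isomorphism of `t`-invariant configurations with the phase `ξ` -/
structure Stb (g : Y → CL β.m.V β'.m.V) (ξ : Circle) : Prop where
  iso : Iso0 (IC I3) (cy β).m (cy β').m univ fun x => g x.1
  par : ∀ a x, cov D.Z (cy β) (cy β') (fun x => g x.1) a x = 0
  Φ : ∀ y, cs β'.m.J ξ (g y (β.Φ y)) = β'.Φ y

theorem Stb.cl {g : Y → CL β.m.V β'.m.V} {ξ : Circle} (h : Stb D β β' g ξ) {O : Set (Y × ℝ)}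
    (hO : IsOpen O) {η : ℝ} (hη : 0 ≤ η) :
    Cl D.Z (cy β) (cy β') (fun x => g x.1) (fun _ => ξ) O k η :=
  Cl.of_eq hO (h.iso.mono (subset_univ _)) (fun a x _ => h.par a x)
    (fun x _ => sub_eq_zero.2 (h.Φ x.1)) hη

theorem Stb.eqv {g : Y → CL β.m.V β'.m.V} {ξ : Circle} (h : Stb D β β' g ξ) (hD : D.OK)
    (hβ : D.Adm β) (hβ' : D.Adm β') : D.Eqv β β' :=
  ⟨fun x => g x.1, ξ, h.iso.mEq (OK.on hβ.adm.ok _) (OK.on hβ'.adm.ok _),
    (par0_iff ((IsConn.on hβ'.adm.conn _).proj' hD.B)).1 fun x _ a => h.par a x,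
    fun x _ => (h.Φ x.1).symm, Subsingleton.elim _ _⟩

theorem stb_cz {g : α → Y → CL β.m.V β'.m.V} {ξ : α → Circle} (hS : ∀ᶠ n in l, IsOpen (S n))
    (h : ∀ᶠ n in l, Stb D β β' (g n) (ξ n)) :
    CZ D.Z l S k (fun _ => cy β) (cy β') (fun n x => g n x.1) fun n _ => ξ n := fun _ hε =>
  (hS.and h).mono fun _ h => h.2.cl h.1 hε.le

theorem bb_circ {E H M ι : Type}
    [NormedAddCommGroup E] [NormedSpace ℝ E] [FiniteDimensional ℝ E] [MeasurableSpace E]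
    [BorelSpace E] [TopologicalSpace H] {I : ModelWithCorners ℝ E H} [TopologicalSpace M]
    [ChartedSpace H M] [IsManifold I ∞ M] [MeasurableSpace M] [Fintype ι] {F : Pre I M ι}
    {S : α → Set M} (hS : ∀ᶠ n in l, IsOpen (S n)) (ξ : α → Circle) :
    BB F l S k fun n _ => (ξ n : ℂ) :=
  BB.consts hS (Eventually.of_forall fun n => (ξ n).norm_coe.le)

/-- **rigidity** along an ultrafilter -/
theorem rig (hβ : D.Adm β) (hβ' : D.Adm β') {𝒰 : Ultrafilter α} {t : α → Y × ℝ → CL β.m.V β'.m.V}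
    {ξ : α → Circle} {L L' : ℝ} (hL : L' < L) (hL0 : 0 < L) (H : ∀ k, CZ D.Z 𝒰
      (fun _ => win Y 0 L) k (fun _ => cy β) (cy β') t fun n _ => ξ n) :
    ∃ g ξ0, Stb D β β' g ξ0 ∧ Tendsto ξ 𝒰 (𝓝 ξ0) ∧
      ∀ k, ZZ D.Z.toPre 𝒰 (fun _ => win Y 0 L') k fun n x => t n x - g x.1 := by
  have ho := win_op (Y := Y) 0 L
  have f1 := fun k => fx_cy (k := k) hβ (H 0).op
  have f2 := fun k => fx_cy (k := k) hβ' (H 0).op
  have hb := fun k => ((H k).bb (G := D.G) (f1 k) (f2 k)).of_le k.le_succ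
  obtain ⟨g, hg⟩ := MBOn.exists_cv (Ω := win Y 0 L) fun k x hx => (hb k).mb hx
  obtain ⟨ξ0, -, hξ⟩ := isCompact_univ.ultrafilter_le_nhds (𝒰.map ξ) (by simp)
  have hξ' : Tendsto (fun n => (ξ n : ℂ)) 𝒰 (𝓝 ξ0) := (continuous_subtype_val.tendsto _).comp hξ
  have fx : ∀ {N : Type} [NormedAddCommGroup N] [NormedSpace ℝ N] {φ : Y × ℝ → N}, Sm (IC I3) φ →
      Cv (IC I3) (𝒰 : Filter α) (win Y 0 L) (fun _ => φ) φ := fun h => Cv.fixed' h
  have ga := hg.clm adL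
  have sg : ∀ x ∈ win Y 0 L, FSm (IC I3) g x := fun x hx => hg.smoothAt ho hx
  have hi : Iso0 (IC I3) (cy β).m (cy β').m (win Y 0 L) g := by
    have k := (H 0).iso
    refine ⟨sg, fun x hx => ⟨?_, ?_, ?_⟩, fun x hx => ?_, fun x hx b => ?_, fun x hx s => ?_⟩
    · exact (ga.clm_comp hg).eq_of (fx hβ.adm.ok.sp) hx (k.mono fun _ h => (h.iso x hx).src)
    · exact (hg.clm_comp ga).eq_of (fx hβ'.adm.ok.sp) hx (k.mono fun _ h => (h.iso x hx).tgt)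
    · exact (hg.clm_comp (fx hβ.adm.ok.sp)).eq_of hg hx (k.mono fun _ h => (h.iso x hx).idem)
    · exact ((Cv.const _).clm_comp hg).eq_of (hg.clm_comp (Cv.const _)) hx
        (k.mono fun _ h => h.J x hx)
    · exact ((fx (hβ'.adm.ok.sρ b)).clm_comp hg).eq_of (hg.clm_comp (fx (hβ.adm.ok.sρ b))) hx
        (k.mono fun _ h => h.ρ x hx b)
    · exact (((fx hβ'.adm.ok.sj).app (Cv.const s)).clm_comp hg).eq_of
        (hg.clm_comp ((fx hβ.adm.ok.sj).app (Cv.const s))) hx (k.mono fun _ h => h.j x hx s)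
  have hp : ∀ a, ∀ x ∈ win Y 0 L, cov D.Z (cy β) (cy β') g a x = 0 := fun a x hx =>
    ((((hg.D ho D.Z.toPre a).add ((fx (hβ'.adm.conn.cc.sm a)).clm_comp hg))).sub
      (hg.clm_comp (fx (hβ.adm.conn.cc.sm a)))).unique
      (ZZ.cv fun k => (H k).cov (G := D.G) (f1 k) le_rfl (hb k) a) hx
  have hΦ : ∀ x ∈ win Y 0 L, dP (cy β) (cy β') g ξ0 x = 0 := fun x hx =>
    ((((Cv.consts hξ').clm (csB β'.m.J)).app (hg.app (fx hβ.adm.sm))).sub (fx hβ'.adm.sm)).unique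
      (ZZ.cv fun k => (H k).P) hx
  have h0 : ∀ y : Y, (y, (0 : ℝ)) ∈ win Y 0 L := fun y => ⟨trivial, by simpa, by simpa⟩
  have ti : ∀ x ∈ win Y 0 L, g x = g (x.1, 0) := fun x hx => by
    refine isOpen_Ioo.is_const_of_deriv_eq_zero (f := fun s => g (x.1, s)) isPreconnected_Ioo
      (fun s hs => (diff_slice_snd (sg (x.1, s) ⟨trivial, hs⟩).md).differentiableWithinAt)
      (fun s hs => ?_) hx.2 (h0 x.1).2
    have := hp none (x.1, s) ⟨trivial, hs⟩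
    rw [cov, show (cy β').W none (x.1, s) = 0 from hβ'.tmp _,
      show (cy β).W none (x.1, s) = 0 from hβ.tmp _, ContinuousLinearMap.zero_comp,
      ContinuousLinearMap.comp_zero, add_zero, sub_zero] at this
    exact (D_none_at D.F.toPre (sg (x.1, s) ⟨trivial, hs⟩).md).symm.trans this
  have sm : Sm I3 fun y => g (y, 0) := fun y => sm_slice (sg _ (h0 y))
  refine ⟨fun y => g (y, 0), ξ0, ⟨⟨fun x _ => sm_fst sm x, fun x _ => hi.iso _ (h0 x.1),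
    fun x _ => hi.J _ (h0 x.1), fun x _ => hi.ρ _ (h0 x.1), fun x _ => hi.j _ (h0 x.1)⟩,
    fun a x => ?_, fun y => sub_eq_zero.1 (hΦ _ (h0 y))⟩, hξ, fun k => ?_⟩
  · have e : D.Z.D a (fun x : Y × ℝ => g (x.1, 0)) x = D.Z.D a (fun x => g (x.1, 0)) (x.1, 0) := by
      cases a with
      | none =>
        have := D_none_fst D.F.toPre sm
        exact (congrFun this x).trans (congrFun this (x.1, 0)).symm
      | some a =>
        have := D_some_fst D.F.toPre sm a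
        exact (congrFun this x).trans (congrFun this (x.1, 0)).symm
    rw [← hp a _ (h0 x.1), ← cov_congr (v := fun x => g (x.1, 0))
      (Eventually.mono (ho.mem_nhds (h0 x.1)) fun x hx => (ti x hx).symm), cov, cov, e]
    rfl
  · refine ZZ.of_cv ho (isCompact_univ.prod (isCompact_Icc (a := 0 - L') (b := 0 + L')))
      (prod_mono_right (Icc_subset_Ioo (by linarith) (by linarith))) (win_op _ _)
      (prod_mono_right Ioo_subset_Icc_self) k ?_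
    exact (hg.sub (fx (sm_fst sm))).congr' ho (Eventually.of_forall fun _ _ _ => rfl)
      fun x hx => (sub_eq_zero.2 (ti x hx)).symm

section step
variable {ρ : α → ℕ} {c : ∀ n, Cfg (Y × ℝ) (Option κ) lam (ρ n)}

/-- two gauges in which a family of windows converges differ by an exact isomorphism -/
theorem step_fam (hβ : D.Adm β) (hβ' : D.Adm β') {𝒰 : Ultrafilter α} {s : α → ℝ}
    {u : ∀ n, Y × ℝ → CL (c n).m.V β.m.V} {u' : ∀ n, Y × ℝ → CL (c n).m.V β'.m.V}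
    {ζ ζ' : α → Circle} {L L' : ℝ} (hL : L' < L) (hL0 : 0 < L)
    (h0 : ∀ᶠ n in 𝒰, AdmOn (c n) D.B D.G (win Y (s n) L))
    (H : ∀ k, CZ D.Z 𝒰 (fun n => win Y (s n) L) k c (cy β) u fun n _ => ζ n)
    (H' : ∀ k, CZ D.Z 𝒰 (fun n => win Y (s n) L) k c (cy β') u' fun n _ => ζ' n) :
    ∃ g ξ, Stb D β β' g ξ ∧ Tendsto (fun n => ζ' n / ζ n) 𝒰 (𝓝 ξ) ∧ ∀ k,
      ZZ D.Z.toPre 𝒰 (fun n => win Y (s n) L') k fun n x => u' n x ∘L ad (u n x) - g x.1 := by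
  have h1 := fun k => (H k).quot (G := D.G) (H' k) h0 (fx_cy hβ (H 0).op) (fx_cy hβ' (H 0).op)
    (bb_circ (H 0).op _)
  obtain ⟨g, ξ, h2, h3, h4⟩ := rig hβ hβ' (𝒰 := 𝒰) (ξ := fun n => ζ' n / ζ n)
    (t := fun n x => u' n (sq (· + s n) x) ∘L ad (u n (sq (· + s n) x))) hL hL0
    fun k ε hε => (h1 k ε hε).mono fun n hn => by
      have := hn.sh (s n)
      rw [win_tr (zero_add _).symm] at this
      exact this
  refine ⟨g, ξ, h2, h3, fun k ε hε => ?_⟩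
  have h5 := ZZ.tr (F := D.F.toPre) (h4 k) (fun n => -s n) ε hε
  refine h5.mono fun n hn => ?_
  simp only [win_tr (add_neg_cancel (s n)).symm, Tmp64.sq, neg_add_cancel_right] at hn
  exact hn

end step

/-- closeness with one parameter -/
abbrev Cn (D : YD I3 Y κ lam) (c : Cfg (Y × ℝ) (Option κ) lam r) (β : YC Y κ lam)
    (u : Y × ℝ → CL c.m.V β.m.V) (ζ : Circle) (O : Set (Y × ℝ)) (η : ℝ) : Prop :=
  Cl D.Z c (cy β) u (fun _ => ζ) O ⌈η⁻¹⌉₊ η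

theorem Cn.mono {c : Cfg (Y × ℝ) (Option κ) lam r} {u : Y × ℝ → CL c.m.V β.m.V} {ζ : Circle}
    {O O' : Set (Y × ℝ)} {η η' : ℝ} (h : Cn D c β u ζ O η) (hO : IsOpen O') (hs : O' ⊆ O)
    (h0 : 0 < η) (hη : η ≤ η') : Cn D c β u ζ O' η' :=
  Cl.mono h hO hs (Nat.ceil_mono (inv_anti₀ h0 hη)) hη

theorem ev_eta (k : ℕ) {ε : ℝ} (hε : 0 < ε) : ∀ᶠ n : ℕ in hyperfilter ℕ,
    k ≤ ⌈(1 / ((n : ℝ) + 1))⁻¹⌉₊ ∧ 1 / ((n : ℝ) + 1) ≤ ε := by
  refine Eventually.filter_mono (hyperfilter_le_cofinite.trans Nat.cofinite_eq_atTop.le) ?_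
  refine ((eventually_ge_atTop k).mono fun n hn => ?_).and
    (tendsto_one_div_add_atTop_nhds_zero_nat.eventually (ge_mem_nhds hε))
  rw [one_div, inv_inv, ← Nat.cast_succ, Nat.ceil_natCast]
  omega

theorem cz_seq {ρ : ℕ → ℕ} {c : ∀ n, Cfg (Y × ℝ) (Option κ) lam (ρ n)} {S : ℕ → Set (Y × ℝ)}
    {u : ∀ n, Y × ℝ → CL (c n).m.V β.m.V} {ζ : ℕ → Circle}
    (h : ∀ n : ℕ, Cn D (c n) β (u n) (ζ n) (S n) (1 / ((n : ℝ) + 1))) (k : ℕ) :
    CZ D.Z (hyperfilter ℕ) S k c (cy β) u fun n _ => ζ n := fun _ hε =>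
  (ev_eta k hε).mono fun n hn => Cl.mono (h n) (h n).op Subset.rfl hn.1 hn.2

theorem zz_seq {N : Type} [NormedAddCommGroup N] [NormedSpace ℝ N] {S : ℕ → Set (Y × ℝ)}
    {f : ℕ → Y × ℝ → N} (hS : ∀ n, IsOpen (S n))
    (h : ∀ n : ℕ, Lb D.Z.toPre (S n) ⌈(1 / ((n : ℝ) + 1))⁻¹⌉₊ (f n) (1 / ((n : ℝ) + 1))) (k : ℕ) :
    ZZ D.Z.toPre (hyperfilter ℕ) S k f := fun _ hε =>
  (ev_eta k hε).mono fun n hn => ⟨hS n, ((h n).of_le hn.1).mono hn.2⟩

/-- **windows close to two `t`-invariant configurations** -/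
theorem iso_eta (hD : D.OK) (hβ : D.Adm β) (hβ' : D.Adm β') (h : ¬D.Eqv β β') {L : ℝ} (hL : 0 < L) :
    ∃ η > 0, ∀ r (c : Cfg (Y × ℝ) (Option κ) lam r) s u u' ζ ζ', AdmOn c D.B D.G (win Y s L) →
      Cn D c β u ζ (win Y s L) η → ¬Cn D c β' u' ζ' (win Y s L) η := by
  obtain ⟨η, h0, h1⟩ := exists_eta (γ := (r : ℕ) × (c : Cfg (Y × ℝ) (Option κ) lam r) × ℝ ×
      (Y × ℝ → CL c.m.V β.m.V) × (Y × ℝ → CL c.m.V β'.m.V) × Circle × Circle) (P := fun _ => False)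
    (H := fun ⟨_, c, s, u, u', ζ, ζ'⟩ η => AdmOn c D.B D.G (win Y s L) ∧
      Cn D c β u ζ (win Y s L) η ∧ Cn D c β' u' ζ' (win Y s L) η) fun d hd => by
      obtain ⟨g, ξ, h2, -⟩ := step_fam hβ hβ' (half_lt_self hL) hL
        (Eventually.of_forall fun n => (hd n).1) (cz_seq fun n => (hd n).2.1)
        (cz_seq fun n => (hd n).2.2)
      exact absurd (h2.eqv hD hβ hβ') h
  exact ⟨η, h0, fun r c s u u' ζ ζ' a b e => h1 ⟨r, c, s, u, u', ζ, ζ'⟩ ⟨a, b, e⟩⟩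

/-- exact isomorphisms preserve closeness -/
theorem act_eta (hβ : D.Adm β) (hβ' : D.Adm β') {ε : ℝ} (hε : 0 < ε) :
    ∃ η > 0, ∀ r (c : Cfg (Y × ℝ) (Option κ) lam r) O u ζ g ξ, Stb D β β' g ξ →
      Cn D c β u ζ O η → Cn D c β' (fun x => g x.1 ∘L u x) (ξ * ζ) O ε := by
  obtain ⟨η, h0, h1⟩ := exists_eta (γ := (r : ℕ) × (c : Cfg (Y × ℝ) (Option κ) lam r) ×
      Set (Y × ℝ) × (Y × ℝ → CL c.m.V β.m.V) × Circle × (Y → CL β.m.V β'.m.V) × Circle)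
    (P := fun ⟨_, c, O, u, ζ, g, ξ⟩ => Cn D c β' (fun x => g x.1 ∘L u x) (ξ * ζ) O ε)
    (H := fun ⟨_, c, O, u, ζ, g, ξ⟩ η => Stb D β β' g ξ ∧ Cn D c β u ζ O η) fun d hd => by
      have k := cz_seq (fun n => (hd n).2) ⌈ε⁻¹⌉₊
      exact ((k.comp (G := D.G) (stb_cz (D := D) k.op (Eventually.of_forall fun n => (hd n).1))
        (fx_cy hβ k.op) (fx_cy hβ' k.op) (bb_circ k.op _)) ε hε).exists
  exact ⟨η, h0, fun r c O u ζ g ξ a b => h1 ⟨r, c, O, u, ζ, g, ξ⟩ ⟨a, b⟩⟩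

theorem exists_phase {ξ : α → Circle} {ξ0 : Circle} (h : Tendsto ξ l (𝓝 ξ0)) {a : α → ℝ}
    (ha : ∀ n, Circle.exp (a n) = ξ n) {ε : ℝ} (hε : 0 < ε) :
    ∀ᶠ n in l, ∃ b, Circle.exp b = ξ0 ∧ |b - a n| ≤ ε := by
  have h1 : Tendsto (fun n => ((ξ0 / ξ n : Circle) : ℂ)) l (𝓝 1) := by
    have := (continuous_subtype_val.tendsto _).comp ((tendsto_const_nhds (x := ξ0)).div' h)
    rwa [div_self'] at this
  have h2 := (Complex.continuousAt_arg Complex.one_mem_slitPlane).tendsto.comp h1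
  rw [Complex.arg_one] at h2
  refine ((NormedAddGroup.tendsto_nhds_zero.1 h2) ε hε).mono fun n hn =>
    ⟨a n + Complex.arg (ξ0 / ξ n : Circle), ?_, by rw [add_sub_cancel_left]; exact hn.le⟩
  rw [Circle.exp_add, Circle.exp_arg, ha, mul_div_cancel]

/-- **the gauge of a neighbouring window can be corrected by the stabiliser** -/
theorem ext_eta (hβ : D.Adm β) {ε : ℝ} (hε : 0 < ε) :
    ∃ η > 0, ∀ r (c : Cfg (Y × ℝ) (Option κ) lam r) s u v (a b : ℝ), AdmOn c D.B D.G (win Y s 3) →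
      Cn D c β u (Circle.exp a) (win Y s 3) η → Cn D c β v (Circle.exp b) (win Y s 3) η →
      ∃ g d, Stb D β β g (Circle.exp d) ∧ |d + a - b| ≤ ε ∧
        Lb D.Z.toPre (win Y s 2) ⌈ε⁻¹⌉₊ (fun x => (g x.1 ∘L u x) ∘L ad (v x) - β.m.p x.1) ε ∧
        Lb D.Z.toPre (win Y s 2) ⌈ε⁻¹⌉₊ (fun x => v x ∘L ad (g x.1 ∘L u x) - β.m.p x.1) ε := by
  obtain ⟨η, h0, h1⟩ := exists_eta (γ := (r : ℕ) × (c : Cfg (Y × ℝ) (Option κ) lam r) × ℝ ×
      (Y × ℝ → CL c.m.V β.m.V) × (Y × ℝ → CL c.m.V β.m.V) × ℝ × ℝ)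
    (P := fun ⟨_, _, s, u, v, a, b⟩ => ∃ g d, Stb D β β g (Circle.exp d) ∧ |d + a - b| ≤ ε ∧
        Lb D.Z.toPre (win Y s 2) ⌈ε⁻¹⌉₊ (fun x => (g x.1 ∘L u x) ∘L ad (v x) - β.m.p x.1) ε ∧
        Lb D.Z.toPre (win Y s 2) ⌈ε⁻¹⌉₊ (fun x => v x ∘L ad (g x.1 ∘L u x) - β.m.p x.1) ε)
    (H := fun ⟨_, c, s, u, v, a, b⟩ η => AdmOn c D.B D.G (win Y s 3) ∧
      Cn D c β u (Circle.exp a) (win Y s 3) η ∧ Cn D c β v (Circle.exp b) (win Y s 3) η)
    fun d hd => by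
      obtain ⟨g, ξ, h2, h3, h4⟩ := step_fam hβ hβ (L' := 2) (by norm_num) (by norm_num)
        (Eventually.of_forall fun n => (hd n).1) (cz_seq fun n => (hd n).2.1)
        (cz_seq fun n => (hd n).2.2)
      have h5 := h4 ⌈ε⁻¹⌉₊
      have h6 := BB.fst (F := D.F.toPre) h5.op ⌈ε⁻¹⌉₊ (φ := g)
        fun _ => sm_slice (t := 0) (h2.iso.su _ trivial)
      have h7 : ∀ y, g y ∘L ad (g y) = β.m.p y := fun y => (h2.iso.iso (y, 0) trivial).tgt
      obtain ⟨n, ⟨b, e1, e2⟩, ⟨-, e3⟩, -, e4⟩ := ((exists_phase h3 (fun n => Circle.exp_sub _ _) hε).and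
        ((h6.compZ h5.ad ε hε).and (h5.comp h6.ad ε hε))).exists
      refine ⟨n, g, b, e1 ▸ h2, by rwa [add_sub_assoc, ← sub_neg_eq_add, neg_sub],
        e3.congr (win_op _ _) fun x _ => ?_, e4.congr (win_op _ _) fun x _ => ?_⟩
      · beta_reduce
        rw [ad_sub, ad_comp, ad_ad, ContinuousLinearMap.comp_sub, h7]
        rfl
      · beta_reduce
        rw [ad_comp, ContinuousLinearMap.sub_comp, h7]
        rfl
  exact ⟨η, h0, fun r c s u v a b k1 k2 k3 => h1 ⟨r, c, s, u, v, a, b⟩ ⟨k1, k2, k3⟩⟩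

end Crest.Agent.X212.Bki64
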