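import Crest.Agent.X212.Bki64.Lm

/-!
# X212, BRKI (helper64), part 7: the breaking theorem
-/

set_option autoImplicit false
set_option linter.unusedSectionVars false
noncomputable section
open scoped Manifold ContDiff Topology InnerProductSpace
open MeasureTheory Set Function Filter

namespace Crest.Agent.X212.Bki64
open An Sob92 Cyf70 Neck67 Cmp73 Pj41 Eqv71 Tmp64 Nd18 Std94
open Brk64 (eI)

theorem chain_ind : ∀ {k : ℕ} {Q : Fin (k + 1) → ℝ → ℕ → Prop} {a : Fin k → ℝ} {e : Fin k → ℕ},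
    Q (Fin.last k) 0 0 → (∀ i x j, Q i.succ x j → Q i.castSucc (a i + x) (e i + j)) →
    Q 0 (∑ i, a i) (∑ i, e i)
  | 0, _, _, _, h0, _ => by simpa using h0
  | k + 1, Q, a, e, h0, hs => by
    rw [Fin.sum_univ_succ, Fin.sum_univ_succ]
    exact hs 0 _ _ (chain_ind (Q := fun g => Q g.succ) h0 fun i => hs i.succ)

theorem exists_small {e : ℝ} (he : 0 < e) (C : ℝ) : ∃ ρ > 0, ρ ≤ 1 ∧ C * ρ < e := by
  have : ∀ᶠ ρ in 𝓝 (0 : ℝ), C * ρ < e := (continuous_const.mul continuous_id).continuousAt.eventually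
    (gt_mem_nhds (by simpa using he))
  exact (((this.and (Iic_mem_nhds one_pos)).filter_mono nhdsWithin_le_nhds).and (self_mem_nhdsWithin
    (a := (0 : ℝ)) (s := Ioi 0))).exists.imp fun _ h => ⟨h.2, h.1.2, h.1.1⟩

variable {E3 : Type} [NormedAddCommGroup E3] [NormedSpace ℝ E3] [FiniteDimensional ℝ E3]
  [MeasurableSpace E3] [BorelSpace E3]
  {H3 : Type} [TopologicalSpace H3] {I3 : ModelWithCorners ℝ E3 H3} [I3.Boundaryless]
  {Y : Type} [TopologicalSpace Y] [ChartedSpace H3 Y] [IsManifold I3 ∞ Y] [T2Space Y]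
  [MeasurableSpace Y] [BorelSpace Y] [SecondCountableTopology Y] [CompactSpace Y]
  {κ : Type} [Fintype κ] {lam : Type} [Fintype lam] {D : YD I3 Y κ lam} {β β' : YC Y κ lam}
  {N : ND Y lam} {q : YW I3 Y →₀ ℝ} {r : ℕ} {S : N.CD D} {ν : Type} {𝒰 : Ultrafilter ν}
  {A : Brk64.Nk ν} {ρ : ν → ℕ} {c : ∀ n, Cfg (Y × ℝ) (Option κ) lam (ρ n)}

theorem chp_bubs {p i ζ i' ζ' x j} (h : S.ChP q p i ζ i' ζ' x j) :
    ∀ m : ℕ, S.ChP q p i ζ i' ζ' (x + m) (j + m)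
  | 0 => by simpa using h
  | m + 1 => by simpa [add_assoc] using (chp_bubs h m).bub

/-- all windows with centre in `T R n` are close to `β` with the phase `ζ` -/
def Pg (D : YD I3 Y κ lam) (l : Filter ν) (c : ∀ n, Cfg (Y × ℝ) (Option κ) lam (ρ n))
    (T : ℝ → ν → Set ℝ) (β : YC Y κ lam) (ζ : Circle) : Prop :=
  ∀ η > 0, ∃ R, ∀ᶠ n in l, ∀ s ∈ T R n, ∃ w, Cn D (c n) β w ζ (win Y s 7) η

theorem Pg.act {l : Filter ν} {T : ℝ → ν → Set ℝ} {ζ ξ : Circle} {g : Y → CL β.m.V β'.m.V}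
    (h : Pg D l c T β ζ) (hβ : D.Adm β) (hβ' : D.Adm β') (hg : Stb D β β' g ξ) :
    Pg D l c T β' (ξ * ζ) := fun _ hη =>
  let ⟨η', h0, h1⟩ := act_eta hβ hβ' hη
  (h η' h0).imp fun _ h => h.mono fun _ h s hs => let ⟨w, hw⟩ := h s hs; ⟨_, h1 _ _ _ w _ _ _ hg hw⟩

/-- the output of the breaking theorem: centres `t`, critical points `b`, limits `γ` -/
structure Out (S : N.CD D) (q : YW I3 Y →₀ ℝ) (𝒰 : Ultrafilter ν) (A : Brk64.Nk ν)
    (c : ∀ n, Cfg (Y × ℝ) (Option κ) lam (ρ n)) where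
  k : ℕ
  t : Fin k → ν → ℝ
  b : Fin (k + 1) → S.C
  γ : Fin k → Cfg (Y × ℝ) (Option κ) lam 0
  Sg : Fin k → Set (Y × ℝ)
  v : ∀ i n, Y × ℝ → CL (c n).m.V (γ i).m.V
  cen : ∃ w, A.Cen 𝒰 w k t
  near : A.Chain 𝒰 (fun n s i η => Nr D (c n) (A.J 0 n) s (S.β i) η) t b
  lm : ∀ i, Lm N D q 𝒰 (fun n => sh (t i n) (c n)) (γ i) (Sg i) (v i)
  car : ∀ i, ∃ ε > 0, ∃ L, ∀ᶠ n in 𝒰, ε ≤ ∫ x in win Y (t i n) L, eZ D (c n) x ∂D.Z.μ

/-- **Breaking** -/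
theorem In.out [Nonempty S.C] (H : In S q 𝒰 A c) : Nonempty (Out S q 𝒰 A c) := by
  obtain ⟨w, k, t, b, h1, h2, h3⟩ := H.exists_cen
  choose γ Sg v h using fun i => H.cmp (𝒰.map fun n => (n, t i n)) tendsto_id (h1.deep i)
  exact ⟨k, t, b, γ, Sg, fun i n => v i (n, t i n), ⟨w, h1⟩, h2,
    fun i => ⟨(h i).sol, (h i).cv, (h i).conc, (h i).loss⟩, h3⟩

theorem In.phase (H : In S q 𝒰 A c) (i : S.C) {η : ℝ} (hη : 0 < η) : ∃ η' > 0, ∀ᶠ n in 𝒰,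
    ∀ T, IsClosed T → T.OrdConnected → (∀ s ∈ T, Nr D (c n) (A.J 0 n) s (S.β i) η') →
      ∃ ζ, ∀ s, Icc (s - 7) (s + 7) ⊆ T → ∃ w, Cn D (c n) (S.β i) w ζ (win Y s 7) η := by
  obtain ⟨η1, p1, H1⟩ := phase_eta (crit_adm (S.crit i)) hη
  obtain ⟨d, p2, H2⟩ := H.dec i
  obtain ⟨η2, p3, H3⟩ := H2 ⌈η1⁻¹⌉₊ η1 p1
  refine ⟨η2, p3, H3.mono fun n hn T h1 h2 h3 => ?_⟩
  obtain ⟨ζ, h4⟩ := Brk64.exists_clu (Q := fun (m : ℕ) (ζ : Circle) => ∃ u,
      ∀ s ∈ T ∩ Icc (-(m : ℝ)) m, Cn D (c n) (S.β i) u ζ (win Y s 1) η1) fun m => by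
    obtain ⟨a, b, e⟩ := Brk64.icc_piece h1 h2 m
    rcases lt_or_ge b a with h | h
    · exact ⟨1, 0, by simp [e, Icc_eq_empty_of_lt h]⟩
    obtain ⟨u, ζ, h4⟩ := hn a b h fun s hs => h3 s (e ▸ hs :).1
    refine ⟨ζ, u, fun s hs => (h4 s (e ▸ hs)).mono (win_op _ _) Subset.rfl le_rfl
      (mul_le_of_le_one_right p1.le (Real.exp_le_one_iff.2 ?_))⟩
    rw [e] at hs
    nlinarith [le_min (sub_nonneg.2 hs.1) (sub_nonneg.2 hs.2)]
  refine ⟨ζ, fun s hs => ?_⟩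
  obtain ⟨m, h5, ξ, ⟨u, h6⟩, h7⟩ := h4 η1 p1 ⌈|s| + 7⌉₊
  have h8 := Nat.ceil_le.1 h5
  exact ⟨u, H1 _ _ _ u ξ ζ h7 (Cl.of_local (win_op _ _) fun x hx => ⟨win Y x.2 1, u, _,
    ⟨trivial, by linarith, by linarith⟩, .rfl, .rfl, h6 x.2 ⟨hs (Ioo_subset_Icc_self hx.2),
      by linarith [hx.2.1, neg_abs_le s], by linarith [hx.2.2, le_abs_self s]⟩⟩)⟩

namespace Out
variable (o : Out S q 𝒰 A c)

/-- `ζ` is a phase of the gap `g` -/
def P (g : Fin (o.k + 1)) (ζ : Circle) : Prop := Pg D 𝒰 c (A.Gap o.t g) (S.β (o.b g)) ζ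

/-- `m` is the level lost at the centre `i` -/
def IsM (i : Fin o.k) (m : ℕ) : Prop := (m = 0 ↔ o.Sg i = ∅) ∧ ∀ᶠ R in atTop,
  Tendsto (fun n => ∫ x in cw Y 0 R, kZ D (sh (o.t i n) (c n)) x ∂D.Z.μ) 𝒰
    (𝓝 (∫ x in cw Y 0 R, kZ D (o.γ i) x ∂D.Z.μ + m))

/-- the level lost at the centre `i` -/
def m (i : Fin o.k) : ℕ := Classical.epsilon (o.IsM i)

/-- the total level -/
def lev : ℝ := ∑ i, ((o.γ i).kap D.B D.G + o.m i)

open Classical in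
/-- the length of the chain -/
def len : ℕ := ∑ i, (o.m i + if D.Moves (o.γ i) then 1 else 0)

theorem deep (i : Fin o.k) : A.Deep 𝒰 (o.t i) := o.cen.choose_spec.deep i

theorem sep {i j : Fin o.k} (h : i < j) : Brk64.Rt 𝒰 (o.t i) (o.t j) := o.cen.choose_spec.sep i j h

theorem ev_right (i : Fin o.k) (R : ℝ) :
    ∀ᶠ s in atTop, ∀ᶠ n in 𝒰, o.t i n + s ∈ A.Gap o.t i.succ R n :=
  (eventually_ge_atTop R).mono fun _ => o.cen.choose_spec.mem_right i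

theorem ev_left (i : Fin o.k) (R : ℝ) :
    ∀ᶠ s in atBot, ∀ᶠ n in 𝒰, o.t i n + s ∈ A.Gap o.t i.castSucc R n :=
  (eventually_le_atBot (-R)).mono fun s h => by
    simpa using o.cen.choose_spec.mem_left i (show R ≤ -s by linarith)

/-- the first gap, seen from the left end `a` of the neck -/
theorem ev_first {a : ν → ℝ} (h : ∀ R, ∀ᶠ s in atTop, ∀ᶠ n in 𝒰, a n + s ∈ A.J R n)
    (h' : ∀ t, A.Deep 𝒰 t → Brk64.Rt 𝒰 a t) (R : ℝ) :
    ∀ᶠ s in atTop, ∀ᶠ n in 𝒰, a n + s ∈ A.Gap o.t 0 R n := (h R).mono fun s hs =>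
  (hs.and (eventually_all.2 fun i => (h' _ (o.deep i)).eventually_ge_atTop (s + R))).mono
    fun _ h => ⟨h.1, fun i => ⟨fun e => absurd e (Fin.not_lt_zero _), fun _ => by linarith [h.2 i]⟩⟩

/-- the last gap, seen from the right end `a` of the neck -/
theorem ev_last {a : ν → ℝ} (h : ∀ R, ∀ᶠ s in atBot, ∀ᶠ n in 𝒰, a n + s ∈ A.J R n)
    (h' : ∀ t, A.Deep 𝒰 t → Brk64.Rt 𝒰 t a) (R : ℝ) :
    ∀ᶠ s in atBot, ∀ᶠ n in 𝒰, a n + s ∈ A.Gap o.t (Fin.last _) R n := (h R).mono fun s hs =>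
  (hs.and (eventually_all.2 fun i => (h' _ (o.deep i)).eventually_ge_atTop (R - s))).mono
    fun _ h => ⟨h.1, fun i => ⟨fun _ => by linarith [h.2 i],
      fun e => absurd e (not_le.2 (Fin.castSucc_lt_last i))⟩⟩

theorem gap_top {R : ℝ} {n : ν} (h : A.J R n ∈ atTop) : A.Gap o.t (Fin.last _) R n ∈ atTop :=
  (Eventually.and h (eventually_all.2 fun i => eventually_ge_atTop (o.t i n + R))).mono fun _ h =>
    ⟨h.1, fun i => ⟨fun _ => h.2 i, fun e => absurd e (not_le.2 (Fin.castSucc_lt_last i))⟩⟩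

theorem gap_bot {R : ℝ} {n : ν} (h : A.J R n ∈ atBot) : A.Gap o.t 0 R n ∈ atBot :=
  (Eventually.and h (eventually_all.2 fun i => eventually_le_atBot (o.t i n - R))).mono fun _ h =>
    ⟨h.1, fun i => ⟨fun e => absurd e (Fin.not_lt_zero _), fun _ => by linarith [h.2 i]⟩⟩

variable (H : In S q 𝒰 A c)
include H

theorem adm (i : Fin o.k) (L : ℝ) :
    ∀ᶠ n in 𝒰, AdmOn (sh (o.t i n) (c n)) D.B D.G (cw Y 0 L) := H.adm_sh tendsto_id (o.deep i) L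

theorem exP (g : Fin (o.k + 1)) : ∃ ζ, o.P g ζ := by
  have hβ := crit_adm (S.crit (o.b g))
  obtain ⟨ζ, h⟩ := Brk64.exists_clu (Q := fun (m : ℕ) (ξ : Circle) => ∃ R, ∀ᶠ n in 𝒰,
      ∀ s ∈ A.Gap o.t g R n, ∃ w, Cn D (c n) (S.β (o.b g)) w ξ (win Y s 7) (1 / ((m : ℝ) + 1)))
    fun m => by
      obtain ⟨η1, p1, H1⟩ := phase_eta hβ (Nat.one_div_pos_of_nat (n := m))
      obtain ⟨η2, p2, H2⟩ := H.phase (o.b g) p1
      obtain ⟨R, -, H3⟩ := o.near η2 p2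
      obtain ⟨ζ, H4⟩ := ev_choice ((H2.and H3).mono fun n h =>
        h.1 _ (A.gap_cl o.t g R n) (A.gap_oc o.t g R n) (h.2 g))
      obtain ⟨ξ, -, hξ⟩ := isCompact_univ.ultrafilter_le_nhds (𝒰.map ζ) (by simp)
      refine ⟨ξ, R + 7, ?_⟩
      filter_upwards [H4, hξ (Metric.closedBall_mem_nhds ξ p1)] with n a1 a2 s hs
      exact (a1 s fun x hx => A.gap_lip hs (abs_le.2 ⟨by linarith [hx.1], by linarith [hx.2]⟩)).imp
        fun w hw => H1 _ _ _ w _ _ (Metric.mem_closedBall'.1 a2) hw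
  refine ⟨ζ, fun η hη => ?_⟩
  obtain ⟨η1, p1, H1⟩ := phase_eta hβ hη
  obtain ⟨m0, h0⟩ := exists_nat_one_div_lt p1
  obtain ⟨m, h1, ξ, ⟨R, h2⟩, h3⟩ := h η1 p1 m0
  exact ⟨R, h2.mono fun n hn s hs => (hn s hs).imp fun w hw => H1 _ _ _ w _ _ h3 (hw.mono
    (win_op _ _) Subset.rfl Nat.one_div_pos_of_nat ((Nat.one_div_le_one_div h1).trans h0.le))⟩

theorem P_adm {g : Fin (o.k + 1)} {ζ : Circle} (h : o.P g ζ) {η : ℝ} (hη : 0 < η) :
    ∃ R, ∀ᶠ n in 𝒰, ∀ s ∈ A.Gap o.t g R n, AdmOn (c n) D.B D.G (win Y s 7) ∧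
      ∃ w, Cn D (c n) (S.β (o.b g)) w ζ (win Y s 7) η :=
  let ⟨R, hR⟩ := h η hη
  ⟨max R (0 + 7), (hR.and H.adm).mono fun n h s hs => ⟨(adm_cw h.2 (A.anti (le_max_right _ _) n
    hs.1)).mono (win_cw _ _), h.1 s (A.gap_anti _ _ (le_max_left _ _) n hs)⟩⟩

/-- **a limit seen from a point `a` converges along its end which runs into the gap `g`** -/
theorem lim_gap {g : Fin (o.k + 1)} {ζ : Circle} (h : o.P g ζ) {l : Filter ℝ} (hl : IsEnd l)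
    {a : ν → ℝ} (ha : ∀ R, ∀ᶠ s in l, ∀ᶠ n in 𝒰, a n + s ∈ A.Gap o.t g R n)
    {γ : Cfg (Y × ℝ) (Option κ) lam r} {v : ∀ n, Y × ℝ → CL (c n).m.V γ.m.V} {T : Set ℝ}
    (hT : T ∈ l) (hγ : AdmOn γ D.B D.G (univ ×ˢ T))
    (hv : CvC D.Z 𝒰 (fun n => sh (a n) (c n)) γ v (univ ×ˢ T)) :
    ∃ u, ∀ k, ∀ η > 0, ∃ T' ∈ l, T' ⊆ T ∧ D.Cls γ (S.β (o.b g)) u ζ T' k η :=
  lim_of_cv H.ok (crit_adm (S.crit _)) hl hT hγ hv fun η hη => by
    obtain ⟨R, hR⟩ := o.P_adm H h hη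
    refine (ha R).mono fun s hs => (hs.and hR).mono fun n hn => ?_
    obtain ⟨h1, w, h2⟩ := hn.2 _ hn.1
    have h3 := admOn_sh h1 (a n)
    have h4 := Cl.sh h2 (a n)
    rw [win_tr (add_comm _ _)] at h3 h4
    exact ⟨h3, _, h4⟩

/-- **solutions which converge along an end in the gap `g`** -/
theorem end_gap {g : Fin (o.k + 1)} {l : Filter ℝ} [l.NeBot] (hl : IsEnd l)
    (hg : ∀ R, ∀ᶠ n in 𝒰, A.Gap o.t g R n ∈ l) {j : S.C} {ζ : ν → Circle} {ζ₀ : Circle}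
    (hζ : Tendsto ζ 𝒰 (𝓝 ζ₀)) (h : ∀ᶠ n in 𝒰, ∃ T, AdmOn (c n) D.B D.G (univ ×ˢ T) ∧
      ∃ u, ∀ k, ∀ η > 0, ∃ T' ∈ l, T' ⊆ T ∧ D.Cls (c n) (S.β j) u (ζ n) T' k η) :
    o.b g = j ∧ o.P g ζ₀ := by
  obtain ⟨ξ, hξ⟩ := o.exP H g
  have a1 := crit_adm (S.crit (o.b g))
  have a2 := crit_adm (S.crit j)
  obtain ⟨u, hu⟩ := stb_of_eta a1 a2 (L := 7) (ξ := ξ) (ξ' := ζ₀) (by norm_num) fun η hη => by
    obtain ⟨R, hR⟩ := o.P_adm H hξ hη
    obtain ⟨n, ⟨b1, b2⟩, ⟨T, b3, u, b4⟩, b5⟩ := ((hR.and (hg R)).and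
      (h.and (hζ (Metric.closedBall_mem_nhds ζ₀ hη)))).exists
    obtain ⟨s, b6, b7⟩ := ((cn_of_lim a2 hl b3 b4 hη 7).and b2).exists
    obtain ⟨b8, w, b9⟩ := b1 s b7
    exact ⟨_, c n, s, w, u, ξ, ζ n, b8, b9, b6, by simpa using hη.le, b5⟩
  obtain rfl := S.sep _ _ (hu.eqv H.ok a1 a2)
  exact ⟨rfl, by simpa [P] using hξ.act a1 a1 hu⟩

theorem gap_decay : ∃ d > 0, ∃ C > 0, ∃ R ≥ 0, (∀ᶠ n in 𝒰, ∀ g a b, a ≤ b →
    Icc a b ⊆ A.Gap o.t g R n → ∀ x : Y × ℝ, x.2 ∈ Icc a b →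
      |kZ D (c n) x| ≤ C * Real.exp (-d * min (x.2 - a) (b - x.2))) ∧
    ∀ i a b, a ≤ b → (R ≤ a ∨ b ≤ -R) → ∀ᶠ n in 𝒰, ∀ x : Y × ℝ, x.2 ∈ Icc a b →
      eZ D (sh (o.t i n) (c n)) x ≤ C ∧
        |kZ D (sh (o.t i n) (c n)) x| ≤ C * Real.exp (-d * min (x.2 - a) (b - x.2)) := by
  obtain ⟨d, p1, C, p2, η, p3, h1⟩ := H.decay
  obtain ⟨R, p4, h2⟩ := o.near η p3
  have h3 := (h1.and h2).mono fun n h (g : Fin (o.k + 1)) a b hab
    (e : Icc a b ⊆ A.Gap o.t g R n) => h.1 _ a b hab fun s hs => h.2 g s (e hs)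
  refine ⟨d, p1, C, p2, R, p4, h3.mono fun n h g a b hab e x hx => (h g a b hab e x hx).2,
    fun i a b hab h => ?_⟩
  have h4 : ∀ᶠ n in 𝒰, ∃ g, Icc (o.t i n + a) (o.t i n + b) ⊆ A.Gap o.t g R n := by
    obtain ⟨w, hw⟩ := o.cen
    rcases h with h | h
    · exact ((hw.mem_right i h).and (hw.mem_right i (h.trans hab))).mono fun n h =>
        ⟨_, (A.gap_oc _ _ _ _).out h.1 h.2⟩
    · exact ((hw.mem_left i (show R ≤ -a by linarith)).and (hw.mem_left i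
        (show R ≤ -b by linarith))).mono fun n h =>
        ⟨_, by simpa using (A.gap_oc _ _ _ _).out h.1 h.2⟩
  filter_upwards [h3, h4, H.adm] with n a1 ⟨g, a2⟩ a3 x hx
  have a4 : x.2 + o.t i n ∈ Icc (o.t i n + a) (o.t i n + b) :=
    ⟨by linarith [hx.1], by linarith [hx.2]⟩
  have a5 := ek_sh (s := o.t i n) (x := x) a3 ⟨trivial, A.anti p4 n (a2 a4).1⟩
  have a6 := a1 g _ _ (by linarith) a2 (Tmp64.sq (· + o.t i n) x) a4
  simp only [Tmp64.sq, show x.2 + o.t i n - (o.t i n + a) = x.2 - a by ring,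
    show o.t i n + b - (x.2 + o.t i n) = b - x.2 by ring] at a5 a6
  rw [a5.1, a5.2]
  refine ⟨a6.1.trans (mul_le_of_le_one_right p2.le (Real.exp_le_one_iff.2 ?_)), a6.2⟩
  nlinarith [le_min (sub_nonneg.2 hx.1) (sub_nonneg.2 hx.2)]

/-- the bubbles stay in a bounded region -/
theorem sg (i : Fin o.k) : ∀ᶠ R in atTop, o.Sg i ⊆ win Y 0 R := by
  obtain ⟨d, -, C, p2, R, -, -, h⟩ := o.gap_decay H
  refine (eventually_ge_atTop (R + 1)).mono fun R' hR p hp => by_contra fun e => ?_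
  obtain ⟨ε, h0, h1⟩ := (o.lm i).conc p hp
  obtain ⟨ρ, h2, h3, h4⟩ := exists_small h0 (C * (D.F.μ.real univ * 2))
  obtain ⟨n, a1, a2⟩ := ((h1 _ (cw_nhds p h2) (cwin_cpt _ _)).and (h i (p.2 - 1) (p.2 + 1)
    (by linarith) (by
      by_contra e'
      push Not at e'
      exact e ⟨trivial, by linarith [e'.2], by linarith [e'.1]⟩))).exists
  have := int_le (D := D) h2.le p2.le Subset.rfl fun x hx => (abs_of_nonneg (Dgr80.en_nonneg _ _ _
    _)).trans_le (a2 x ⟨by linarith [hx.2.1], by linarith [hx.2.2]⟩).1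
  linarith

theorem m_spec (i : Fin o.k) : o.IsM i (o.m i) :=
  let ⟨R, hR⟩ := (o.sg H i).exists
  Classical.epsilon_spec (((o.lm i).loss R hR).imp fun _ h =>
    ⟨h.1, (eventually_ge_atTop R).mono h.2⟩)

/-- **the limits are trajectories** -/
theorem traj (i : Fin o.k) {ζ ζ' : Circle} (h : o.P i.castSucc ζ) (h' : o.P i.succ ζ') :
    N.Traj D q (o.γ i) (S.β (o.b i.castSucc)) (S.β (o.b i.succ)) ζ ζ' := by
  obtain ⟨R, hR⟩ := (o.sg H i).exists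
  have key : ∀ {g ζ l}, o.P g ζ → IsEnd l → (∀ R, ∀ᶠ s in l, ∀ᶠ n in 𝒰,
      o.t i n + s ∈ A.Gap o.t g R n) → D.nk.Lim (o.γ i) (S.β (o.b g)) ζ l := fun h hl ha =>
    (o.lim_gap H h hl ha (hl.far.eventually_ge_atTop R)
      ((admOn_univ.2 (o.lm i).sol.toAdm).mono (subset_univ _)) ((o.lm i).cv.mono le_rfl
        fun x hx e => absurd hx.2 (not_le.2 (abs_lt.2 (by simpa using (hR e).2))))).imp
      fun _ h k η hη => (h k η hη).imp fun _ h => ⟨h.1, fun _ _ => by simp [YD.nk, Jv], h.2.2⟩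
  exact ⟨(o.lm i).sol, key h isEnd_bot (o.ev_left i), key h' isEnd_top (o.ev_right i)⟩

/-- every centre carries a moving trajectory or a bubble -/
theorem mv (i : Fin o.k) : D.Moves (o.γ i) ∨ o.m i ≠ 0 := by
  by_contra e
  simp only [not_or, YD.Moves, not_exists, not_not] at e
  obtain ⟨ε, h0, L, h1⟩ := o.car i
  obtain ⟨δ, h2, -, h3⟩ := exists_small h0 (D.F.μ.real univ * (2 * |L|))
  obtain ⟨n, ⟨a1, a2⟩, a3, a4⟩ := ((h1.and ((o.lm i).ek H.ok (o.adm H i) (cwin_cpt 0 |L|)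
    (by simp [(o.m_spec H i).1.1 e.2]) h2)).and (H.adm.and (o.deep i (0 + L)))).exists
  have a5 := (ek_int_sh (win_op _ _).measurableSet ((adm_cw a3 a4).mono (win_cw _ _)) (o.t i n)).1
  rw [win_tr (zero_add _).symm] at a5
  have a6 : win Y 0 L ⊆ cw Y 0 |L| := (win_sub (by simpa using le_abs_self L)).trans (win_cw _ _)
  have := int_le (D := D) (abs_nonneg L) h2.le a6 fun x hx => by
    simpa only [eZ, e.1 x, sub_zero] using (a2 x (a6 hx)).1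
  linarith

/-- a centre without a moving trajectory does not change the critical point -/
theorem still {i : Fin o.k} (h : ¬D.Moves (o.γ i)) : o.b i.castSucc = o.b i.succ ∧
    (∀ ξ, o.P i.castSucc ξ ↔ o.P i.succ ξ) ∧ (o.γ i).kap D.B D.G = 0 := by
  simp only [YD.Moves, not_exists, not_not] at h
  obtain ⟨β, u, h1, h2⟩ := H.frz _ (o.lm i).sol h
  have a0 := crit_adm h1
  have a1 := fun g => crit_adm (S.crit (o.b g))
  have ag := admOn_univ.2 (o.lm i).sol.toAdm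
  have k1 : ∀ {g ζ l} [NeBot l], IsEnd l → D.nk.Lim (o.γ i) (S.β (o.b g)) ζ l →
      ∃ w, Stb D β (S.β (o.b g)) w (ζ / 1) := fun {g ζ l} _ hl ⟨w, hw⟩ =>
    stb_of_eta a0 (a1 g) one_pos fun η hη =>
      let ⟨s, hs⟩ := (cn_of_lim (a1 g) hl (ag.mono (subset_univ _)) hw hη 1).exists
      ⟨_, o.γ i, s, u, w, 1, ζ, ag.mono (subset_univ _), cl_of_eq0 h2 (win_op _ _) hη.le, hs,
        by simpa using hη.le, by simpa using hη.le⟩
  have k2 : ∀ {g g' w w' ζ ζ'}, Stb D β (S.β (o.b g)) w ζ → Stb D β (S.β (o.b g')) w' ζ' →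
      ∃ w, Stb D (S.β (o.b g)) (S.β (o.b g')) w (ζ' / ζ) := fun {g g' w w' ζ ζ'} h h' =>
    stb_of_eta (a1 g) (a1 g') one_pos fun η hη => ⟨_, cy β, 0, _, _, ζ, ζ', (admOn_univ.2
      a0.adm).mono (subset_univ _), h.cl (win_op _ _) hη.le, h'.cl (win_op _ _) hη.le,
        by simpa using hη.le, by simpa using hη.le⟩
  have k3 : ∀ {ζ ζ'}, o.P i.castSucc ζ → o.P i.succ ζ' →
      o.b i.castSucc = o.b i.succ ∧ o.P i.castSucc ζ' ∧ o.P i.succ ζ := fun h h' => by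
    obtain ⟨w, hw⟩ := k1 isEnd_bot (o.traj H i h h').bot
    obtain ⟨w', hw'⟩ := k1 isEnd_top (o.traj H i h h').top
    obtain ⟨g, hg⟩ := k2 hw hw'
    obtain ⟨g', hg'⟩ := k2 hw' hw
    have e := S.sep _ _ (hg.eqv H.ok (a1 _) (a1 _))
    have e1 := Pg.act h (a1 _) (a1 _) hg
    have e2 := Pg.act h' (a1 _) (a1 _) hg'
    simp only [div_one, div_mul_cancel] at e1 e2
    exact ⟨e, by rw [P, e]; exact e1, by rw [P, ← e]; exact e2⟩
  obtain ⟨ζ, hζ⟩ := o.exP H i.castSucc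
  obtain ⟨ζ', hζ'⟩ := o.exP H i.succ
  refine ⟨(k3 hζ hζ').1, fun ξ => ⟨fun h => (k3 h hζ').2.2, fun h => (k3 hζ h).2.1⟩, ?_⟩
  exact integral_eq_zero_of_ae (Eventually.of_forall fun x =>
    kd_zero H.ok (o.lm i).sol.toAdm (h x))

/-- **the chain** -/
theorem chp {p : Cfg (Y × ℝ) (Option κ) lam 0 → Prop} (hp : ∀ i, p (o.γ i)) {ζ' : Circle}
    (h' : o.P (Fin.last _) ζ') :
    (∀ ζ, o.P 0 ζ → S.ChP q p (o.b 0) ζ (o.b (Fin.last _)) ζ' o.lev o.len) ∨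
      (o.b 0 = o.b (Fin.last _) ∧ (∀ ξ, o.P 0 ξ ↔ o.P (Fin.last _) ξ) ∧
        ∀ ξ, S.ChP q p (o.b (Fin.last _)) ξ (o.b (Fin.last _)) ξ o.lev o.len) := by
  refine chain_ind (Q := fun g x j => (∀ ζ, o.P g ζ → S.ChP q p (o.b g) ζ (o.b (Fin.last _)) ζ' x j)
    ∨ (o.b g = o.b (Fin.last _) ∧ (∀ ξ, o.P g ξ ↔ o.P (Fin.last _) ξ) ∧
      ∀ ξ, S.ChP q p (o.b (Fin.last _)) ξ (o.b (Fin.last _)) ξ x j))
    (.inr ⟨rfl, fun _ => .rfl, fun _ => .nil _ _⟩) fun i x j h => ?_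
  by_cases hm : D.Moves (o.γ i)
  · obtain ⟨ξ, h1, h2⟩ : ∃ ξ, o.P i.succ ξ ∧ S.ChP q p (o.b i.succ) ξ (o.b (Fin.last _)) ζ' x j := by
      rcases h with h | ⟨h1, h2, h3⟩
      · exact (o.exP H _).imp fun ξ e => ⟨e, h ξ e⟩
      · exact ⟨ζ', (h2 _).2 h', h1 ▸ h3 ζ'⟩
    refine .inl fun ζ h => ?_
    convert chp_bubs (h2.mov _ (o.traj H i h h1) hm (hp i)) (o.m i) using 1
    · ring
    · rw [if_pos hm]; ring
  · obtain ⟨h1, h2, h3⟩ := o.still H hm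
    rw [h3, if_neg hm, zero_add, add_zero, add_comm _ x, add_comm _ j, h1]
    exact h.imp (fun h ζ e => chp_bubs (h ζ ((h2 ζ).1 e)) _) fun h =>
      ⟨h.1, fun ξ => (h2 ξ).trans (h.2.1 ξ), fun ξ => chp_bubs (h.2.2 ξ) _⟩

theorem chp_last {p : Cfg (Y × ℝ) (Option κ) lam 0 → Prop} (hp : ∀ i, p (o.γ i)) {ζ' : Circle}
    (h' : o.P (Fin.last _) ζ') :
    ∃ ζ, o.P 0 ζ ∧ S.ChP q p (o.b 0) ζ (o.b (Fin.last _)) ζ' o.lev o.len :=
  (o.chp H hp h').elim (fun h => (o.exP H 0).imp fun ζ e => ⟨e, h ζ e⟩) fun h =>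
    ⟨ζ', (h.2.1 _).2 h', h.1 ▸ h.2.2 ζ'⟩

theorem chp_first {p : Cfg (Y × ℝ) (Option κ) lam 0 → Prop} (hp : ∀ i, p (o.γ i)) {ζ : Circle}
    (h : o.P 0 ζ) : ∃ ζ', o.P (Fin.last _) ζ' ∧
      S.ChP q p (o.b 0) ζ (o.b (Fin.last _)) ζ' o.lev o.len :=
  let ⟨ζ', h'⟩ := o.exP H (Fin.last _)
  (o.chp H hp h').elim (fun e => ⟨ζ', h', e ζ h⟩) fun e => ⟨ζ, (e.2.1 _).1 h, e.1 ▸ e.2.2 ζ⟩

theorem k_le : o.k ≤ o.len := by
  refine le_trans (by simp) (Finset.card_nsmul_le_sum Finset.univ _ 1 fun i _ => ?_)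
  rcases o.mv H i with h | h
  · rw [if_pos h]; omega
  · omega

/-- chains of length one -/
theorem len_one (h : o.len = 1) : (∃ i, (∀ i', i' = i) ∧ D.Moves (o.γ i) ∧ o.Sg i = ∅) ∨
    (o.b 0 = o.b (Fin.last _) ∧ o.lev = 1) := by
  have h1 := h ▸ o.k_le H
  have h2 : o.k ≠ 0 := fun e => by
    have : IsEmpty (Fin o.k) := e ▸ inferInstanceAs (IsEmpty (Fin 0))
    simp [len] at h
  let i : Fin o.k := ⟨0, by omega⟩
  have hi : ∀ i', i' = i := fun i' => Fin.ext (by have := i'.2; simp only [i]; omega)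
  have : Unique (Fin o.k) := ⟨⟨i⟩, hi⟩
  rw [len, Fintype.sum_unique, hi default] at h
  by_cases hm : D.Moves (o.γ i)
  · rw [if_pos hm] at h
    exact .inl ⟨i, hi, hm, (o.m_spec H i).1.1 (by omega)⟩
  · rw [if_neg hm, add_zero] at h
    obtain ⟨h3, -, h4⟩ := o.still H hm
    refine .inr ⟨?_, by rw [lev, Fintype.sum_unique, hi default, h4, h]; simp⟩
    rwa [show i.succ = Fin.last _ from Fin.ext (by simp only [i, Fin.val_succ, Fin.val_last]; omega),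
      show i.castSucc = 0 from rfl] at h3

theorem int_kd (i : Fin o.k) : Integrable (kZ D (o.γ i)) D.Z.μ := by
  obtain ⟨d, p1, C, p2, R, p3, -, h⟩ := o.gap_decay H
  obtain ⟨R', h1, h2⟩ := ((o.sg H i).and (eventually_ge_atTop R)).exists
  have ag := admOn_univ.2 (o.lm i).sol.toAdm
  have hc : Continuous (kZ D (o.γ i)) := continuous_iff_continuousAt.2 fun x =>
    (fsm_kd H.ok.B isOpen_univ ag trivial).continuousAt
  have key : ∀ T : Set ℝ, IsClosed T → T.OrdConnected → (T ⊆ Ici R' ∨ T ⊆ Iic (-R')) →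
      IntegrableOn (kZ D (o.γ i)) (Prod.snd ⁻¹' T) D.Z.μ := fun T t1 t2 t3 =>
    ⟨hc.aestronglyMeasurable, (lint_dec p1 p2.le t1 t2 fun a b hab e x hx => by
      refine le_of_forall_pos_le_add fun ε hε => ?_
      obtain ⟨n, a1, a2⟩ := ((h i a b hab (t3.imp (fun e' => h2.trans (e' (e ⟨le_rfl, hab⟩)))
        fun e' => (e' (e ⟨hab, le_rfl⟩)).trans (neg_le_neg h2))).and ((o.lm i).ek H.ok (o.adm H i)
          (isCompact_singleton (x := x)) (singleton_subset_iff.2 fun e' => t3.elim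
            (fun e'' => absurd (e'' (e hx)) (not_le.2 (by simpa using (h1 e').2.2)))
            fun e'' => absurd (e'' (e hx)) (not_le.2 (by simpa using (h1 e').2.1))) hε)).exists
      linarith [(a1 x hx).2, (a2 x rfl).2, abs_sub_abs_le_abs_sub (kZ D (o.γ i) x)
        (kZ D (sh (o.t i n) (c n)) x), abs_sub_comm (kZ D (o.γ i) x)
        (kZ D (sh (o.t i n) (c n)) x)]).trans_lt ENNReal.ofReal_lt_top⟩
  refine integrableOn_univ.1 ((((key _ isClosed_Iic ordConnected_Iic (.inr Subset.rfl)).union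
    (key _ isClosed_Ici ordConnected_Ici (.inl Subset.rfl))).union
    (int_cw H.ok (s := 0) (L := R') (ag.mono (subset_univ _))).2).mono_set fun x _ => ?_)
  by_contra e
  simp only [mem_union, mem_preimage, mem_Iic, mem_Ici, not_or, not_le] at e
  exact e.2 ⟨trivial, by linarith [e.1.1], by linarith [e.1.2]⟩

/-- **the level** -/
theorem level {ε : ℝ} (hε : 0 < ε) : ∀ᶠ R in atTop, ∀ᶠ n in 𝒰,
    IntegrableOn (kZ D (c n)) (univ ×ˢ A.J R n) D.Z.μ ∧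
      |∫ x in univ ×ˢ A.J R n, kZ D (c n) x ∂D.Z.μ - o.lev| ≤ ε := by
  obtain ⟨d, p1, C, p2, R₁, p3, h, -⟩ := o.gap_decay H
  obtain ⟨δ, p4, -, h1⟩ := exists_small hε (o.k + 1 + 2 * o.k)
  have h2 := (tendsto_atTop_add_const_right _ (-R₁) tendsto_id).const_mul_atTop p1 |>.eventually
    (Brk64.ev_exp p4 (C * (D.F.μ.real univ * (2 / d))))
  have h3 : ∀ i, ∀ᶠ R in atTop,
      |∫ x in cw Y 0 R, kZ D (o.γ i) x ∂D.Z.μ - (o.γ i).kap D.B D.G| < δ := fun i =>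
    Metric.tendsto_nhds.1 (AECover.integral_tendsto_of_countably_generated (φ := cw Y 0)
      ⟨Eventually.of_forall fun x => (eventually_ge_atTop |x.2|).mono fun R h => ⟨trivial,
        by linarith [neg_abs_le x.2], by linarith [le_abs_self x.2]⟩,
        fun R => (cwin_cpt 0 R).measurableSet⟩ (o.int_kd H i)) δ p4
  filter_upwards [h2, eventually_all.2 h3, eventually_all.2 fun i => (o.m_spec H i).2,
    eventually_ge_atTop (R₁ + 1)] with R a1 a2 a3 a4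
  filter_upwards [h, H.adm, eventually_all.2 fun i => Metric.tendsto_nhds.1 (a3 i) δ p4,
    eventually_all.2 fun i => o.deep i (R + R), eventually_all.2 fun i => o.deep i (0 + (R + 1)),
    eventually_all.2 fun i => eventually_all.2 fun j => eventually_imp_distrib_left.2
      fun e : i < j => (o.sep e).eventually_gt_atTop (R + R)] with n b1 b2 b3 b4 b5 b6
  have c1 : ∀ x : Y × ℝ, x.2 ∈ A.J R n → ContinuousAt (kZ D (c n)) x := fun x hx =>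
    (fsm_kd H.ok.B (win_op x.2 1) ((adm_cw b2 (A.anti (by linarith) n hx)).mono (win_cw _ _))
      ⟨trivial, by linarith, by linarith⟩).continuousAt
  obtain ⟨c2, c3⟩ := A.int_split (μ := D.Z.μ) (g := kZ D (c n)) (t := o.t) (R := R) (n := n)
    measurable_snd (by linarith) p4.le (fun i j e => by linarith [b6 i j e]) b4
    (ContinuousOn.aestronglyMeasurable (fun x hx => (c1 x hx).continuousWithinAt)
      (measurable_snd (A.cl R n).measurableSet))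
    (fun i => by rw [snd_pre]; exact (int_cw H.ok (adm_cw b2 (b5 i))).2) fun g => by
      refine (lint_dec (C := C * Real.exp (-d * (R - R₁))) p1 (by positivity) (A.gap_cl _ _ _ _)
        (A.gap_oc _ _ _ _) fun a b hab e x hx => ?_).trans (ENNReal.ofReal_le_ofReal ?_)
      · have e1 : ∀ s ∈ Icc a b, s ∈ A.Gap o.t g (R₁ + (R - R₁)) n := fun s hs => by
          simpa using e hs
        refine (b1 g (a - (R - R₁)) (b + (R - R₁)) (by linarith) ((A.gap_oc _ _ _ _).out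
          (A.gap_lip (e1 a ⟨le_rfl, hab⟩) (by rw [sub_sub_cancel_left, abs_neg, abs_of_nonneg
            (by linarith)])) (A.gap_lip (e1 b ⟨hab, le_rfl⟩) (by
              rw [add_sub_cancel_left, abs_of_nonneg (by linarith)]))) x
          ⟨by linarith [hx.1], by linarith [hx.2]⟩).trans (le_of_eq ?_)
        rw [mul_assoc, ← Real.exp_add, ← mul_add, ← min_add_add_left]
        congr 4 <;> ring
      · simp only [id, ← sub_eq_add_neg, ← neg_mul] at a1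
        linarith
  rw [snd_pre] at c2
  refine ⟨c2, ?_⟩
  have c4 : |∑ i, eI D.Z.μ Prod.snd (kZ D (c n)) (Icc (o.t i n - R) (o.t i n + R)) - o.lev| ≤
      o.k * (2 * δ) := by
    rw [lev, ← Finset.sum_sub_distrib]
    refine (Finset.abs_sum_le_sum_abs _ _).trans ((Finset.sum_le_card_nsmul _ _ (2 * δ)
      fun i _ => ?_).trans (by simp))
    have := (ek_int_sh (cwin_cpt _ _).measurableSet (adm_cw (L := R) b2
      (A.anti (by linarith) n (b5 i))) (o.t i n)).2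
    rw [cw_tr (zero_add _).symm] at this
    have d1 := abs_lt.1 (a2 i)
    have d2 := abs_lt.1 (b3 i)
    rw [eI, snd_pre, ← this, abs_le]
    constructor <;> linarith
  rw [eI, snd_pre] at c3
  linarith [abs_sub_le (∫ x in univ ×ˢ A.J R n, kZ D (c n) x ∂D.Z.μ)
    (∑ i, eI D.Z.μ Prod.snd (kZ D (c n)) (Icc (o.t i n - R) (o.t i n + R))) o.lev]

end Out

end Crest.Agent.X212.Bki64
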