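import Crest.Agent.X212.Bki64.Fam
import Crest.Agent.X212.Std94.Loc

/-!
# X212, BRKI (helper64), part 2: closeness of configurations in a gauge

`dA`, `dP` measure the distance of `u_* c` (with a phase) from `c'`; `CZ` is convergence in `C^k`.
-/

set_option autoImplicit false
set_option linter.unusedSectionVars false
noncomputable section
open scoped Manifold ContDiff Topology InnerProductSpace
open MeasureTheory Set Function Filter

namespace Crest.Agent.X212.Bki64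
open An Sob92 Cyf70 Neck67 Cmp73 Pj41 Eqv71 Tmp64

variable {E : Type} [NormedAddCommGroup E] [NormedSpace ℝ E] [FiniteDimensional ℝ E]
  [MeasurableSpace E] [BorelSpace E]
  {HM : Type} [TopologicalSpace HM] {I : ModelWithCorners ℝ E HM}
  {M : Type} [TopologicalSpace M] [ChartedSpace HM M] [IsManifold I ∞ M]
  [MeasurableSpace M] {ι : Type} [Fintype ι] {lam : Type} [Fintype lam] {r r' r'' : ℕ}
  {B : Base M ι lam} {G : Geo I M ι lam}

section lin
variable {κ κ' : Type} [Fintype κ] [Fintype κ']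

theorem norm_iso {u : CL (Eu κ) (Eu κ')} {p : En κ} {q : En κ'} (h : CIso u p q) : ‖u‖ ≤ 1 := by
  have hp : ∀ v, ‖p v‖ ≤ ‖v‖ := fun v => by
    have h1 : ‖p v‖ * ‖p v‖ ≤ ‖p v‖ * ‖v‖ := by
      rw [← real_inner_self_eq_norm_mul_norm, ← h.prj_src.symm, h.prj_src.app]
      exact real_inner_le_norm _ _
    rcases (norm_nonneg (p v)).eq_or_lt with h0 | h0
    · rw [← h0]; exact norm_nonneg _
    · exact le_of_mul_le_mul_left h1 h0
  refine ContinuousLinearMap.opNorm_le_bound _ zero_le_one fun v => ?_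
  rw [one_mul]
  refine (mul_self_le_mul_self_iff (norm_nonneg _) (norm_nonneg _)).2 ?_
  rw [← real_inner_self_eq_norm_mul_norm, h.inner]
  exact (real_inner_le_norm _ _).trans (mul_le_mul_of_nonneg_right (hp v) (norm_nonneg _))

/-- the complex scalars as a linear map -/
def csB (J : En κ) : CL ℂ (En κ) := Complex.reCLM.smulRight 1 + Complex.imCLM.smulRight J

theorem csB_apply (J : En κ) (z : ℂ) (v : Eu κ) : csB J z v = cs J z v := rfl

end lin

section alg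
variable (F : Fr I M ι) (c : Cfg M ι lam r) (c' : Cfg M ι lam r') (u : M → CL c.m.V c'.m.V)

/-- the covariant derivative of `u` -/
def cov (a : ι) (x : M) : CL c.m.V c'.m.V := F.D a u x + c'.W a x ∘L u x - u x ∘L c.W a x

/-- the connection of `c'` minus the connection of `c` transported by `u` -/
def dA (a : ι) (x : M) : En (Fin c'.m.N) := cov F c c' u a x ∘L trn (u x)

/-- the transported spinor of `c` minus the spinor of `c'` -/
def dP (ζ : Circle) (x : M) : c'.m.V := cs c'.m.J ζ (u x (c.Φ x)) - c'.Φ x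

variable {F c c' u} {c'' : Cfg M ι lam r''} {h : M → CL c'.m.V c''.m.V}
  {u' : M → CL c.m.V c''.m.V} {O : Set M} {x : M}

theorem D_eq_cov (a : ι) : F.D a u x = cov F c c' u a x - c'.W a x ∘L u x + u x ∘L c.W a x := by
  rw [cov]; abel

theorem cov_congr {v : M → CL c.m.V c'.m.V} (e : v =ᶠ[𝓝 x] u) (a : ι) :
    cov F c c' v a x = cov F c c' u a x := by
  rw [cov, cov, e.eq_of_nhds, Pre.D_def, dv_congr e, ← Pre.D_def]

theorem dA_congr {v : M → CL c.m.V c'.m.V} (e : v =ᶠ[𝓝 x] u) (a : ι) :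
    dA F c c' v a =ᶠ[𝓝 x] dA F c c' u a :=
  e.eventuallyEq_nhds.mono fun y hy => by rw [dA, dA, cov_congr hy, hy.eq_of_nhds]

theorem cov_comp (hu : FSm I u x) (hh : FSm I h x) (a : ι) :
    cov F c c'' (fun y => h y ∘L u y) a x =
      cov F c' c'' h a x ∘L u x + h x ∘L cov F c c' u a x := by
  rw [cov, cov, cov, Pre.D_def, dv_cc hh hu, ← Pre.D_def, ← Pre.D_def]
  simp only [ContinuousLinearMap.comp_sub, ContinuousLinearMap.sub_comp,
    ContinuousLinearMap.comp_add, ContinuousLinearMap.add_comp, ContinuousLinearMap.comp_assoc]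
  abel

theorem cov_ad (hu : FSm I u x) {a : ι} (h1 : Skw (c.W a x)) (h2 : Skw (c'.W a x)) :
    cov F c' c (fun y => ad (u y)) a x = ad (cov F c c' u a x) := by
  rw [cov, cov, Pre.D_def, dv_ad hu, ← Pre.D_def, ad_sub, ad_add, ad_comp, ad_comp, ad_skew.2 h1,
    ad_skew.2 h2, ContinuousLinearMap.comp_neg, ContinuousLinearMap.neg_comp]
  abel

theorem dA_u (hu : Iso0 I c.m c'.m O u) (hO : IsOpen O) (hc : AdmOn c B G O) (hx : x ∈ O) (a : ι) :
    dA G.F c c' u a x ∘L u x = cov G.F c c' u a x := by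
  have h1 := (hu.ph hO hc.ok hc.conn hx a).T_p
  have h2 : cov G.F c c' u a x = c'.W a x ∘L u x - pshT I (G.F.e a) u (c.W a) x := by
    rw [cov, pshT, Pre.D_def]; abel
  rw [dA, ContinuousLinearMap.comp_assoc, ← ad_trn, (hu.iso x hx).src, h2,
    ContinuousLinearMap.sub_comp, h1, ContinuousLinearMap.comp_assoc, (hu.iso x hx).idem]

theorem fsm_cov (hu : FSm I u x) {a : ι} (h1 : FSm I (c.W a) x) (h2 : FSm I (c'.W a) x) :
    FSm I (cov F c c' u a) x := ((dv_smoothAt (F.sm a x) hu).add (h2.cc hu)).sub (hu.cc h1)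

theorem fsm_dA (hu : FSm I u x) {a : ι} (h1 : FSm I (c.W a) x) (h2 : FSm I (c'.W a) x) :
    FSm I (dA F c c' u a) x := by
  have := (fsm_cov (F := F) hu h1 h2).cc hu.ad
  simp only [ad_trn] at this
  exact this

theorem dA_comp (hu : Iso0 I c.m c'.m O u) (hh : Iso0 I c'.m c''.m O h) (hx : x ∈ O) (a : ι) :
    dA F c c'' (fun y => h y ∘L u y) a x =
      dA F c' c'' h a x + h x ∘L dA F c c' u a x ∘L ad (h x) := by
  rw [dA, dA, dA, cov_comp (hu.su x hx) (hh.su x hx), ← ad_trn, ← ad_trn, ← ad_trn, ad_comp]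
  simp only [ContinuousLinearMap.add_comp, ContinuousLinearMap.comp_assoc]
  rw [← ContinuousLinearMap.comp_assoc (u x), (hu.iso x hx).tgt, (hh.iso x hx).symm.left]

theorem dP_comp (hJ : c''.m.J * c''.m.J = -1) (hh : Iso0 I c'.m c''.m O h) (hx : x ∈ O)
    (ζ ξ : Circle) : dP c c'' (fun y => h y ∘L u y) (ξ * ζ) x =
      dP c' c'' h ξ x + csB c''.m.J ξ (h x (dP c c' u ζ x)) := by
  rw [dP, dP, dP, csB_apply, map_sub, map_cs (hh.J x hx).symm, ← csB_apply _ _ (_ - _), map_sub,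
    csB_apply, csB_apply, cs_mul hJ, Circle.coe_mul]
  simp only [ContinuousLinearMap.comp_apply]
  abel

theorem cov_quot (hu : Iso0 I c.m c'.m O u) (hu' : Iso0 I c.m c''.m O u') (hO : IsOpen O)
    (hc : AdmOn c B G O) (hc' : AdmOn c' B G O) (hx : x ∈ O) (a : ι) :
    cov G.F c' c'' (fun y => u' y ∘L ad (u y)) a x = dA G.F c c'' u' a x ∘L (u' x ∘L ad (u x)) +
      (u' x ∘L ad (u x)) ∘L ad (dA G.F c c' u a x) := by
  rw [cov_comp (c' := c) (hu.su x hx).ad (hu'.su x hx), cov_ad (hu.su x hx) (hc.conn.sk a x hx)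
    (hc'.conn.sk a x hx), ← dA_u hu hO hc hx, ← dA_u hu' hO hc hx, ad_comp]
  simp only [ContinuousLinearMap.comp_assoc]

theorem dP_quot (hJ : c''.m.J * c''.m.J = -1) (hu : Iso0 I c.m c'.m O u)
    (hu' : Iso0 I c.m c''.m O u') (ht : Iso0 I c'.m c''.m O fun y => u' y ∘L ad (u y))
    (hx : x ∈ O) (ζ ζ' : Circle) : dP c' c'' (fun y => u' y ∘L ad (u y)) (ζ' / ζ) x =
      dP c c'' u' ζ' x - csB c''.m.J (ζ' / ζ : Circle) ((u' x ∘L ad (u x)) (dP c c' u ζ x)) := by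
  rw [eq_sub_iff_add_eq, ← dP_comp hJ ht hx, div_mul_cancel, dP, dP,
    ContinuousLinearMap.comp_assoc, (hu.iso x hx).src, (hu'.iso x hx).idem]

end alg

/-- `C^k`-closeness over `O` in the gauge `u` with the phase function `ζ` -/
structure Cl (F : Fr I M ι) (c : Cfg M ι lam r) (c' : Cfg M ι lam r') (u : M → CL c.m.V c'.m.V)
    (ζ : M → Circle) (O : Set M) (k : ℕ) (η : ℝ) : Prop where
  op : IsOpen O
  iso : Iso0 I c.m c'.m O u
  A : ∀ a, Lb F.toPre O k (dA F c c' u a) η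
  P : Lb F.toPre O k (fun x => dP c c' u (ζ x) x) η

section cl
variable {F : Fr I M ι} {c : Cfg M ι lam r} {c' : Cfg M ι lam r'} {u : M → CL c.m.V c'.m.V}
  {ζ : M → Circle} {O O' : Set M} {k j : ℕ} {η η' : ℝ}

theorem Cl.mono (h : Cl F c c' u ζ O k η) (hO : IsOpen O') (hs : O' ⊆ O) (hj : j ≤ k)
    (hη : η ≤ η') : Cl F c c' u ζ O' j η' :=
  ⟨hO, h.iso.mono hs, fun a => ((h.A a).of_le hj).mono' hs hη, (h.P.of_le hj).mono' hs hη⟩

theorem lb_local {N : Type} [NormedAddCommGroup N] [NormedSpace ℝ N] {F : Pre I M ι} {f : M → N}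
    (h : ∀ x ∈ O, ∃ O' g, x ∈ O' ∧ f =ᶠ[𝓝 x] g ∧ Lb F O' k g η) : Lb F O k f η := by
  have h1 : ∀ x ∈ O, Lb F {x} k f η := fun x hx =>
    let ⟨_, _, h1, h2, h3⟩ := h x hx
    (h3.sub (singleton_subset_iff.2 h1)).congr' fun y hy => by rw [hy]; exact h2
  exact Lb.of_Dw (fun x hx => (h1 x hx).sm rfl) fun w hw x hx => (h1 x hx).Dw w hw x rfl

/-- closeness is a local property -/
theorem Cl.of_local (hO : IsOpen O) (h : ∀ x ∈ O, ∃ O' v ξ, x ∈ O' ∧ u =ᶠ[𝓝 x] v ∧ ζ =ᶠ[𝓝 x] ξ ∧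
    Cl F c c' v ξ O' k η) : Cl F c c' u ζ O k η := by
  choose! O' v ξ h1 h2 h3 h4 using h
  have e := fun x hx => (h2 x hx).eq_of_nhds
  refine ⟨hO, ⟨fun x hx => ((h4 x hx).iso.su x (h1 x hx)).congr_of_eventuallyEq (h2 x hx),
    fun x hx => e x hx ▸ (h4 x hx).iso.iso x (h1 x hx),
    fun x hx => e x hx ▸ (h4 x hx).iso.J x (h1 x hx),
    fun x hx => e x hx ▸ (h4 x hx).iso.ρ x (h1 x hx),
    fun x hx => e x hx ▸ (h4 x hx).iso.j x (h1 x hx)⟩,
    fun a => lb_local fun x hx => ⟨_, _, h1 x hx, dA_congr (h2 x hx) a, (h4 x hx).A a⟩,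
    lb_local fun x hx => ⟨_, _, h1 x hx, ?_, (h4 x hx).P⟩⟩
  filter_upwards [h2 x hx, h3 x hx] with y a b
  rw [dP, dP, a, b]

theorem Cl.congr {v : M → CL c.m.V c'.m.V} {ξ : M → Circle} (h : Cl F c c' u ζ O k η)
    (e : ∀ x ∈ O, v x = u x) (e' : ∀ x ∈ O, ξ x = ζ x) : Cl F c c' v ξ O k η :=
  Cl.of_local h.op fun _ hx => ⟨O, u, ζ, hx, Eventually.mono (h.op.mem_nhds hx) e,
    Eventually.mono (h.op.mem_nhds hx) e', h⟩

/-- an exact equivalence is close -/
theorem Cl.of_eq (hO : IsOpen O) (hu : Iso0 I c.m c'.m O u) (h1 : ∀ a, ∀ x ∈ O, cov F c c' u a x = 0)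
    (h2 : ∀ x ∈ O, dP c c' u (ζ x) x = 0) (hη : 0 ≤ η) : Cl F c c' u ζ O k η :=
  ⟨hO, hu, fun a => ((Lb.const hO 0).mono (by simpa using hη)).congr hO fun x hx => by
      rw [dA, h1 a x hx, ContinuousLinearMap.zero_comp],
    ((Lb.const hO 0).mono (by simpa using hη)).congr hO h2⟩

theorem Cl.refl (hO : IsOpen O) (hc : AdmOn c B G O) (hη : 0 ≤ η) :
    Cl G.F c c c.m.p (fun _ => 1) O k η :=
  Cl.of_eq hO (Eq0.refl hc).iso (fun a x hx => (Eq0.refl hc).par x hx a)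
    (fun x hx => by rw [dP, hc.pΦ hx, Circle.coe_one, cs_one, sub_self]) hη

end cl

section fam
variable {α : Type} {ρ : α → ℕ}

/-- convergence in `C^k` -/
def CZ (F : Fr I M ι) (l : Filter α) (S : α → Set M) (k : ℕ) (c : ∀ n, Cfg M ι lam (ρ n))
    (c' : Cfg M ι lam r') (u : ∀ n, M → CL (c n).m.V c'.m.V) (ζ : α → M → Circle) : Prop :=
  ∀ ε > 0, ∀ᶠ n in l, Cl F (c n) c' (u n) (ζ n) (S n) k ε

/-- a fixed configuration with bounded coefficients -/
structure Fx (B : Base M ι lam) (G : Geo I M ι lam) (l : Filter α) (S : α → Set M) (k : ℕ)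
    (c : Cfg M ι lam r) : Prop where
  adm : ∀ᶠ n in l, AdmOn c B G (S n)
  W : ∀ a, BB G.F.toPre l S k fun _ => c.W a
  Φ : BB G.F.toPre l S k fun _ => c.Φ

variable {F : Fr I M ι} {l : Filter α} {S : α → Set M} {k j : ℕ} {c : ∀ n, Cfg M ι lam (ρ n)}
  {c' : Cfg M ι lam r'} {c'' : Cfg M ι lam r''} {u : ∀ n, M → CL (c n).m.V c'.m.V}
  {u' : ∀ n, M → CL (c n).m.V c''.m.V} {h : α → M → CL c'.m.V c''.m.V} {ζ ζ' ξ : α → M → Circle}

theorem Fx.of_le (H : Fx B G l S k c') (hj : j ≤ k) : Fx B G l S j c' :=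
  ⟨H.adm, fun a => (H.W a).of_le hj, H.Φ.of_le hj⟩

theorem CZ.iso (H : CZ F l S k c c' u ζ) : ∀ᶠ n in l, Iso0 I (c n).m c'.m (S n) (u n) :=
  (H 1 one_pos).mono fun _ h => h.iso

theorem CZ.op (H : CZ F l S k c c' u ζ) : ∀ᶠ n in l, IsOpen (S n) :=
  (H 1 one_pos).mono fun _ h => h.op

theorem CZ.A (H : CZ F l S k c c' u ζ) (a : ι) :
    ZZ F.toPre l S k fun n => dA F (c n) c' (u n) a := fun ε hε =>
  (H ε hε).mono fun _ h => ⟨h.op, h.A a⟩

theorem CZ.P (H : CZ F l S k c c' u ζ) :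
    ZZ F.toPre l S k fun n x => dP (c n) c' (u n) (ζ n x) x := fun ε hε =>
  (H ε hε).mono fun _ h => ⟨h.op, h.P⟩

theorem CZ.mk (h1 : ∀ᶠ n in l, Iso0 I (c n).m c'.m (S n) (u n))
    (h2 : ∀ a, ZZ F.toPre l S k fun n => dA F (c n) c' (u n) a)
    (h3 : ZZ F.toPre l S k fun n x => dP (c n) c' (u n) (ζ n x) x) : CZ F l S k c c' u ζ :=
  fun ε hε => (h1.and ((eventually_all.2 fun a => h2 a ε hε).and (h3 ε hε))).mono fun _ h =>
    ⟨h.2.2.1, h.1, fun a => (h.2.1 a).2, h.2.2.2⟩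

theorem CZ.mono {l' : Filter α} {S' : α → Set M} (H : CZ F l S k c c' u ζ) (hl : l' ≤ l)
    (hj : j ≤ k) (hS : ∀ᶠ n in l', IsOpen (S' n) ∧ S' n ⊆ S n) : CZ F l' S' j c c' u ζ :=
  fun ε hε => (hS.and ((H ε hε).filter_mono hl)).mono fun _ h => h.2.mono h.1.1 h.1.2 hj le_rfl

theorem CZ.congr {v : ∀ n, M → CL (c n).m.V c'.m.V} (H : CZ F l S k c c' u ζ)
    (e : ∀ᶠ n in l, ∀ x ∈ S n, v n x = u n x ∧ ξ n x = ζ n x) : CZ F l S k c c' v ξ :=
  fun ε hε => ((H ε hε).and e).mono fun _ h =>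
    h.1.congr (fun x hx => (h.2 x hx).1) fun x hx => (h.2 x hx).2

theorem BB.ad {κ κ' : Type} [Fintype κ] [Fintype κ'] {F : Pre I M ι}
    {f : α → M → CL (Eu κ) (Eu κ')} (H : BB F l S k f) : BB F l S k fun n x => ad (f n x) :=
  H.clm adL

theorem ZZ.ad {κ κ' : Type} [Fintype κ] [Fintype κ'] {F : Pre I M ι}
    {f : α → M → CL (Eu κ) (Eu κ')} (H : ZZ F l S k f) : ZZ F l S k fun n x => ad (f n x) :=
  H.clm adL

theorem bb_iso (hS : ∀ᶠ n in l, IsOpen (S n)) (H : ∀ᶠ n in l, Iso0 I c'.m c''.m (S n) (h n)) :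
    BB F.toPre l S 0 h :=
  BB.zero_of hS (H.mono fun _ h x hx => ⟨h.su x hx, norm_iso (h.iso x hx)⟩)

/-- isomorphisms with bounded covariant derivative are bounded -/
theorem bb_of_cov (hS : ∀ᶠ n in l, IsOpen (S n)) (H : ∀ᶠ n in l, Iso0 I c'.m c''.m (S n) (h n))
    (h1 : Fx B G l S k c') (h2 : Fx B G l S k c'') (h3 : ∀ j ≤ k, BB G.F.toPre l S j h →
      ∀ a, BB G.F.toPre l S j fun n => cov G.F c' c'' (h n) a) : BB G.F.toPre l S (k + 1) h :=
  (bb_iso hS H).boot fun j hj hb a =>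
    (((h3 j hj hb a).sub (((h2.W a).of_le hj).comp hb)).add (hb.comp ((h1.W a).of_le hj))).congr
      (Eventually.of_forall fun _ _ _ => D_eq_cov a)

theorem CZ.cov (H : CZ G.F l S k (fun _ => c') c'' h ξ) (h1 : Fx B G l S k c') (hj : j ≤ k)
    (hb : BB G.F.toPre l S j h) (a : ι) : ZZ G.F.toPre l S j fun n => cov G.F c' c'' (h n) a :=
  (((H.A a).of_le hj).comp hb).congr <| (H.op.and (H.iso.and h1.adm)).mono fun _ h _ hx =>
    (dA_u h.2.1 h.1 h.2.2 hx a).symm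

theorem CZ.bb (H : CZ G.F l S k (fun _ => c') c'' h ξ) (h1 : Fx B G l S k c')
    (h2 : Fx B G l S k c'') : BB G.F.toPre l S (k + 1) h :=
  bb_of_cov H.op H.iso h1 h2 fun _ hj hb a => (H.cov h1 hj hb a).bb

theorem CZ.refl (h1 : Fx B G l S k c') :
    CZ G.F l S j (fun _ => c') c' (fun _ => c'.m.p) fun _ _ => 1 := fun _ hε =>
  (h1.Φ.op.and h1.adm).mono fun _ h => Cl.refl h.1 h.2 hε.le

theorem Fx.p (h1 : Fx B G l S k c') : BB G.F.toPre l S (k + 1) fun _ => c'.m.p :=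
  (CZ.refl h1).bb h1 h1

/-- composition -/
theorem CZ.comp (H : CZ G.F l S k c c' u ζ) (H' : CZ G.F l S k (fun _ => c') c'' h ξ)
    (h1 : Fx B G l S k c') (h2 : Fx B G l S k c'') (h3 : BB G.F.toPre l S k fun n x => (ξ n x : ℂ)) :
    CZ G.F l S k c c'' (fun n x => h n x ∘L u n x) fun n x => ξ n x * ζ n x := by
  have hb := (H'.bb h1 h2).of_le k.le_succ
  refine CZ.mk ((H.iso.and H'.iso).mono fun _ h => h.1.trans h.2) (fun a => ?_) ?_
  · exact ((H'.A a).add (hb.compZ ((H.A a).comp hb.ad))).congr <|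
      (H.iso.and H'.iso).mono fun _ h _ hx => dA_comp h.1 h.2 hx a
  · exact (H'.P.add ((h3.clm (csB c''.m.J)).appZ (hb.appZ H.P))).congr <|
      (H'.iso.and h2.adm).mono fun _ h _ hx => dP_comp h.2.ok.Jsq h.1 hx _ _

/-- two gauges in which a family converges -/
theorem CZ.quot (H : CZ G.F l S k c c' u ζ) (H' : CZ G.F l S k c c'' u' ζ')
    (h0 : ∀ᶠ n in l, AdmOn (c n) B G (S n)) (h1 : Fx B G l S k c') (h2 : Fx B G l S k c'')
    (h3 : BB G.F.toPre l S k fun n x => ((ζ' n x / ζ n x : Circle) : ℂ)) :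
    CZ G.F l S k (fun _ => c') c'' (fun n x => u' n x ∘L ad (u n x)) fun n x => ζ' n x / ζ n x := by
  have ht : ∀ᶠ n in l, Iso0 I c'.m c''.m (S n) fun x => u' n x ∘L ad (u n x) := by
    filter_upwards [H.iso, H'.iso, h0, h1.adm] with n a b d e using (a.symm d.ok e.ok).trans b
  have hc : ∀ j ≤ k, BB G.F.toPre l S j (fun n x => u' n x ∘L ad (u n x)) → ∀ a,
      ZZ G.F.toPre l S j fun n => Bki64.cov G.F c' c'' (fun x => u' n x ∘L ad (u n x)) a :=
    fun j hj hb a => ((((H'.A a).of_le hj).comp hb).add (hb.compZ ((H.A a).of_le hj).ad)).congr <| by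
      filter_upwards [H.op, H.iso, H'.iso, h0, h1.adm] with n o a' b d e x hx
        using cov_quot a' b o d e hx a
  have hb := (bb_of_cov H.op ht h1 h2 fun j hj hb a => (hc j hj hb a).bb).of_le k.le_succ
  refine CZ.mk ht (fun a => ((hc k le_rfl hb a).comp hb.ad).congr' fun n x => by
    rw [dA, ← ad_trn]) ?_
  refine (H'.P.sub ((h3.clm (csB c''.m.J)).appZ (hb.appZ H.P))).congr ?_
  filter_upwards [H.iso, H'.iso, ht, h2.adm] with n a b d e x hx using dP_quot e.ok.Jsq a b d hx _ _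

/-- automorphisms close to the identity -/
theorem CZ.of_near {h : α → M → CL c'.m.V c'.m.V} (H : ∀ᶠ n in l, Iso0 I c'.m c'.m (S n) (h n))
    (h1 : Fx B G l S k c') (h2 : ZZ G.F.toPre l S (k + 1) fun n x => h n x - c'.m.p x)
    (h3 : ZZ G.F.toPre l S k fun n x => (ξ n x : ℂ) - 1) :
    CZ G.F l S k (fun _ => c') c' h ξ := by
  have h4 := h2.of_le k.le_succ
  have hb : BB G.F.toPre l S k h := (h4.bb.add (h1.p.of_le k.le_succ)).congr
    (Eventually.of_forall fun _ _ _ => (sub_add_cancel _ _).symm)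
  refine CZ.mk H (fun a => ?_) ?_
  · refine (((((h2.D a).add ((h1.W a).compZ h4)).sub (h4.comp (h1.W a)))).comp hb.ad).congr ?_
    filter_upwards [H, h1.adm] with n b d x hx
    have := (Eq0.refl d).par x hx a
    have e : G.F.D a (fun x => h n x - c'.m.p x) x = G.F.D a (h n) x - G.F.D a c'.m.p x :=
      dv_sub (b.su x hx).md (d.ok.sp x hx).md
    rw [dA, ad_trn, e, Bki64.cov, ← sub_zero (_ - h n x ∘L _), ← this]
    congr 1
    simp only [ContinuousLinearMap.comp_sub, ContinuousLinearMap.sub_comp]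
    abel
  · refine (((h3.clm (csB c'.m.J)).app (hb.app h1.Φ)).add (h4.app h1.Φ)).congr ?_
    filter_upwards [h1.adm] with n d x hx
    rw [dP, map_sub, sub_apply, sub_apply, csB_apply,
      csB_apply, cs_one, d.pΦ hx]
    abel

end fam

end Crest.Agent.X212.Bki64
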