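import Crest.Agent.X212.Neck67.Lb
import Crest.Agent.X212.Cmp73.Cv
import Crest.Agent.X212.Tmp64.Sq

/-!
# X212, BRKI (helper64), part 1: families which are bounded (`BB`) or small (`ZZ`) in `C^k`
-/

set_option autoImplicit false
set_option linter.unusedSectionVars false
noncomputable section
open scoped Manifold ContDiff Topology InnerProductSpace
open MeasureTheory Set Function Filter

namespace Crest.Agent.X212.Bki64
open An Sob92 Cyf70 Neck67 Cmp73

variable {E : Type} [NormedAddCommGroup E] [NormedSpace ℝ E] [FiniteDimensional ℝ E]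
  [MeasurableSpace E] [BorelSpace E]
  {HM : Type} [TopologicalSpace HM] {I : ModelWithCorners ℝ E HM}
  {M : Type} [TopologicalSpace M] [ChartedSpace HM M] [IsManifold I ∞ M]
  [MeasurableSpace M] {ι : Type} [Fintype ι]
  {N N' N'' : Type} [NormedAddCommGroup N] [NormedSpace ℝ N] [NormedAddCommGroup N']
  [NormedSpace ℝ N'] [NormedAddCommGroup N''] [NormedSpace ℝ N''] {α : Type}

/-- an `ε`-`δ` statement from a statement about sequences -/
theorem exists_eta {γ : Type*} {H : γ → ℝ → Prop} {P : γ → Prop}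
    (h : ∀ d : ℕ → γ, (∀ n : ℕ, H (d n) (1 / ((n : ℝ) + 1))) → ∃ n, P (d n)) :
    ∃ η > 0, ∀ d, H d η → P d := by
  by_contra hc
  push Not at hc
  choose d h1 h2 using fun n : ℕ => hc (1 / ((n : ℝ) + 1)) Nat.one_div_pos_of_nat
  obtain ⟨n, hn⟩ := h d h1
  exact h2 n hn

/-- bounded in `C^k` -/
def BB (F : Pre I M ι) (l : Filter α) (S : α → Set M) (k : ℕ) (f : α → M → N) : Prop :=
  ∃ C, ∀ᶠ n in l, IsOpen (S n) ∧ Lb F (S n) k (f n) C

/-- small in `C^k` -/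
def ZZ (F : Pre I M ι) (l : Filter α) (S : α → Set M) (k : ℕ) (f : α → M → N) : Prop :=
  ∀ ε > 0, ∀ᶠ n in l, IsOpen (S n) ∧ Lb F (S n) k (f n) ε

variable {F : Pre I M ι} {l l' : Filter α} {S S' : α → Set M} {k j : ℕ} {f f' : α → M → N}
  {g : α → M → N'}

theorem ZZ.bb (h : ZZ F l S k f) : BB F l S k f := ⟨1, h 1 one_pos⟩

theorem BB.op (h : BB F l S k f) : ∀ᶠ n in l, IsOpen (S n) := h.choose_spec.mono fun _ h => h.1

theorem ZZ.op (h : ZZ F l S k f) : ∀ᶠ n in l, IsOpen (S n) := h.bb.op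

theorem BB.pos (h : BB F l S k f) : ∃ C > 0, ∀ᶠ n in l, IsOpen (S n) ∧ Lb F (S n) k (f n) C :=
  let ⟨C, hC⟩ := h
  ⟨|C| + 1, by positivity, hC.mono fun _ h => ⟨h.1, h.2.mono (by linarith [le_abs_self C])⟩⟩

theorem BB.mono (h : BB F l S k f) (hl : l' ≤ l) (hj : j ≤ k)
    (hS : ∀ᶠ n in l', IsOpen (S' n) ∧ S' n ⊆ S n) : BB F l' S' j f :=
  h.imp fun _ hC => (hS.and (hC.filter_mono hl)).mono fun _ h => ⟨h.1.1, (h.2.2.of_le hj).sub h.1.2⟩

theorem ZZ.mono (h : ZZ F l S k f) (hl : l' ≤ l) (hj : j ≤ k)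
    (hS : ∀ᶠ n in l', IsOpen (S' n) ∧ S' n ⊆ S n) : ZZ F l' S' j f := fun ε hε =>
  (hS.and ((h ε hε).filter_mono hl)).mono fun _ h => ⟨h.1.1, (h.2.2.of_le hj).sub h.1.2⟩

theorem BB.of_le (h : BB F l S k f) (hj : j ≤ k) : BB F l S j f :=
  h.mono le_rfl hj (h.op.mono fun _ h => ⟨h, Subset.rfl⟩)

theorem ZZ.of_le (h : ZZ F l S k f) (hj : j ≤ k) : ZZ F l S j f :=
  h.mono le_rfl hj (h.op.mono fun _ h => ⟨h, Subset.rfl⟩)

theorem BB.reindex {β : Type} {l' : Filter β} {e : β → α} (h : BB F l S k f) (he : Tendsto e l' l) :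
    BB F l' (fun n => S (e n)) k fun n => f (e n) := h.imp fun _ hC => he.eventually hC

theorem ZZ.reindex {β : Type} {l' : Filter β} {e : β → α} (h : ZZ F l S k f) (he : Tendsto e l' l) :
    ZZ F l' (fun n => S (e n)) k fun n => f (e n) := fun ε hε => he.eventually (h ε hε)

theorem BB.congr (h : BB F l S k f) (e : ∀ᶠ n in l, ∀ x ∈ S n, f' n x = f n x) : BB F l S k f' :=
  h.imp fun _ hC => (hC.and e).mono fun _ h => ⟨h.1.1, h.1.2.congr h.1.1 h.2⟩

theorem ZZ.congr (h : ZZ F l S k f) (e : ∀ᶠ n in l, ∀ x ∈ S n, f' n x = f n x) : ZZ F l S k f' :=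
  fun ε hε => ((h ε hε).and e).mono fun _ h => ⟨h.1.1, h.1.2.congr h.1.1 h.2⟩

theorem ZZ.congr' (h : ZZ F l S k f) (e : ∀ n x, f' n x = f n x) : ZZ F l S k f' :=
  h.congr (Eventually.of_forall fun n x _ => e n x)

theorem BB.sm (h : BB F l S k f) : ∀ᶠ n in l, ∀ x ∈ S n, ContMDiffAt I 𝓘(ℝ, N) ∞ (f n) x :=
  h.choose_spec.mono fun _ h _ hx => h.2.sm hx

theorem ZZ.le (h : ZZ F l S k f) {ε : ℝ} (hε : 0 < ε) : ∀ᶠ n in l, ∀ x ∈ S n, ‖f n x‖ ≤ ε :=
  (h ε hε).mono fun _ h _ hx => h.2.le hx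

theorem BB.zero_of (hS : ∀ᶠ n in l, IsOpen (S n)) {C : ℝ}
    (h : ∀ᶠ n in l, ∀ x ∈ S n, ContMDiffAt I 𝓘(ℝ, N) ∞ (f n) x ∧ ‖f n x‖ ≤ C) : BB F l S 0 f :=
  ⟨C, hS.and h⟩

theorem BB.consts (hS : ∀ᶠ n in l, IsOpen (S n)) {c : α → N} {C : ℝ} (h : ∀ᶠ n in l, ‖c n‖ ≤ C) :
    BB F l S k fun n _ => c n :=
  ⟨C, (hS.and h).mono fun _ h => ⟨h.1, (Lb.const h.1 _).mono h.2⟩⟩

theorem BB.const (hS : ∀ᶠ n in l, IsOpen (S n)) (c : N) : BB F l S k fun _ _ => c :=
  BB.consts hS (Eventually.of_forall fun _ => le_rfl)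

theorem ZZ.consts (hS : ∀ᶠ n in l, IsOpen (S n)) {c : α → N} (h : Tendsto c l (𝓝 0)) :
    ZZ F l S k fun n _ => c n := fun ε hε =>
  (hS.and ((NormedAddGroup.tendsto_nhds_zero.1 h) ε hε)).mono fun _ h =>
    ⟨h.1, (Lb.const h.1 _).mono h.2.le⟩

theorem ZZ.zero (hS : ∀ᶠ n in l, IsOpen (S n)) : ZZ F l S k fun _ _ => (0 : N) :=
  ZZ.consts hS tendsto_const_nhds

theorem BB.of_CB (hS : ∀ᶠ n in l, IsOpen (S n)) {φ : M → N} (h : F.Cb φ) :
    BB F l S k fun _ => φ :=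
  let ⟨C, h1, h2⟩ := h
  ⟨C k, hS.mono fun _ h => ⟨h, Lb.of_CB h1 (h2 k)⟩⟩

theorem BB.add (h : BB F l S k f) (h' : BB F l S k f') : BB F l S k fun n x => f n x + f' n x :=
  let ⟨_, hC⟩ := h
  let ⟨_, hC'⟩ := h'
  ⟨_, (hC.and hC').mono fun _ h => ⟨h.1.1, Lb.add h.1.1 h.1.2 h.2.2⟩⟩

theorem ZZ.add (h : ZZ F l S k f) (h' : ZZ F l S k f') : ZZ F l S k fun n x => f n x + f' n x :=
  fun ε hε => ((h _ (half_pos hε)).and (h' _ (half_pos hε))).mono fun _ h =>
    ⟨h.1.1, (Lb.add h.1.1 h.1.2 h.2.2).mono (add_halves ε).le⟩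

theorem BB.bil (B : N →L[ℝ] N' →L[ℝ] N'') (h : BB F l S k f) (h' : BB F l S k g) :
    BB F l S k fun n x => B (f n x) (g n x) :=
  let ⟨_, h1, hC⟩ := h.pos
  let ⟨_, h2, hC'⟩ := h'.pos
  ⟨_, (hC.and hC').mono fun _ h => ⟨h.1.1, Lb.bil h.1.1 B h1.le h2.le h.1.2 h.2.2⟩⟩

theorem ZZ.bil (B : N →L[ℝ] N' →L[ℝ] N'') (h : ZZ F l S k f) (h' : BB F l S k g) :
    ZZ F l S k fun n x => B (f n x) (g n x) := fun ε hε => by
  obtain ⟨C, h2, hC⟩ := h'.pos
  have h3 : 0 < (2 ^ k * ‖B‖ + 1) * C := by positivity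
  refine ((h _ (div_pos hε h3)).and hC).mono fun n h => ⟨h.1.1,
    (Lb.bil h.1.1 B (div_pos hε h3).le h2.le h.1.2 h.2.2).mono ?_⟩
  calc _ ≤ (2 ^ k * ‖B‖ + 1) * (ε / ((2 ^ k * ‖B‖ + 1) * C)) * C := by gcongr; linarith
    _ = ε := by field_simp

theorem BB.bilZ (B : N →L[ℝ] N' →L[ℝ] N'') (h : BB F l S k f) (h' : ZZ F l S k g) :
    ZZ F l S k fun n x => B (f n x) (g n x) := ZZ.bil B.flip h' h

theorem BB.clm (L : N →L[ℝ] N') (h : BB F l S k f) : BB F l S k fun n x => L (f n x) :=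
  BB.bil (ContinuousLinearMap.id ℝ (N →L[ℝ] N')) (BB.const h.op L) h

theorem ZZ.clm (L : N →L[ℝ] N') (h : ZZ F l S k f) : ZZ F l S k fun n x => L (f n x) :=
  BB.bilZ (ContinuousLinearMap.id ℝ (N →L[ℝ] N')) (BB.const h.op L) h

theorem BB.neg (h : BB F l S k f) : BB F l S k fun n x => -f n x :=
  h.clm (-ContinuousLinearMap.id ℝ N)

theorem ZZ.neg (h : ZZ F l S k f) : ZZ F l S k fun n x => -f n x :=
  h.clm (-ContinuousLinearMap.id ℝ N)

theorem BB.sub (h : BB F l S k f) (h' : BB F l S k f') : BB F l S k fun n x => f n x - f' n x := by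
  simpa only [sub_eq_add_neg] using h.add h'.neg

theorem ZZ.sub (h : ZZ F l S k f) (h' : ZZ F l S k f') : ZZ F l S k fun n x => f n x - f' n x := by
  simpa only [sub_eq_add_neg] using h.add h'.neg

section prod
variable {r : α → M → ℝ} {L : α → M → N →L[ℝ] N'} {P : α → M → N' →L[ℝ] N''}

theorem BB.smul (h : BB F l S k r) (h' : BB F l S k f) : BB F l S k fun n x => r n x • f n x :=
  h.bil (ContinuousLinearMap.lsmul ℝ ℝ) h'
theorem ZZ.smul (h : ZZ F l S k r) (h' : BB F l S k f) : ZZ F l S k fun n x => r n x • f n x :=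
  h.bil (ContinuousLinearMap.lsmul ℝ ℝ) h'
theorem BB.smulZ (h : BB F l S k r) (h' : ZZ F l S k f) : ZZ F l S k fun n x => r n x • f n x :=
  h.bilZ (ContinuousLinearMap.lsmul ℝ ℝ) h'
theorem BB.app (h : BB F l S k L) (h' : BB F l S k f) : BB F l S k fun n x => L n x (f n x) :=
  h.bil (ContinuousLinearMap.id ℝ (N →L[ℝ] N')) h'
theorem ZZ.app (h : ZZ F l S k L) (h' : BB F l S k f) : ZZ F l S k fun n x => L n x (f n x) :=
  h.bil (ContinuousLinearMap.id ℝ (N →L[ℝ] N')) h'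
theorem BB.appZ (h : BB F l S k L) (h' : ZZ F l S k f) : ZZ F l S k fun n x => L n x (f n x) :=
  h.bilZ (ContinuousLinearMap.id ℝ (N →L[ℝ] N')) h'
theorem BB.comp (h : BB F l S k P) (h' : BB F l S k L) : BB F l S k fun n x => P n x ∘L L n x :=
  h.bil (ContinuousLinearMap.compL ℝ N N' N'') h'
theorem ZZ.comp (h : ZZ F l S k P) (h' : BB F l S k L) : ZZ F l S k fun n x => P n x ∘L L n x :=
  h.bil (ContinuousLinearMap.compL ℝ N N' N'') h'
theorem BB.compZ (h : BB F l S k P) (h' : ZZ F l S k L) : ZZ F l S k fun n x => P n x ∘L L n x :=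
  h.bilZ (ContinuousLinearMap.compL ℝ N N' N'') h'

end prod

theorem BB.sum {κ : Type*} [Fintype κ] (hS : ∀ᶠ n in l, IsOpen (S n)) {f : κ → α → M → N}
    (h : ∀ i, BB F l S k (f i)) : BB F l S k fun n x => ∑ i, f i n x := by
  classical
  refine Finset.induction_on (motive := fun s => BB F l S k fun n x => ∑ i ∈ s, f i n x)
    Finset.univ (BB.const hS 0) fun a s ha ih => ?_
  simpa only [Finset.sum_insert ha] using (h a).add ih

theorem ZZ.sum {κ : Type*} [Fintype κ] (hS : ∀ᶠ n in l, IsOpen (S n)) {f : κ → α → M → N}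
    (h : ∀ i, ZZ F l S k (f i)) : ZZ F l S k fun n x => ∑ i, f i n x := by
  classical
  refine Finset.induction_on (motive := fun s => ZZ F l S k fun n x => ∑ i ∈ s, f i n x)
    Finset.univ (ZZ.zero hS) fun a s ha ih => ?_
  simpa only [Finset.sum_insert ha] using (h a).add ih

theorem BB.D (h : BB F l S (k + 1) f) (a : ι) : BB F l S k fun n => F.D a (f n) :=
  h.imp fun _ hC => hC.mono fun _ h => ⟨h.1, h.2.D a⟩

theorem ZZ.D (h : ZZ F l S (k + 1) f) (a : ι) : ZZ F l S k fun n => F.D a (f n) := fun ε hε =>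
  (h ε hε).mono fun _ h => ⟨h.1, h.2.D a⟩

theorem BB.succ (h0 : BB F l S 0 f) (h : ∀ a, BB F l S k fun n => F.D a (f n)) :
    BB F l S (k + 1) f := by
  obtain ⟨C0, p0, h0⟩ := h0.pos
  choose C p h using fun a => (h a).pos
  have hs : 0 ≤ ∑ a, C a := Finset.sum_nonneg fun a _ => (p a).le
  refine ⟨C0 + ∑ a, C a, (h0.and (eventually_all.2 h)).mono fun n hn =>
    ⟨hn.1.1, hn.1.2.mono (by linarith), fun a => (hn.2 a).2.mono ?_⟩⟩
  linarith [Finset.single_le_sum (fun a _ => (p a).le) (Finset.mem_univ a)]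

theorem ZZ.succ (h0 : ZZ F l S 0 f) (h : ∀ a, ZZ F l S k fun n => F.D a (f n)) :
    ZZ F l S (k + 1) f := fun ε hε =>
  ((h0 ε hε).and (eventually_all.2 fun a => h a ε hε)).mono fun _ hn =>
    ⟨hn.1.1, hn.1.2, fun a => (hn.2 a).2⟩

/-- bootstrapping -/
theorem BB.boot (h0 : BB F l S 0 f)
    (h : ∀ j ≤ k, BB F l S j f → ∀ a, BB F l S j fun n => F.D a (f n)) : BB F l S (k + 1) f := by
  have : ∀ j ≤ k + 1, BB F l S j f := fun j => by
    induction j with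
    | zero => exact fun _ => h0
    | succ j ih => exact fun hj => h0.succ (h j (by omega) (ih (by omega)))
  exact this _ le_rfl

theorem ZZ.boot (h0 : ZZ F l S 0 f)
    (h : ∀ j ≤ k, ZZ F l S j f → ∀ a, ZZ F l S j fun n => F.D a (f n)) : ZZ F l S (k + 1) f := by
  have : ∀ j ≤ k + 1, ZZ F l S j f := fun j => by
    induction j with
    | zero => exact fun _ => h0
    | succ j ih => exact fun hj => h0.succ (h j (by omega) (ih (by omega)))
  exact this _ le_rfl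

/-- composition with a smooth function -/
theorem ZZ.post {r : α → M → ℝ} (k : ℕ) : ∀ {Φ : ℝ → N}, (∀ᶠ t in 𝓝 0, ContDiffAt ℝ ∞ Φ t) →
    ZZ F l S k r → ZZ F l S k fun n x => Φ (r n x) - Φ 0 := by
  have h0 : ∀ {Φ : ℝ → N}, (∀ᶠ t in 𝓝 0, ContDiffAt ℝ ∞ Φ t) → ZZ F l S 0 r →
      ZZ F l S 0 fun n x => Φ (r n x) - Φ 0 := fun {Φ} hΦ h ε hε => by
    obtain ⟨δ, hδ, h1⟩ := Metric.nhds_basis_closedBall.eventually_iff.1
      (hΦ.and (hΦ.self_of_nhds.continuousAt.eventually (Metric.closedBall_mem_nhds _ hε)))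
    refine (h δ hδ).mono fun n hn => ⟨hn.1, fun x hx => ?_⟩
    have h2 := h1 (mem_closedBall_zero_iff.2 (hn.2.le hx))
    exact ⟨(h2.1.comp_contMDiffAt (hn.2.sm hx)).sub contMDiffAt_const,
      by rw [← dist_eq_norm]; exact h2.2⟩
  induction k with
  | zero => exact h0
  | succ k ih =>
    intro Φ hΦ h
    refine (h0 hΦ (h.of_le k.succ.zero_le)).succ fun a => ?_
    have h1 : ∀ᶠ t in 𝓝 0, ContDiffAt ℝ ∞ (deriv Φ) t := hΦ.mono fun t ht =>
      ht.derivWithin (m := ∞) (by simp)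
    obtain ⟨δ, hδ, h2⟩ := Metric.nhds_basis_closedBall.eventually_iff.1 hΦ
    refine ((h.D a).smul ((ih h1 (h.of_le k.le_succ)).bb.add (BB.const h.op (deriv Φ 0)))).congr
      ((h δ hδ).mono fun n hn x hx => ?_)
    have h3 := (h2 (mem_closedBall_zero_iff.2 (hn.2.le hx))).differentiableAt (by simp)
    rw [sub_add_cancel]
    exact dv_comp (g := fun t => Φ t - Φ 0) (hn.2.md hx) (h3.hasDerivAt.sub_const _).hasFDerivAt

section cv
variable [I.Boundaryless] {O : Set M}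

theorem BB.mb {x : M} (hx : x ∈ O) : ∀ {k : ℕ} {f : α → M → N}, BB F l (fun _ => O) k f →
    MB I l x k f := by
  have h0 : ∀ {f : α → M → N}, BB F l (fun _ => O) 0 f → MB I l x 0 f := fun ⟨C, hC⟩ => by
    rcases l.eq_or_neBot with rfl | hl
    · exact MB.zero_of (by simp) ⟨0, by simp⟩
    have := hC.prod_mk (hC.exists.choose_spec.1.eventually_mem hx)
    exact MB.zero_of (this.mono fun q hq => hq.1.2.sm hq.2) ⟨C, this.mono fun q hq => hq.1.2.le hq.2⟩
  intro k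
  induction k with
  | zero => exact h0
  | succ k ih => exact fun h => MB.gainP F (h0 (h.of_le k.succ.zero_le)) fun a => ih (h.D a)

theorem ZZ.of_cv [FiniteDimensional ℝ N] {U K : Set M} (hU : IsOpen U) (hK : IsCompact K)
    (hKU : K ⊆ U) (hO : IsOpen O) (hOK : O ⊆ K) (k : ℕ) : ∀ {f : α → M → N},
    Cv I l U f (fun _ => 0) → ZZ F l (fun _ => O) k f := by
  rcases l.eq_or_neBot with rfl | hl
  · exact fun _ _ _ => eventually_bot
  have h0 : ∀ {f : α → M → N}, Cv I l U f (fun _ => 0) → ZZ F l (fun _ => O) 0 f :=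
    fun h ε hε => ((h.mb.smooth hK hKU).and (h.unif hU hK hKU hε)).mono fun n hn =>
      ⟨hO, fun x hx => ⟨hn.1 x (hOK hx), by simpa using (hn.2 x (hOK hx)).le⟩⟩
  induction k with
  | zero => exact h0
  | succ k ih =>
    exact fun h => (h0 h).succ fun a => ih ((h.D hU F a).congr' hU
      (Eventually.of_forall fun _ _ _ => rfl) fun x _ => (congrFun (dv_const 0) x).symm)

theorem ZZ.cv (h : ∀ k, ZZ F l (fun _ => O) k f) : Cv I l O f fun _ => 0 :=
  ⟨fun k _ hx => (h k).bb.mb hx, fun x hx => NormedAddGroup.tendsto_nhds_zero.2 fun _ hε =>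
    ((h 0).le (half_pos hε)).mono fun _ hn => (hn x hx).trans_lt (half_lt_self hε)⟩

/-- a smooth function is bounded on relatively compact sets -/
theorem BB.fixed {U K : Set M} (hK : IsCompact K)
    (hKU : K ⊆ U) (hS : ∀ᶠ n in l, IsOpen (S n) ∧ S n ⊆ K) (k : ℕ) : ∀ {φ : M → N},
    (∀ x ∈ U, ContMDiffAt I 𝓘(ℝ, N) ∞ φ x) → BB F l S k fun _ => φ := by
  have h0 : ∀ {φ : M → N}, (∀ x ∈ U, ContMDiffAt I 𝓘(ℝ, N) ∞ φ x) → BB F l S 0 fun _ => φ :=
    fun h => by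
      obtain ⟨C, hC⟩ := hK.exists_bound_of_continuousOn fun x hx =>
        (h x (hKU hx)).continuousAt.continuousWithinAt
      exact ⟨C, hS.mono fun n hn => ⟨hn.1, fun x hx => ⟨h x (hKU (hn.2 hx)), hC x (hn.2 hx)⟩⟩⟩
  induction k with
  | zero => exact h0
  | succ k ih => exact fun h => (h0 h).succ fun a => ih fun x hx => dv_smoothAt (F.sm a x) (h x hx)

end cv

/-! ### the cylinder -/

section cyl
open Tmp64
variable [I.Boundaryless] [BorelSpace M] [SigmaCompactSpace M] [T2Space M] {O : Set (M × ℝ)}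

theorem lb_tr (hO : IsOpen O) (s : ℝ) {C : ℝ} : ∀ {k : ℕ} {f : M × ℝ → N}, Lb (cylP F) O k f C →
    Lb (cylP F) (sq (· + s) ⁻¹' O) k (fun x => f (sq (· + s) x)) C := by
  intro k
  induction k with
  | zero => exact fun h x hx => ⟨fsm_sq (sm_add s) (h.sm hx), h.le hx⟩
  | succ k ih =>
    refine fun h => ⟨fun x hx => ⟨fsm_sq (sm_add s) (h.sm hx), h.le hx⟩, fun a =>
      (ih (h.D a)).congr (hO.preimage (sq_sm (I := I) (sm_add s)).continuous) fun x hx => ?_⟩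
    rw [D_sq F (sm_add s) (h.sm hx)]
    cases a <;> simp [sw]

variable {S : α → Set (M × ℝ)} {f : α → M × ℝ → N}

theorem BB.tr (h : BB (cylP F) l S k f) (s : α → ℝ) :
    BB (cylP F) l (fun n => sq (· + s n) ⁻¹' S n) k fun n x => f n (sq (· + s n) x) :=
  h.imp fun _ hC => hC.mono fun n h =>
    ⟨h.1.preimage (sq_sm (I := I) (sm_add _)).continuous, lb_tr h.1 (s n) h.2⟩

theorem ZZ.tr (h : ZZ (cylP F) l S k f) (s : α → ℝ) :
    ZZ (cylP F) l (fun n => sq (· + s n) ⁻¹' S n) k fun n x => f n (sq (· + s n) x) :=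
  fun ε hε => (h ε hε).mono fun n h =>
    ⟨h.1.preimage (sq_sm (I := I) (sm_add _)).continuous, lb_tr h.1 (s n) h.2⟩

/-- smooth functions on a compact cross-section -/
theorem BB.fst [CompactSpace M] (hS : ∀ᶠ n in l, IsOpen (S n)) (k : ℕ) : ∀ {φ : M → N}, Sm I φ →
    BB (cylP F) l S k fun _ x => φ x.1 := by
  have h0 : ∀ {φ : M → N}, Sm I φ → BB (cylP F) l S 0 fun _ x => φ x.1 := fun h => by
    obtain ⟨C, hC⟩ := isCompact_univ.exists_bound_of_continuousOn h.continuous.continuousOn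
    exact BB.zero_of hS (Eventually.of_forall fun n x _ => ⟨sm_fst h x, hC _ trivial⟩)
  induction k with
  | zero => exact h0
  | succ k ih =>
    intro φ h
    refine (h0 h).succ fun a => ?_
    cases a with
    | none => rw [D_none_fst F h]; exact BB.const hS 0
    | some a => rw [D_some_fst F h]; exact ih (F.sm_D h a)

/-- functions of time -/
theorem lb_snd (hO : IsOpen O) {C : ℝ} (hC : 0 ≤ C) : ∀ {k : ℕ} {φ : ℝ → N}, ContDiff ℝ ∞ φ →
    (∀ j ≤ k, ∀ x ∈ O, ‖iteratedDeriv j φ x.2‖ ≤ C) → Lb (cylP F) O k (fun x => φ x.2) C := by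
  intro k
  induction k with
  | zero => exact fun h hb x hx => ⟨sm_snd h x, by simpa using hb 0 le_rfl x hx⟩
  | succ k ih =>
    refine fun h hb => ⟨fun x hx => ⟨sm_snd h x, by simpa using hb 0 k.succ.zero_le x hx⟩,
      fun a => ?_⟩
    cases a with
    | none =>
      rw [D_none_snd F h]
      exact ih (contDiff_infty_iff_deriv.1 h).2 fun j hj x hx => by
        rw [← iteratedDeriv_succ']; exact hb _ (by omega) x hx
    | some a => rw [D_some_snd F h]; exact (Lb.const hO 0).mono (by simpa using hC)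

end cyl

end Crest.Agent.X212.Bki64
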